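import Vale.Agent.P321.Basic

namespace Vale.Agent.P321

noncomputable section

/-- The nonempty symbol law: `e = q^2 1 + (1-q^2) symb` for `e = PX q [false, true]`. -/
def symb (q : ℝ) : Alg := (1 / (1 - q ^ 2)) • (PX q [false, true] - q ^ 2 • (1 : Alg))

/-- The sea element with survival probability `θ`. -/
def eS (q θ : ℝ) : Alg := (1 - θ) • (1 : Alg) + θ • symb q

/-- The marker. -/
def zS (q : ℝ) : Alg := PX q [false]

/-- `e^r z e^(r+1)` with survival probability `θ` in the sea. -/
def aS (q θ : ℝ) (r : ℕ) : Alg := eS q θ ^ r * zS q * eS q θ ^ (r + 1)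

/-- `(01)^i 0 (01)^j` -/
def wordAB (i j : ℕ) : List Bool :=
  (List.replicate i [false, true]).flatten ++ [false] ++ (List.replicate j [false, true]).flatten

end

end Vale.Agent.P321
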