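import Vale.Agent.P321.LevelTwo

namespace Vale.Agent.P321

open Finset

theorem PX_append (q : ℝ) (x y : List Bool) : PX q (x ++ y) = PX q x * PX q y := by
  unfold PX
  rw [List.map_append, List.prod_append]

theorem PX_flatten_replicate (q : ℝ) (x : List Bool) (n : ℕ) :
    PX q (List.replicate n x).flatten = PX q x ^ n := by
  induction n with
  | zero => simp [PX]
  | succ n ih => rw [List.replicate_succ, List.flatten_cons, PX_append, ih, pow_succ']

theorem nn_PX {q : ℝ} (h0 : 0 ≤ q) (h1 : q ≤ 1) (x : List Bool) : nn (PX q x) := by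
  unfold PX
  apply nn_list_prod
  intro y hy
  rw [List.mem_map] at hy
  obtain ⟨b, _, rfl⟩ := hy
  exact nn_add (nn_smul h0 nn_one) (nn_smul (by linarith) (nn_single _ zero_le_one))

theorem mass_PX (q : ℝ) (x : List Bool) : mass (PX q x) = 1 := by
  induction x with
  | nil => simp [PX]
  | cons b x ih =>
    have e : PX q (b :: x) =
        (q • (1 : Alg) + (1 - q) • MonoidAlgebra.single (FreeMonoid.of b) 1) * PX q x := by
      unfold PX
      rw [List.map_cons, List.prod_cons]
    rw [e, mass_mul, ih, mass_add, mass_smul, mass_smul, mass_one, mass_single]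
    ring

/-- Thue-Morse word in the letters `x` (sign `+1`) and `y` (sign `-1`). -/
noncomputable def wordTM (k : ℕ) (x y : List Bool) : List Bool :=
  ((List.range (4 ^ k)).map fun i => if tm i = 1 then x else y).flatten

private lemma ws_PX_flatten (q : ℝ) (l : List (List Bool)) :
    PX q l.flatten = (l.map (PX q)).prod := by
  induction l with
  | nil => simp [PX]
  | cons x l ih => rw [List.flatten_cons, PX_append, ih, List.map_cons, List.prod_cons]

theorem PX_wordTM (q : ℝ) (k : ℕ) (x y : List Bool) :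
    PX q (wordTM k x y) = prodTM k (PX q x) (PX q y) := by
  unfold wordTM prodTM
  rw [ws_PX_flatten, List.map_map]
  congr 1
  apply List.map_congr_left
  intro i _
  simp only [Function.comp]
  split_ifs <;> rfl

/-- `s^G τ(x,y) s^G` -/
noncomputable def wup (k G : ℕ) (s x y : List Bool) : List Bool :=
  (List.replicate G s).flatten ++ wordTM k x y ++ (List.replicate G s).flatten

theorem PX_wup (q : ℝ) (k G : ℕ) (s x y : List Bool) :
    PX q (wup k G s x y) = up k G (PX q s) (PX q x) (PX q y) := by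
  unfold wup up
  rw [PX_append, PX_append, PX_flatten_replicate, PX_wordTM]

private lemma ws_length_flatten {n : ℕ} (l : List (List Bool)) (h : ∀ x ∈ l, x.length = n) :
    l.flatten.length = l.length * n := by
  induction l with
  | nil => simp
  | cons x l ih =>
    rw [List.flatten_cons, List.length_append, h x (by simp),
      ih fun y hy => h y (by simp [hy]), List.length_cons]
    ring

private lemma ws_length_wordTM {n : ℕ} (k : ℕ) (x y : List Bool) (h1 : x.length = n)
    (h2 : y.length = n) : (wordTM k x y).length = 4 ^ k * n := by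
  unfold wordTM
  rw [ws_length_flatten (n := n)]
  · simp
  · intro z hz
    rw [List.mem_map] at hz
    obtain ⟨i, _, rfl⟩ := hz
    split_ifs
    · exact h1
    · exact h2

theorem wup_length (k G : ℕ) (s x y : List Bool) (h1 : x.length = s.length)
    (h2 : y.length = s.length) : (wup k G s x y).length = (2 * G + 4 ^ k) * s.length := by
  have hr : (List.replicate G s).flatten.length = G * s.length := by
    rw [ws_length_flatten (n := s.length)]
    · simp
    · intro z hz
      rw [List.eq_of_mem_replicate hz]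
  unfold wup
  rw [List.length_append, List.length_append, hr, ws_length_wordTM k x y h1 h2]
  ring

private lemma ws_tm_zero : tm 0 = 1 := by simp [tm]

private lemma ws_wordTM_head (k : ℕ) (x y : List Bool) : ∃ z, wordTM k x y = x ++ z := by
  obtain ⟨n, hn⟩ : ∃ n, 4 ^ k = n + 1 :=
    Nat.exists_eq_succ_of_ne_zero (pow_ne_zero k (by norm_num))
  unfold wordTM
  rw [hn, List.range_succ_eq_map, List.map_cons, List.flatten_cons]
  rw [if_pos ws_tm_zero]
  exact ⟨_, rfl⟩

/-- `tm 0 = 1`, so the first letters of the Thue-Morse parts differ. -/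
theorem wup_ne (k G : ℕ) (x y : List Bool) (h : x ≠ y) (hl : x.length = y.length) :
    wup k G x x y ≠ wup k G x y x := by
  intro he
  unfold wup at he
  have he2 := List.append_cancel_right he
  have he3 := List.append_cancel_left he2
  obtain ⟨z, hz⟩ := ws_wordTM_head k x y
  obtain ⟨z', hz'⟩ := ws_wordTM_head k y x
  rw [hz, hz'] at he3
  exact h (List.append_inj_left he3 hl)

private lemma ws_pow_le {L k m : ℕ} (hL5 : 5 ≤ L) (hLk : 4 ^ k ≤ L) (hm : 1 ≤ m) :
    2 * (2 * L ^ m) + 4 ^ k ≤ L ^ (m + 1) := by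
  have h1 : L ≤ L ^ m := by
    calc L = L ^ 1 := (pow_one L).symm
      _ ≤ L ^ m := Nat.pow_le_pow_right (by omega) hm
  have h2 : 5 * L ^ m ≤ L * L ^ m := Nat.mul_le_mul_right _ hL5
  rw [pow_succ]
  have h3 : L ^ m * L = L * L ^ m := mul_comm _ _
  omega

private lemma ws_final {a b L x y z t n m : ℕ} (e1 : a ≤ L ^ x) (e2 : b ≤ L ^ y)
    (e3 : n ≤ L ^ z) (ht : x + (y + z) = t) (hm : m = a * (b * n)) : m ≤ L ^ t := by
  rw [hm, ← ht, pow_add, pow_add]
  exact Nat.mul_le_mul e1 (Nat.mul_le_mul e2 e3)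

theorem word_step {q : ℝ} (h0 : 0 < q) (h1 : q < 1) (v w u T' : ℕ) (hvw : v + 7 ≤ w) :
    ∃ T0 L0 : ℕ, ∀ T L : ℕ, T0 ≤ T → L0 ≤ L → ∀ A B : List Bool, St q L v w u T A B →
    ∃ A' B' : List Bool, St q L (4 * v + 21) (4 * w + v) (u + 3 * v + 17) T' A' B' := by
  obtain ⟨k, hk⟩ : ∃ k : ℕ, T' + 8 * w + 2 * v + 20 ≤ 2 * k :=
    ⟨T' + 8 * w + 2 * v + 20, by omega⟩
  obtain ⟨T0, L0, hst⟩ := astep_two k v w T' hvw hk
  refine ⟨T0, max L0 (max 5 (4 ^ k)), fun T L hT hL A B hS => ?_⟩
  obtain ⟨hne, hlen, hle, hA⟩ := hS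
  have hL0 : L0 ≤ L := (le_max_left _ _).trans hL
  have hL5 : 5 ≤ L := ((le_max_left _ _).trans (le_max_right _ _)).trans hL
  have hLk : 4 ^ k ≤ L := ((le_max_right _ _).trans (le_max_right _ _)).trans hL
  have hres := hst T L hT hL0 (PX q A) (PX q B) hA
  set A1 := wup k (2 * L ^ (v + 4)) A A B with hA1
  set B1 := wup k (2 * L ^ (v + 4)) A B A with hB1
  have lA1 : A1.length = (2 * (2 * L ^ (v + 4)) + 4 ^ k) * A.length :=
    wup_length _ _ _ _ _ rfl hlen.symm
  have lB1 : B1.length = (2 * (2 * L ^ (v + 4)) + 4 ^ k) * A.length :=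
    wup_length _ _ _ _ _ hlen.symm rfl
  have hne1 : A1 ≠ B1 := wup_ne _ _ _ _ hne hlen
  have hl1 : B1.length = A1.length := by rw [lA1, lB1]
  have l1 : (wup k (2 * L ^ (2 * v + 11)) A1 A1 B1).length =
      (2 * (2 * L ^ (2 * v + 11)) + 4 ^ k) * A1.length := wup_length k _ A1 A1 B1 rfl hl1
  have l2 : (wup k (2 * L ^ (2 * v + 11)) A1 B1 A1).length =
      (2 * (2 * L ^ (2 * v + 11)) + 4 ^ k) * A1.length := wup_length k _ A1 B1 A1 hl1 rfl
  have e1 := ws_pow_le (m := 2 * v + 11) hL5 hLk (by omega)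
  have e2 := ws_pow_le (m := v + 4) hL5 hLk (by omega)
  have hfin : (wup k (2 * L ^ (2 * v + 11)) A1 A1 B1).length ≤ L ^ (u + 3 * v + 17) := by
    refine ws_final (x := 2 * v + 11 + 1) (y := v + 4 + 1) (z := u) e1 e2 hle (by omega) ?_
    rw [l1, lA1]
  refine ⟨wup k (2 * L ^ (2 * v + 11)) A1 A1 B1, wup k (2 * L ^ (2 * v + 11)) A1 B1 A1,
    wup_ne _ _ _ _ hne1 hl1.symm, l1.trans l2.symm, hfin, ?_⟩
  simp only [hA1, hB1, PX_wup]
  exact hres

end Vale.Agent.P321
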