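import Vale.Agent.P321.BaseDefs
import Vale.Agent.P321.WordStep

namespace Vale.Agent.P321

open Finset

variable {q θ : ℝ}

theorem symb_expand (h0 : 0 < q) (h1 : q < 1) : symb q =
    MonoidAlgebra.single (FreeMonoid.of false * FreeMonoid.of true) ((1 - q) / (1 + q)) +
    MonoidAlgebra.single (FreeMonoid.of false) (q / (1 + q)) +
    MonoidAlgebra.single (FreeMonoid.of true) (q / (1 + q)) := by
  have hq1 : (1 - q) ≠ 0 := by linarith
  have hq2 : (1 + q) ≠ 0 := by linarith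
  have hq3 : (1 - q ^ 2) ≠ 0 := by
    have : (1 - q ^ 2) = (1 - q) * (1 + q) := by ring
    rw [this]; exact mul_ne_zero hq1 hq2
  have hPX : PX q [false, true] = q ^ 2 • (1 : Alg) +
      ((1 - q) ^ 2) • MonoidAlgebra.single (FreeMonoid.of false * FreeMonoid.of true) (1 : ℝ) +
      (q * (1 - q)) • MonoidAlgebra.single (FreeMonoid.of false) (1 : ℝ) +
      (q * (1 - q)) • MonoidAlgebra.single (FreeMonoid.of true) (1 : ℝ) := by
    unfold PX
    simp only [List.map_cons, List.map_nil, List.prod_cons, List.prod_nil, mul_one]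
    rw [add_mul, mul_add, mul_add]
    simp only [smul_mul_assoc, mul_smul_comm, one_mul, mul_one, smul_smul,
      MonoidAlgebra.single_mul_single]
    rw [show (1 - q) * q = q * (1 - q) by ring, ← pow_two, ← pow_two]
    abel
  unfold symb
  rw [hPX]
  have e1 : q ^ 2 • (1 : Alg) +
      ((1 - q) ^ 2) • MonoidAlgebra.single (FreeMonoid.of false * FreeMonoid.of true) (1 : ℝ) +
      (q * (1 - q)) • MonoidAlgebra.single (FreeMonoid.of false) (1 : ℝ) +
      (q * (1 - q)) • MonoidAlgebra.single (FreeMonoid.of true) (1 : ℝ) - q ^ 2 • (1 : Alg) =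
      ((1 - q) ^ 2) • MonoidAlgebra.single (FreeMonoid.of false * FreeMonoid.of true) (1 : ℝ) +
      (q * (1 - q)) • MonoidAlgebra.single (FreeMonoid.of false) (1 : ℝ) +
      (q * (1 - q)) • MonoidAlgebra.single (FreeMonoid.of true) (1 : ℝ) := by abel
  rw [e1, smul_add, smul_add]
  simp only [MonoidAlgebra.smul_single, smul_eq_mul, mul_one]
  have e2 : 1 / (1 - q ^ 2) * (1 - q) ^ 2 = (1 - q) / (1 + q) := by
    field_simp
    ring
  have e3 : 1 / (1 - q ^ 2) * (q * (1 - q)) = q / (1 + q) := by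
    field_simp
    ring
  rw [e2, e3]

theorem nn_symb (h0 : 0 < q) (h1 : q < 1) : nn (symb q) := by
  rw [symb_expand h0 h1]
  have h2 : 0 ≤ (1 - q) / (1 + q) := div_nonneg (by linarith) (by linarith)
  have h3 : 0 ≤ q / (1 + q) := div_nonneg (by linarith) (by linarith)
  exact nn_add (nn_add (nn_single _ h2) (nn_single _ h3)) (nn_single _ h3)

theorem mass_symb (h0 : 0 < q) (h1 : q < 1) : mass (symb q) = 1 := by
  rw [symb_expand h0 h1, mass_add, mass_add, mass_single, mass_single, mass_single]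
  have hq2 : (1 + q) ≠ 0 := by linarith
  field_simp
  ring

theorem eS_eq (h0 : 0 < q) (h1 : q < 1) : eS q (1 - q ^ 2) = PX q [false, true] := by
  have hq3 : (1 - q ^ 2) ≠ 0 := by nlinarith
  unfold eS symb
  rw [smul_smul, mul_one_div, div_self hq3, one_smul, sub_sub_cancel]
  abel

theorem nn_eS (h0 : 0 < q) (h1 : q < 1) (t0 : 0 ≤ θ) (t1 : θ ≤ 1) : nn (eS q θ) :=
  nn_add (nn_smul (by linarith) nn_one) (nn_smul t0 (nn_symb h0 h1))

theorem mass_eS (h0 : 0 < q) (h1 : q < 1) (θ : ℝ) : mass (eS q θ) = 1 := by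
  unfold eS
  rw [mass_add, mass_smul, mass_smul, mass_one, mass_symb h0 h1]
  ring

theorem bl_zS (q : ℝ) : zS q = q • (1 : Alg) + (1 - q) • MonoidAlgebra.single
    (FreeMonoid.of false) (1 : ℝ) := by
  simp [zS, PX]

theorem nn_zS (h0 : 0 < q) (h1 : q < 1) : nn (zS q) := by
  rw [bl_zS]
  exact nn_add (nn_smul h0.le nn_one) (nn_smul (by linarith) (nn_single _ zero_le_one))

theorem mass_zS (q : ℝ) : mass (zS q) = 1 := by
  rw [bl_zS, mass_add, mass_smul, mass_smul, mass_one, mass_single]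
  ring

/-- `K = 0`: `1` and `e` share `(1-θ) 1`. -/
theorem H1_eS (h0 : 0 < q) (h1 : q < 1) (t0 : 0 ≤ θ) (t1 : θ ≤ 1) : H1 (eS q θ) 0 (1 - θ) := by
  refine ⟨(1 - θ) • (1 : Alg), θ • (1 : Alg), θ • symb q, nn_smul (by linarith) nn_one,
    nn_smul t0 nn_one, nn_smul t0 (nn_symb h0 h1), ?_, ?_, ?_⟩
  · rw [pow_zero, ← add_smul]
    simp
  · rw [zero_add, pow_one]
    rfl
  · rw [mass_smul, mass_one, mul_one]

/-- `z ≤ C e_θ` pointwise. -/
theorem bl_zS_le (h0 : 0 < q) (h1 : q < 1) (t0 : 0 < θ) (t1 : θ < 1) :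
    nn ((1 / (q * θ * (1 - θ))) • eS q θ - zS q) := by
  have hq1 : (1 - q) ≠ 0 := by linarith
  have hq2 : (1 + q) ≠ 0 := by linarith
  have ht : (1 - θ) ≠ 0 := by linarith
  have ht0 : θ ≠ 0 := t0.ne'
  have hq0 : q ≠ 0 := h0.ne'
  have e1 : (1 / (q * θ * (1 - θ))) • eS q θ - zS q =
      (1 / (q * θ) - q) • (1 : Alg) +
      MonoidAlgebra.single (FreeMonoid.of false * FreeMonoid.of true)
        ((1 / (q * (1 - θ))) * ((1 - q) / (1 + q))) +
      MonoidAlgebra.single (FreeMonoid.of false) (1 / ((1 - θ) * (1 + q)) - (1 - q)) +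
      MonoidAlgebra.single (FreeMonoid.of true) (1 / ((1 - θ) * (1 + q))) := by
    unfold eS
    rw [symb_expand h0 h1, bl_zS]
    simp only [smul_add, smul_smul, MonoidAlgebra.smul_single, smul_eq_mul, mul_one]
    have a1 : 1 / (q * θ * (1 - θ)) * (1 - θ) = 1 / (q * θ) := by
      field_simp
    have a2 : 1 / (q * θ * (1 - θ)) * (θ * ((1 - q) / (1 + q))) =
        (1 / (q * (1 - θ))) * ((1 - q) / (1 + q)) := by
      field_simp
    have a3 : 1 / (q * θ * (1 - θ)) * (θ * (q / (1 + q))) = 1 / ((1 - θ) * (1 + q)) := by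
      field_simp
    rw [a1, a2, a3, sub_smul, sub_eq_add_neg (1 / ((1 - θ) * (1 + q))) (1 - q),
      MonoidAlgebra.single_add, MonoidAlgebra.single_neg]
    abel
  rw [e1]
  have b1 : 0 ≤ 1 / (q * θ) - q := by
    have : 1 ≤ 1 / (q * θ) := by
      rw [le_div_iff₀ (by positivity)]
      nlinarith
    linarith
  have b2 : 0 ≤ (1 / (q * (1 - θ))) * ((1 - q) / (1 + q)) := by
    have c1 : 0 < 1 - θ := by linarith
    have c2 : 0 < 1 - q := by linarith
    positivity
  have b4 : 1 - q ≤ 1 / ((1 - θ) * (1 + q)) := by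
    have c1 : 0 < 1 - θ := by linarith
    rw [le_div_iff₀ (by positivity)]
    have c2 : (1 - q) * (1 + q) ≤ 1 := by nlinarith
    have c3 : 0 ≤ (1 - q) * (1 + q) := mul_nonneg (by linarith) (by linarith)
    nlinarith
  have b3 : 0 ≤ 1 / ((1 - θ) * (1 + q)) := by linarith
  exact nn_add (nn_add (nn_add (nn_smul b1 nn_one) (nn_single _ b2))
    (nn_single _ (by linarith))) (nn_single _ b3)

/-- `z = e_θ + f` with `|f| ≤ C e_θ`, `C = 2/(q (1-θ)) + ...`; any explicit constant works. -/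
theorem Ctx_eS (h0 : 0 < q) (h1 : q < 1) (t0 : 0 < θ) (t1 : θ < 1) (h : ℕ) (hh : 1 ≤ h) :
    Ctx h (eS q θ) (zS q - eS q θ) (2 / (q * θ * (1 - θ))) (16 * h ^ 2 * (2 / (q * θ * (1 - θ))) ^ 2) := by
  have c1 : 0 < 1 - θ := by linarith
  refine ⟨hh, nn_eS h0 h1 t0.le t1.le, mass_eS h0 h1 θ, ?_, by positivity, ?_, ?_, le_rfl⟩
  · rw [add_sub_cancel]
    exact nn_zS h0 h1
  · intro w
    have hz := nn_zS h0 h1 w
    have he := nn_eS h0 h1 t0.le t1.le w
    have hle := bl_zS_le h0 h1 t0 t1 w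
    simp only [MonoidAlgebra.coeff_sub, Finsupp.sub_apply, MonoidAlgebra.coeff_smul,
      Finsupp.smul_apply, smul_eq_mul] at hle ⊢
    have hM : 1 ≤ 1 / (q * θ * (1 - θ)) := by
      rw [le_div_iff₀ (by positivity)]
      have : q * θ ≤ 1 := by nlinarith
      nlinarith [mul_pos h0 t0]
    have h2 : 2 / (q * θ * (1 - θ)) = 2 * (1 / (q * θ * (1 - θ))) := by ring
    rw [h2, abs_le]
    have h3 : (eS q θ).coeff w ≤ 1 / (q * θ * (1 - θ)) * (eS q θ).coeff w :=
      le_mul_of_one_le_left he hM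
    constructor <;> nlinarith
  · rw [mass_sub, mass_zS, mass_eS h0 h1]
    ring

theorem aS_eq (h0 : 0 < q) (h1 : q < 1) (r : ℕ) :
    aS q (1 - q ^ 2) r = PX q (wordAB r (r + 1)) := by
  unfold aS wordAB
  rw [eS_eq h0 h1, PX_append, PX_append, PX_flatten_replicate, PX_flatten_replicate]
  rfl

end Vale.Agent.P321
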