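import Vale.Agent.P321.Basic

namespace Vale.Agent.P321

open Finset

variable {a : Alg} {K K' : ℕ} {lam lam' : ℝ}

/-- Pointwise minimum: its mass is `1 - n1 (f - g) / 2` for two elements of mass one. -/
theorem exists_min {f g : Alg} (hf : nn f) (hg : nn g) :
    ∃ μ : Alg, nn μ ∧ nn (f - μ) ∧ nn (g - μ) ∧
      2 * mass μ = mass f + mass g - n1 (f - g) := by
  classical
  set μ : Alg := MonoidAlgebra.ofCoeff
    (Finsupp.onFinset f.coeff.support (fun w => min (f.coeff w) (g.coeff w)) (by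
      intro w hw
      rw [Finsupp.mem_support_iff]
      intro h0
      apply hw
      rw [h0]
      exact min_eq_left (hg w))) with hμ
  have hc : ∀ w, μ.coeff w = min (f.coeff w) (g.coeff w) := fun w => rfl
  refine ⟨μ, fun w => ?_, fun w => ?_, fun w => ?_, ?_⟩
  · rw [hc]; exact le_min (hf w) (hg w)
  · simp only [MonoidAlgebra.coeff_sub, Finsupp.sub_apply, hc]
    linarith [min_le_left (f.coeff w) (g.coeff w)]
  · simp only [MonoidAlgebra.coeff_sub, Finsupp.sub_apply, hc]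
    linarith [min_le_right (f.coeff w) (g.coeff w)]
  · have h1 : μ.coeff.support ⊆ f.coeff.support ∪ g.coeff.support := by
      intro w hw
      rw [Finset.mem_union]
      left
      rw [Finsupp.mem_support_iff] at hw ⊢
      intro h0
      apply hw
      rw [hc, h0]
      exact min_eq_left (hg w)
    have h2 : (f - g).coeff.support ⊆ f.coeff.support ∪ g.coeff.support := by
      intro w hw
      rw [Finset.mem_union, Finsupp.mem_support_iff, Finsupp.mem_support_iff]
      rw [Finsupp.mem_support_iff] at hw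
      by_contra hcon
      push Not at hcon
      apply hw
      simp only [MonoidAlgebra.coeff_sub, Finsupp.sub_apply, hcon.1, hcon.2, sub_zero]
    rw [mass_eq_sum h1, n1_eq_sum h2, mass_eq_sum (f := f) (s := f.coeff.support ∪ g.coeff.support)
      Finset.subset_union_left, mass_eq_sum (f := g) (s := f.coeff.support ∪ g.coeff.support)
      Finset.subset_union_right, Finset.mul_sum, ← Finset.sum_add_distrib,
      ← Finset.sum_sub_distrib]
    refine Finset.sum_congr rfl fun w _ => ?_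
    simp only [MonoidAlgebra.coeff_sub, Finsupp.sub_apply, hc]
    rcases le_total (f.coeff w) (g.coeff w) with h | h
    · rw [min_eq_left h, abs_of_nonpos (by linarith)]; ring
    · rw [min_eq_right h, abs_of_nonneg (by linarith)]; ring

theorem H1_mono (H : H1 a K lam) (h0 : 0 ≤ lam') (hle : lam' ≤ lam) : H1 a K lam' := by
  obtain ⟨μ, ν₀, ν₁, hμ, hν₀, hν₁, e0, e1, hm⟩ := H
  have hlam : 0 ≤ lam := h0.trans hle
  obtain ⟨c, hc0, hc1, hc⟩ : ∃ c : ℝ, 0 ≤ c ∧ c ≤ 1 ∧ c * lam = lam' := by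
    rcases hlam.eq_or_lt with h | h
    · refine ⟨0, le_rfl, zero_le_one, ?_⟩
      rw [zero_mul]; linarith
    · exact ⟨lam' / lam, by positivity, (div_le_one h).2 hle, div_mul_cancel₀ _ h.ne'⟩
  have h1c : 0 ≤ 1 - c := by linarith
  refine ⟨c • μ, (1 - c) • μ + ν₀, (1 - c) • μ + ν₁, nn_smul hc0 hμ,
    nn_add (nn_smul h1c hμ) hν₀, nn_add (nn_smul h1c hμ) hν₁, ?_, ?_, ?_⟩
  · rw [e0, ← add_assoc, ← add_smul]; simp
  · rw [e1, ← add_assoc, ← add_smul]; simp
  · rw [mass_smul, hm, hc]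

theorem H1_of_close (ha : nn a) (hm : mass a = 1) (hc : n1 (a ^ K - a ^ (K + 1)) ≤ 1) :
    H1 a K (1 / 2) := by
  obtain ⟨μ, hμ, h0, h1, h2⟩ := exists_min (nn_pow ha K) (nn_pow ha (K + 1))
  have h3 : H1 a K (mass μ) := ⟨μ, a ^ K - μ, a ^ (K + 1) - μ, hμ, h0, h1, by abel, by abel, rfl⟩
  refine H1_mono h3 (by norm_num) ?_
  rw [mass_pow, mass_pow, hm, one_pow, one_pow] at h2
  linarith

theorem H1_mono_K (ha : nn a) (hm : mass a = 1) (H : H1 a K lam) (hK : K ≤ K') :
    H1 a K' lam := by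
  obtain ⟨μ, ν₀, ν₁, hμ, hν₀, hν₁, e0, e1, hmm⟩ := H
  have hn := nn_pow ha (K' - K)
  refine ⟨a ^ (K' - K) * μ, a ^ (K' - K) * ν₀, a ^ (K' - K) * ν₁, nn_mul hn hμ,
    nn_mul hn hν₀, nn_mul hn hν₁, ?_, ?_, ?_⟩
  · rw [← mul_add, ← e0, ← pow_add, Nat.sub_add_cancel hK]
  · rw [← mul_add, ← e1, ← pow_add, ← add_assoc, Nat.sub_add_cancel hK]
  · rw [mass_mul, mass_pow, hm, one_pow, one_mul, hmm]

theorem H1_range (ha : nn a) (hm : mass a = 1) (H : H1 a K lam) : 0 ≤ lam ∧ lam ≤ 1 := by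
  obtain ⟨μ, ν₀, ν₁, hμ, hν₀, hν₁, e0, e1, hmm⟩ := H
  have h1 := mass_nonneg hμ
  have h2 := mass_nonneg hν₀
  have h3 := congrArg mass e0
  rw [mass_pow, hm, one_pow, mass_add] at h3
  constructor <;> linarith

end Vale.Agent.P321
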