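import Vale.Agent.P321.Basic

namespace Vale.Agent.P321

/-- the normalized form -/
theorem scalar_key_one (h : ℕ) (hh : 1 ≤ h) (y : ℝ) (hy : 0 ≤ y) :
    (1 + y) ^ (2 * h) - 2 * h * y ≤ (1 + 16 * h ^ 2 * y ^ 2) ^ h := by
  have h1 : (1:ℝ) ≤ h := by exact_mod_cast hh
  rcases le_total (1 / (4 * (h:ℝ))) y with hc | hc
  · have h2 : 1 ≤ 4 * h * y := by
      rw [div_le_iff₀ (by positivity)] at hc
      linarith
    have h3 : (1 + y) ^ 2 ≤ 1 + 16 * h ^ 2 * y ^ 2 := by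
      nlinarith [mul_nonneg hy hy, mul_nonneg hy (sub_nonneg.2 h1),
        mul_nonneg hy (sub_nonneg.2 h2), mul_nonneg (mul_nonneg hy (sub_nonneg.2 h1))
        (sub_nonneg.2 h2)]
    have h4 : (1 + y) ^ (2 * h) ≤ (1 + 16 * h ^ 2 * y ^ 2) ^ h := by
      rw [pow_mul]
      exact pow_le_pow_left₀ (by positivity) h3 h
    have : 0 ≤ 2 * (h:ℝ) * y := by positivity
    linarith
  · have h2 : 4 * h * y ≤ 1 := by
      rw [le_div_iff₀ (by positivity)] at hc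
      linarith
    set t : ℝ := 2 * h * y with ht
    have ht0 : 0 ≤ t := by positivity
    have ht1 : |t| ≤ 1 := by rw [abs_of_nonneg ht0]; linarith
    have h3 : (1 + y) ^ (2 * h) ≤ Real.exp t := by
      have h4 : 1 + y ≤ Real.exp y := by linarith [Real.add_one_le_exp y]
      calc (1 + y) ^ (2 * h) ≤ (Real.exp y) ^ (2 * h) := pow_le_pow_left₀ (by positivity) h4 _
        _ = Real.exp t := by
            rw [← Real.exp_nat_mul]; congr 1; rw [ht]; push_cast; ring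
    have h5 : Real.exp t - 1 - t ≤ t ^ 2 := (le_abs_self _).trans (Real.abs_exp_sub_one_sub_id_le ht1)
    have h6 : 1 + (h:ℝ) * (16 * h ^ 2 * y ^ 2) ≤ (1 + 16 * h ^ 2 * y ^ 2) ^ h :=
      one_add_mul_le_pow (by have : 0 ≤ 16 * (h:ℝ) ^ 2 * y ^ 2 := by positivity
                             linarith) h
    have h7 : t ^ 2 ≤ (h:ℝ) * (16 * h ^ 2 * y ^ 2) := by
      rw [ht]
      have : 0 ≤ (h:ℝ) ^ 2 * y ^ 2 := by positivity
      nlinarith [mul_nonneg this (sub_nonneg.2 h1)]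
    linarith

/-- Scalar inequality behind the slot lemma.
Proof: if `Y = 0` or `X = 0` easy. Homogeneity: `X = 1`, `y = Y / X`.
For `y ≥ 1/(4h)`: `(1+y)^2 ≤ 1 + 16 h^2 y^2`.
For `y < 1/(4h)`: `(1+y)^(2h) - 2hy ≤ 1 + 4 h^2 y^2` (expand, `C(2h,j) y^j ≤ (2hy)^j / j!`)
and Bernoulli `(1 + 16 h^2 y^2)^h ≥ 1 + 16 h^3 y^2`. -/
theorem scalar_key (h : ℕ) (hh : 1 ≤ h) (X Y : ℝ) (hX : 0 ≤ X) (hY : 0 ≤ Y) :
    (X + Y) ^ (2 * h) - 2 * h * X ^ (2 * h - 1) * Y ≤ (X ^ 2 + 16 * h ^ 2 * Y ^ 2) ^ h := by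
  have h1 : (1:ℝ) ≤ h := by exact_mod_cast hh
  rcases hX.eq_or_lt with h0 | h0
  · subst h0
    rw [zero_pow (by omega : 2 * h - 1 ≠ 0), mul_zero, zero_mul, sub_zero, zero_add,
      zero_pow (two_ne_zero), zero_add, pow_mul]
    refine pow_le_pow_left₀ (by positivity) ?_ h
    nlinarith [mul_nonneg hY hY, mul_nonneg (mul_nonneg hY hY) (sub_nonneg.2 h1),
      mul_nonneg (mul_nonneg hY hY) (mul_nonneg (sub_nonneg.2 h1) (sub_nonneg.2 h1))]
  · have hX0 : X ≠ 0 := h0.ne'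
    have key := scalar_key_one h hh (Y / X) (by positivity)
    have h2 : 0 < X ^ (2 * h) := by positivity
    have e1 : (X + Y) ^ (2 * h) = X ^ (2 * h) * (1 + Y / X) ^ (2 * h) := by
      rw [← mul_pow]; congr 1; field_simp
    have e2 : X ^ (2 * h - 1) * Y = X ^ (2 * h) * (Y / X) := by
      have : X ^ (2 * h) = X ^ (2 * h - 1) * X := by
        rw [← pow_succ]; congr 1; omega
      rw [this]; field_simp
    have e3 : (X ^ 2 + 16 * h ^ 2 * Y ^ 2) ^ h = X ^ (2 * h) * (1 + 16 * h ^ 2 * (Y / X) ^ 2) ^ h := by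
      rw [pow_mul, ← mul_pow]; congr 1; field_simp
    calc (X + Y) ^ (2 * h) - 2 * h * X ^ (2 * h - 1) * Y
        = X ^ (2 * h) * ((1 + Y / X) ^ (2 * h) - 2 * h * (Y / X)) := by
          rw [e1, mul_assoc (2 * (h:ℝ)), e2]; ring
      _ ≤ X ^ (2 * h) * (1 + 16 * h ^ 2 * (Y / X) ^ 2) ^ h :=
          mul_le_mul_of_nonneg_left key h2.le
      _ = _ := e3.symm

end Vale.Agent.P321
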