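import Vale.Agent.P321.Bd
import Vale.Agent.P321.Scalar

namespace Vale.Agent.P321

open Finset

/-- Young: `s^(n-j) t^j ≤ ((n-j) s^n + j t^n) / n`. -/
theorem sl_young (n j : ℕ) (hn : 1 ≤ n) (hj : j ≤ n) (s t : ℝ) (hs : 0 ≤ s) (ht : 0 ≤ t) :
    s ^ (n - j) * t ^ j ≤ ((n : ℝ) - j) / n * s ^ n + (j : ℝ) / n * t ^ n := by
  have hn0 : (0 : ℝ) < n := by exact_mod_cast hn
  have hjn : (j : ℝ) ≤ n := by exact_mod_cast hj
  have h := Real.geom_mean_le_arith_mean2_weighted (w₁ := ((n : ℝ) - j) / n) (w₂ := (j : ℝ) / n)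
    (p₁ := s ^ n) (p₂ := t ^ n) (div_nonneg (by linarith) hn0.le) (by positivity)
    (pow_nonneg hs n) (pow_nonneg ht n) (by field_simp; ring)
  have e1 : (s ^ n) ^ (((n : ℝ) - j) / n) = s ^ (n - j) := by
    rw [← Real.rpow_natCast s n, ← Real.rpow_mul hs, ← Real.rpow_natCast s (n - j)]
    congr 1
    rw [Nat.cast_sub hj]
    field_simp
  have e2 : (t ^ n) ^ ((j : ℝ) / n) = t ^ j := by
    rw [← Real.rpow_natCast t n, ← Real.rpow_mul ht, ← Real.rpow_natCast t j]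
    congr 1
    field_simp
  rw [e1, e2] at h
  exact h

/-- Hoelder for the mixed moments. -/
theorem sl_mixed {κ : Type*} (t : Finset κ) (ρ φ₁ φ₂ : κ → ℝ) (h : ℕ) (hh : 1 ≤ h)
    (hρ : ∀ v ∈ t, 0 ≤ ρ v) (m X Y : ℝ) (hX : 0 < X) (hY : 0 < Y)
    (h1 : ∑ v ∈ t, ρ v * φ₁ v ^ (2 * h) ≤ m * X ^ (2 * h))
    (h2 : ∑ v ∈ t, ρ v * φ₂ v ^ (2 * h) ≤ m * Y ^ (2 * h)) (j : ℕ) (hj : j ≤ 2 * h) :
    |∑ v ∈ t, ρ v * (φ₂ v ^ j * φ₁ v ^ (2 * h - j))| ≤ m * (X ^ (2 * h - j) * Y ^ j) := by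
  have hn0 : (0 : ℝ) < ((2 * h : ℕ) : ℝ) := by
    have : 0 < 2 * h := by omega
    exact_mod_cast this
  have hjn : (j : ℝ) ≤ ((2 * h : ℕ) : ℝ) := by exact_mod_cast hj
  have hev : ∀ z : ℝ, |z| ^ (2 * h) = z ^ (2 * h) := fun z => (even_two_mul h).pow_abs z
  set C : ℝ := X ^ (2 * h - j) * Y ^ j with hC
  have hCp : 0 < C := by positivity
  set w1 : ℝ := (((2 * h : ℕ) : ℝ) - j) / ((2 * h : ℕ) : ℝ) with hw1
  set w2 : ℝ := (j : ℝ) / ((2 * h : ℕ) : ℝ) with hw2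
  have hw1n : 0 ≤ w1 := div_nonneg (by linarith) hn0.le
  have hw2n : 0 ≤ w2 := by positivity
  have hw : w1 + w2 = 1 := by
    rw [hw1, hw2]; field_simp; ring
  have hpt : ∀ v ∈ t, |ρ v * (φ₂ v ^ j * φ₁ v ^ (2 * h - j))| ≤
      C * (w1 * (ρ v * φ₁ v ^ (2 * h) / X ^ (2 * h)) +
        w2 * (ρ v * φ₂ v ^ (2 * h) / Y ^ (2 * h))) := by
    intro v hv
    have hy := sl_young (2 * h) j (by omega) hj (|φ₁ v| / X) (|φ₂ v| / Y) (by positivity)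
      (by positivity)
    rw [div_pow, div_pow, div_pow, div_pow, hev, hev] at hy
    rw [abs_mul, abs_mul, abs_pow, abs_pow, abs_of_nonneg (hρ v hv)]
    have e1 : |φ₂ v| ^ j * |φ₁ v| ^ (2 * h - j) =
        C * (|φ₁ v| ^ (2 * h - j) / X ^ (2 * h - j) * (|φ₂ v| ^ j / Y ^ j)) := by
      rw [hC]; field_simp
    rw [e1]
    have h3 := mul_le_mul_of_nonneg_left hy (mul_nonneg (hρ v hv) hCp.le)
    calc ρ v * (C * (|φ₁ v| ^ (2 * h - j) / X ^ (2 * h - j) * (|φ₂ v| ^ j / Y ^ j))) =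
        ρ v * C * (|φ₁ v| ^ (2 * h - j) / X ^ (2 * h - j) * (|φ₂ v| ^ j / Y ^ j)) := by ring
      _ ≤ _ := h3
      _ = _ := by ring
  refine (Finset.abs_sum_le_sum_abs _ _).trans ((Finset.sum_le_sum hpt).trans ?_)
  rw [← Finset.mul_sum, Finset.sum_add_distrib, ← Finset.mul_sum, ← Finset.mul_sum,
    ← Finset.sum_div, ← Finset.sum_div]
  have b1 : (∑ v ∈ t, ρ v * φ₁ v ^ (2 * h)) / X ^ (2 * h) ≤ m := by
    rw [div_le_iff₀ (by positivity)]; exact h1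
  have b2 : (∑ v ∈ t, ρ v * φ₂ v ^ (2 * h)) / Y ^ (2 * h) ≤ m := by
    rw [div_le_iff₀ (by positivity)]; exact h2
  have b3 : w1 * ((∑ v ∈ t, ρ v * φ₁ v ^ (2 * h)) / X ^ (2 * h)) +
      w2 * ((∑ v ∈ t, ρ v * φ₂ v ^ (2 * h)) / Y ^ (2 * h)) ≤ m := by
    have c1 := mul_le_mul_of_nonneg_left b1 hw1n
    have c2 := mul_le_mul_of_nonneg_left b2 hw2n
    have c3 : w1 * m + w2 * m = m := by rw [← add_mul, hw, one_mul]
    linarith
  calc _ ≤ C * m := mul_le_mul_of_nonneg_left b3 hCp.le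
    _ = _ := by ring

/-- The scalar form of the slot lemma, positive parameters. -/
theorem sl_scalar_pos {ι κ : Type*} (s : Finset ι) (t : Finset κ) (α ψ : ι → ℝ)
    (ρ φ₁ φ₂ : κ → ℝ) (h : ℕ) (hh : 1 ≤ h) {σ x m A1 A2 : ℝ}
    (hα : ∀ u ∈ s, 0 ≤ α u) (hρ : ∀ v ∈ t, 0 ≤ ρ v) (hα1 : ∑ u ∈ s, α u = 1)
    (hψ0 : ∑ u ∈ s, α u * ψ u = 0) (hψ : ∀ u ∈ s, |ψ u| ≤ σ) (hσ : 0 ≤ σ)
    (hx : 16 * (h : ℝ) ^ 2 * σ ^ 2 ≤ x) (hm : 0 ≤ m) (hA1 : 0 < A1) (hA2 : 0 < A2)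
    (h1 : ∑ v ∈ t, ρ v * φ₁ v ^ (2 * h) ≤ m * A1 ^ h)
    (h2 : ∑ v ∈ t, ρ v * φ₂ v ^ (2 * h) ≤ m * A2 ^ h) :
    ∑ u ∈ s, ∑ v ∈ t, α u * ρ v * (φ₁ v + ψ u * φ₂ v) ^ (2 * h) ≤ m * (A1 + x * A2) ^ h := by
  set X := Real.sqrt A1 with hXd
  set Y := Real.sqrt A2 with hYd
  have hX : 0 < X := Real.sqrt_pos.mpr hA1
  have hY : 0 < Y := Real.sqrt_pos.mpr hA2
  have hX2 : X ^ 2 = A1 := Real.sq_sqrt hA1.le
  have hY2 : Y ^ 2 = A2 := Real.sq_sqrt hA2.le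
  have h1' : ∑ v ∈ t, ρ v * φ₁ v ^ (2 * h) ≤ m * X ^ (2 * h) := by rw [pow_mul, hX2]; exact h1
  have h2' : ∑ v ∈ t, ρ v * φ₂ v ^ (2 * h) ≤ m * Y ^ (2 * h) := by rw [pow_mul, hY2]; exact h2
  -- expansion
  have hexp : ∑ u ∈ s, ∑ v ∈ t, α u * ρ v * (φ₁ v + ψ u * φ₂ v) ^ (2 * h) =
      ∑ j ∈ range (2 * h + 1), ((2 * h).choose j : ℝ) * ((∑ u ∈ s, α u * ψ u ^ j) *
        (∑ v ∈ t, ρ v * (φ₂ v ^ j * φ₁ v ^ (2 * h - j)))) := by
    have e1 : ∀ u ∈ s, ∀ v ∈ t, α u * ρ v * (φ₁ v + ψ u * φ₂ v) ^ (2 * h) =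
        ∑ j ∈ range (2 * h + 1), ((2 * h).choose j : ℝ) * ((α u * ψ u ^ j) *
          (ρ v * (φ₂ v ^ j * φ₁ v ^ (2 * h - j)))) := by
      intro u _ v _
      rw [add_comm (φ₁ v), add_pow, Finset.mul_sum]
      refine Finset.sum_congr rfl fun j _ => ?_
      rw [mul_pow]; ring
    rw [Finset.sum_congr rfl fun u hu => Finset.sum_congr rfl fun v hv => e1 u hu v hv]
    rw [Finset.sum_congr rfl fun u _ => Finset.sum_comm, Finset.sum_comm]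
    refine Finset.sum_congr rfl fun j _ => ?_
    rw [Finset.sum_mul_sum, Finset.mul_sum]
    refine Finset.sum_congr rfl fun u _ => ?_
    rw [Finset.mul_sum]
  rw [hexp]
  have hMj : ∀ j, |∑ u ∈ s, α u * ψ u ^ j| ≤ σ ^ j := by
    intro j
    refine (Finset.abs_sum_le_sum_abs _ _).trans ?_
    have : ∀ u ∈ s, |α u * ψ u ^ j| ≤ α u * σ ^ j := by
      intro u hu
      rw [abs_mul, abs_pow, abs_of_nonneg (hα u hu)]
      exact mul_le_mul_of_nonneg_left (pow_le_pow_left₀ (abs_nonneg _) (hψ u hu) j) (hα u hu)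
    refine (Finset.sum_le_sum this).trans ?_
    rw [← Finset.sum_mul, hα1, one_mul]
  have hterm : ∀ j ∈ range (2 * h + 1), ((2 * h).choose j : ℝ) * ((∑ u ∈ s, α u * ψ u ^ j) *
        (∑ v ∈ t, ρ v * (φ₂ v ^ j * φ₁ v ^ (2 * h - j)))) ≤
      m * ((σ * Y) ^ j * X ^ (2 * h - j) * ((2 * h).choose j : ℝ)) -
        (if j = 1 then m * (2 * h * X ^ (2 * h - 1) * (σ * Y)) else 0) := by
    intro j hj
    have hj' : j ≤ 2 * h := by
      have := Finset.mem_range.mp hj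
      omega
    split_ifs with hj1
    · subst hj1
      have e0 : ∑ u ∈ s, α u * ψ u ^ 1 = 0 := by simpa using hψ0
      rw [e0, zero_mul, mul_zero, Nat.choose_one_right, pow_one]
      push_cast
      apply le_of_eq; ring
    · rw [sub_zero]
      have hN := sl_mixed t ρ φ₁ φ₂ h hh hρ m X Y hX hY h1' h2' j hj'
      have h5 : (∑ u ∈ s, α u * ψ u ^ j) *
        (∑ v ∈ t, ρ v * (φ₂ v ^ j * φ₁ v ^ (2 * h - j))) ≤
          σ ^ j * (m * (X ^ (2 * h - j) * Y ^ j)) := by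
        refine (le_abs_self _).trans ?_
        rw [abs_mul]
        exact mul_le_mul (hMj j) hN (abs_nonneg _) (by positivity)
      calc _ ≤ ((2 * h).choose j : ℝ) * (σ ^ j * (m * (X ^ (2 * h - j) * Y ^ j))) :=
            mul_le_mul_of_nonneg_left h5 (Nat.cast_nonneg _)
        _ = _ := by rw [mul_pow]; ring
  refine (Finset.sum_le_sum hterm).trans ?_
  rw [Finset.sum_sub_distrib, Finset.sum_ite_eq', ← Finset.mul_sum, ← add_pow,
    if_pos (Finset.mem_range.mpr (by omega))]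
  have hk := scalar_key h hh X (σ * Y) hX.le (by positivity)
  have e3 : m * (σ * Y + X) ^ (2 * h) - m * (2 * h * X ^ (2 * h - 1) * (σ * Y)) =
      m * ((X + σ * Y) ^ (2 * h) - 2 * h * X ^ (2 * h - 1) * (σ * Y)) := by
    rw [add_comm (σ * Y) X]; ring
  rw [e3]
  refine mul_le_mul_of_nonneg_left (hk.trans ?_) hm
  refine pow_le_pow_left₀ (by positivity) ?_ h
  rw [hX2, mul_pow, hY2]
  have := mul_le_mul_of_nonneg_right hx hA2.le
  linarith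

/-- The scalar form of the slot lemma. -/
theorem sl_scalar {ι κ : Type*} (s : Finset ι) (t : Finset κ) (α ψ : ι → ℝ)
    (ρ φ₁ φ₂ : κ → ℝ) (h : ℕ) (hh : 1 ≤ h) {σ x m A1 A2 : ℝ}
    (hα : ∀ u ∈ s, 0 ≤ α u) (hρ : ∀ v ∈ t, 0 ≤ ρ v) (hα1 : ∑ u ∈ s, α u = 1)
    (hψ0 : ∑ u ∈ s, α u * ψ u = 0) (hψ : ∀ u ∈ s, |ψ u| ≤ σ) (hσ : 0 ≤ σ)
    (hx : 16 * (h : ℝ) ^ 2 * σ ^ 2 ≤ x) (hm : 0 ≤ m) (hA1 : 0 ≤ A1) (hA2 : 0 ≤ A2)
    (h1 : ∑ v ∈ t, ρ v * φ₁ v ^ (2 * h) ≤ m * A1 ^ h)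
    (h2 : ∑ v ∈ t, ρ v * φ₂ v ^ (2 * h) ≤ m * A2 ^ h) :
    ∑ u ∈ s, ∑ v ∈ t, α u * ρ v * (φ₁ v + ψ u * φ₂ v) ^ (2 * h) ≤ m * (A1 + x * A2) ^ h := by
  have hlim : Filter.Tendsto (fun ε : ℝ => m * ((A1 + ε) + x * (A2 + ε)) ^ h)
      (nhdsWithin 0 (Set.Ioi 0)) (nhds (m * ((A1 + 0) + x * (A2 + 0)) ^ h)) := by
    apply Filter.Tendsto.mono_left _ nhdsWithin_le_nhds
    apply Continuous.tendsto
    fun_prop
  rw [add_zero, add_zero] at hlim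
  refine ge_of_tendsto hlim ?_
  filter_upwards [self_mem_nhdsWithin] with ε hε
  have hε' : 0 < ε := hε
  refine sl_scalar_pos s t α ψ ρ φ₁ φ₂ h hh hα hρ hα1 hψ0 hψ hσ hx hm (by linarith)
    (by linarith) (h1.trans ?_) (h2.trans ?_)
  · exact mul_le_mul_of_nonneg_left (pow_le_pow_left₀ hA1 (by linarith) h) hm
  · exact mul_le_mul_of_nonneg_left (pow_le_pow_left₀ hA2 (by linarith) h) hm

theorem sl_rep_of {g q : Alg} {ψ : Wd → ℝ} (h : ∀ w, g.coeff w = ψ w * q.coeff w) :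
    g = ∑ w ∈ q.coeff.support, MonoidAlgebra.single w (q.coeff w * ψ w) := by
  classical
  apply alg_ext
  intro w
  rw [MonoidAlgebra.coeff_sum, Finsupp.finsetSum_apply]
  have e1 : ∀ v ∈ q.coeff.support, (MonoidAlgebra.single v (q.coeff v * ψ v) : Alg).coeff w =
      if v = w then q.coeff v * ψ v else 0 := by
    intro v _
    rw [MonoidAlgebra.coeff_single, Finsupp.single_apply]
  rw [Finset.sum_congr rfl e1, Finset.sum_ite_eq', h w]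
  split_ifs with hw
  · ring
  · rw [Finsupp.notMem_support_iff] at hw
    rw [hw, mul_zero]

theorem sl_dom {a f : Alg} {σ : ℝ} (ha : nn a) (hσ : 0 ≤ σ) (hd : Dom σ f a) :
    ∃ ψ : Wd → ℝ, (∀ w, f.coeff w = ψ w * a.coeff w) ∧ ∀ w, |ψ w| ≤ σ := by
  refine ⟨fun w => f.coeff w / a.coeff w, fun w => ?_, fun w => ?_⟩
  · by_cases h0 : a.coeff w = 0
    · have := hd w
      rw [h0, mul_zero] at this
      rw [h0, mul_zero]
      exact abs_eq_zero.mp (le_antisymm this (abs_nonneg _))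
    · field_simp
  · by_cases h0 : a.coeff w = 0
    · simp [h0, hσ]
    · have hpos : 0 < a.coeff w := lt_of_le_of_ne (ha w) (Ne.symm h0)
      rw [abs_div, abs_of_pos hpos, div_le_iff₀ hpos]
      exact hd w

/-- THE SLOT LEMMA. Write `f = ψ a`, `F = φ₁ q`, `G = φ₂ q`. Then
`a F + f G = ∑_{u,v} a(u) q(v) (φ₁(v) + ψ(u) φ₂(v)) [uv]`; use `Bd_of_rep`, expand the `2h`-th
power, the first order term vanishes since `∑ a ψ = 0`, `|∑ a ψ^j| ≤ σ^j` and Hoelder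
`|∑ q φ₁^(2h-j) φ₂^j| ≤ m A1^((2h-j)/2) A2^(j/2)`, then `scalar_key` with
`X = √A1`, `Y = σ √A2`. -/
theorem Bd_slot_left {h : ℕ} {a f q F G : Alg} {σ x m A1 A2 : ℝ} (hh : 1 ≤ h)
    (ha : nn a) (hma : mass a = 1) (hσ : 0 ≤ σ) (hd : Dom σ f a) (hf0 : mass f = 0)
    (hx : 16 * (h : ℝ) ^ 2 * σ ^ 2 ≤ x) (hq : nn q) (hm : 0 ≤ m) (hA1 : 0 ≤ A1) (hA2 : 0 ≤ A2)
    (hF : Bd h F q (m * A1 ^ h)) (hG : Bd h G q (m * A2 ^ h)) :
    Bd h (a * F + f * G) (a * q) (m * (A1 + x * A2) ^ h) := by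
  obtain ⟨φ₁, hF1, hF2⟩ := hF
  obtain ⟨φ₂, hG1, hG2⟩ := hG
  obtain ⟨ψ, hψ1, hψ2⟩ := sl_dom ha hσ hd
  refine Bd_of_rep (a.coeff.support ×ˢ q.coeff.support) (fun p => p.1 * p.2)
    (fun p => a.coeff p.1 * q.coeff p.2) (fun p => φ₁ p.2 + ψ p.1 * φ₂ p.2) ?_ ?_ ?_ ?_
  · rintro ⟨u, v⟩ _
    exact mul_nonneg (ha u) (hq v)
  · conv_lhs => rw [sl_rep_of hψ1, sl_rep_of hG1, sl_rep_of hF1]
    conv_lhs => lhs; lhs; rw [n1_eq_sum_single a]
    rw [Finset.sum_mul_sum, Finset.sum_mul_sum, Finset.sum_product, ← Finset.sum_add_distrib]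
    refine Finset.sum_congr rfl fun u _ => ?_
    rw [← Finset.sum_add_distrib]
    refine Finset.sum_congr rfl fun v _ => ?_
    rw [MonoidAlgebra.single_mul_single, MonoidAlgebra.single_mul_single,
      ← MonoidAlgebra.single_add]
    congr 1
    ring
  · conv_lhs => rw [n1_eq_sum_single a, n1_eq_sum_single q]
    rw [Finset.sum_mul_sum, Finset.sum_product]
    refine Finset.sum_congr rfl fun u _ => Finset.sum_congr rfl fun v _ => ?_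
    rw [MonoidAlgebra.single_mul_single]
  · rw [Finset.sum_product]
    refine sl_scalar a.coeff.support q.coeff.support (fun u => a.coeff u) ψ (fun v => q.coeff v)
      φ₁ φ₂ h hh (fun u _ => ha u) (fun v _ => hq v) ?_ ?_ (fun u _ => hψ2 u) hσ hx hm hA1 hA2
      hF2 hG2
    · rw [← mass_eq_sum subset_rfl, hma]
    · have hs : f.coeff.support ⊆ a.coeff.support := by
        intro w hw
        rw [Finsupp.mem_support_iff] at hw ⊢
        intro h0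
        exact hw (by rw [hψ1 w, h0, mul_zero])
      rw [mass_eq_sum hs] at hf0
      rw [← hf0]
      exact Finset.sum_congr rfl fun w _ => by rw [hψ1 w, mul_comm]

theorem Bd_slot_right {h : ℕ} {a f q F G : Alg} {σ x m A1 A2 : ℝ} (hh : 1 ≤ h)
    (ha : nn a) (hma : mass a = 1) (hσ : 0 ≤ σ) (hd : Dom σ f a) (hf0 : mass f = 0)
    (hx : 16 * (h : ℝ) ^ 2 * σ ^ 2 ≤ x) (hq : nn q) (hm : 0 ≤ m) (hA1 : 0 ≤ A1) (hA2 : 0 ≤ A2)
    (hF : Bd h F q (m * A1 ^ h)) (hG : Bd h G q (m * A2 ^ h)) :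
    Bd h (F * a + G * f) (q * a) (m * (A1 + x * A2) ^ h) := by
  obtain ⟨φ₁, hF1, hF2⟩ := hF
  obtain ⟨φ₂, hG1, hG2⟩ := hG
  obtain ⟨ψ, hψ1, hψ2⟩ := sl_dom ha hσ hd
  refine Bd_of_rep (a.coeff.support ×ˢ q.coeff.support) (fun p => p.2 * p.1)
    (fun p => a.coeff p.1 * q.coeff p.2) (fun p => φ₁ p.2 + ψ p.1 * φ₂ p.2) ?_ ?_ ?_ ?_
  · rintro ⟨u, v⟩ _
    exact mul_nonneg (ha u) (hq v)
  · conv_lhs => rw [sl_rep_of hψ1, sl_rep_of hG1, sl_rep_of hF1]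
    conv_lhs => lhs; rhs; rw [n1_eq_sum_single a]
    rw [Finset.sum_mul_sum, Finset.sum_mul_sum, Finset.sum_product_right,
      ← Finset.sum_add_distrib]
    refine Finset.sum_congr rfl fun v _ => ?_
    rw [← Finset.sum_add_distrib]
    refine Finset.sum_congr rfl fun u _ => ?_
    rw [MonoidAlgebra.single_mul_single, MonoidAlgebra.single_mul_single,
      ← MonoidAlgebra.single_add]
    congr 1
    ring
  · conv_lhs => rw [n1_eq_sum_single a, n1_eq_sum_single q]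
    rw [Finset.sum_mul_sum, Finset.sum_product_right]
    refine Finset.sum_congr rfl fun v _ => Finset.sum_congr rfl fun u _ => ?_
    rw [MonoidAlgebra.single_mul_single, mul_comm (q.coeff v)]
  · rw [Finset.sum_product]
    refine sl_scalar a.coeff.support q.coeff.support (fun u => a.coeff u) ψ (fun v => q.coeff v)
      φ₁ φ₂ h hh (fun u _ => ha u) (fun v _ => hq v) ?_ ?_ (fun u _ => hψ2 u) hσ hx hm hA1 hA2
      hF2 hG2
    · rw [← mass_eq_sum subset_rfl, hma]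
    · have hs : f.coeff.support ⊆ a.coeff.support := by
        intro w hw
        rw [Finsupp.mem_support_iff] at hw ⊢
        intro h0
        exact hw (by rw [hψ1 w, h0, mul_zero])
      rw [mass_eq_sum hs] at hf0
      rw [← hf0]
      exact Finset.sum_congr rfl fun w _ => by rw [hψ1 w, mul_comm]

end Vale.Agent.P321
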