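import Vale.Agent.P321.Binom
import Vale.Agent.P321.HOne
import Vale.Agent.P321.Slots

namespace Vale.Agent.P321

open Finset Polynomial

variable {a c f : Alg} {K : ℕ} {lam : ℝ}

/-! ### auxiliary facts -/

theorem coin_hX_mul_coeff_zero (γ : ℝ[X]) : (γ * hX).coeff 0 = γ.coeff 0 / 2 := by
  have : γ * hX = C (1 / 2) * (γ + γ * X) := by unfold hX; ring
  rw [this, coeff_C_mul, coeff_add, coeff_mul_X_zero]
  ring

theorem coin_hX_mul_coeff_succ (γ : ℝ[X]) (t : ℕ) :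
    (γ * hX).coeff (t + 1) = (γ.coeff (t + 1) + γ.coeff t) / 2 := by
  have : γ * hX = C (1 / 2) * (γ + γ * X) := by unfold hX; ring
  rw [this, coeff_C_mul, coeff_add, coeff_mul_X]
  ring

theorem coin_hX_natDegree (γ : ℝ[X]) (n : ℕ) (hγ : γ.natDegree ≤ n) :
    (γ * hX).natDegree ≤ n + 1 := by
  refine natDegree_le_iff_coeff_eq_zero.2 fun m hm => ?_
  obtain ⟨t, rfl⟩ : ∃ t, m = t + 1 := ⟨m - 1, by omega⟩
  rw [coin_hX_mul_coeff_succ, coeff_eq_zero_of_natDegree_lt (by omega),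
    coeff_eq_zero_of_natDegree_lt (by omega)]
  ring

/-- abstract form of the smoothing identity -/
theorem coin_sum_hX {γ : ℝ[X]} {n : ℕ} (hγ : γ.natDegree ≤ n) (E : ℕ → Alg) :
    ∑ t ∈ range (n + 2), (γ * hX).coeff t • E t =
      (1 / 2 : ℝ) • (∑ t ∈ range (n + 1), γ.coeff t • E (t + 1) +
        ∑ t ∈ range (n + 1), γ.coeff t • E t) := by
  have h1 : ∑ t ∈ range (n + 1), γ.coeff t • E t =
      ∑ t ∈ range (n + 1), γ.coeff (t + 1) • E (t + 1) + γ.coeff 0 • E 0 := by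
    have h2 : ∑ t ∈ range (n + 1), γ.coeff t • E t = ∑ t ∈ range (n + 2), γ.coeff t • E t := by
      rw [sum_range_succ _ (n + 1), coeff_eq_zero_of_natDegree_lt (n := n + 1) (by omega),
        zero_smul, add_zero]
    rw [h2, sum_range_succ']
  rw [sum_range_succ', h1, coin_hX_mul_coeff_zero]
  simp only [coin_hX_mul_coeff_succ]
  rw [← add_assoc, ← sum_add_distrib, smul_add, smul_sum, smul_smul]
  congr 1
  · refine sum_congr rfl fun t _ => ?_
    rw [← add_smul, smul_smul]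
    congr 1
    ring
  · congr 1
    ring

theorem coin_FP_hX (a c : Alg) {γ : ℝ[X]} {n : ℕ} (hγ : γ.natDegree ≤ n) (p s : ℕ) :
    FP a c (γ * hX) (n + 1) p s =
      (1 / 2 : ℝ) • (FP a c γ n (p + 1) s + FP a c γ n p (s + 1)) := by
  unfold FP
  rw [coin_sum_hX hγ (fun t => a ^ (p + t) * c * a ^ (s + (n + 1 - t)))]
  congr 1
  congr 1
  · refine sum_congr rfl fun t ht => ?_
    rw [mem_range] at ht
    have e1 : p + (t + 1) = p + 1 + t := by omega
    have e2 : s + (n + 1 - (t + 1)) = s + (n - t) := by omega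
    simp only [e1, e2]
  · refine sum_congr rfl fun t ht => ?_
    rw [mem_range] at ht
    have e2 : s + (n + 1 - t) = s + 1 + (n - t) := by omega
    simp only [e2]

theorem coin_FP_mul (a c : Alg) (γ : ℝ[X]) (n p s i j : ℕ) :
    FP a c γ n (i + p) (s + j) = a ^ i * FP a c γ n p s * a ^ j := by
  unfold FP
  rw [mul_sum, sum_mul]
  refine sum_congr rfl fun t _ => ?_
  rw [mul_smul_comm, smul_mul_assoc]
  congr 1
  have e1 : i + p + t = i + (p + t) := by omega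
  have e2 : s + j + (n - t) = s + (n - t) + j := by omega
  rw [e1, e2, pow_add, pow_add _ _ j]
  simp only [mul_assoc]

theorem coin_FP_split (a c : Alg) (γ : ℝ[X]) (n p s K : ℕ) :
    FP a c γ n (p + (K + 1)) (s + (K + 1)) =
      (1 / 2 : ℝ) • (a ^ K * FP a c γ n (p + 1) s * a ^ (K + 1) +
        a ^ (K + 1) * FP a c γ n p (s + 1) * a ^ K) := by
  rw [← coin_FP_mul, ← coin_FP_mul]
  have e1 : K + (p + 1) = p + (K + 1) := by omega
  have e2 : s + 1 + K = s + (K + 1) := by omega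
  have e3 : K + 1 + p = p + (K + 1) := by omega
  rw [e1, e2, e3, ← two_smul ℝ, smul_smul]
  norm_num

/-- The main identity: the hidden coin and the four other branches. -/
theorem coin_split (a c : Alg) {γ : ℝ[X]} {n : ℕ} (hγ : γ.natDegree ≤ n) (p s K : ℕ)
    {μ ν₀ ν₁ : Alg} (h0 : a ^ K = μ + ν₀) (h1 : a ^ (K + 1) = μ + ν₁) :
    FP a c γ n (p + (K + 1)) (s + (K + 1)) =
      μ * FP a c (γ * hX) (n + 1) p s * μ +
      (((1 / 2 : ℝ) • (μ * FP a c γ n (p + 1) s * ν₁) +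
        (1 / 2 : ℝ) • (ν₀ * FP a c γ n (p + 1) s * a ^ (K + 1))) +
       ((1 / 2 : ℝ) • (μ * FP a c γ n p (s + 1) * ν₀) +
        (1 / 2 : ℝ) • (ν₁ * FP a c γ n p (s + 1) * a ^ K))) := by
  rw [coin_FP_split, coin_FP_hX a c hγ, h1, h0]
  simp only [mul_add, add_mul, smul_add, mul_smul_comm, smul_mul_assoc]
  abel

theorem coin_mass_nu {μ ν : Alg} (ha : mass a = 1) (i : ℕ) (h : a ^ i = μ + ν)
    (hμ : mass μ = lam) : mass ν = 1 - lam := by
  have := congrArg mass h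
  rw [mass_pow, ha, one_pow, mass_add, hμ] at this
  linarith

/-- Coin lemma, two sided. For `H = 0` it is the triangle inequality. For the step, with
`p, s ≥ K+1`,
`FP γ n p s = 1/2 [a^K FP γ n (p-K) (s-K-1) a^(K+1) + a^(K+1) FP γ n (p-K-1) (s-K) a^K]`,
put `a^K = μ+ν₀`, `a^(K+1) = μ+ν₁`; the `μ..μ` part is `μ FP (γ hX) (n+1) (p-K-1) (s-K-1) μ`
of mass factor `lam^2`; the other branches have total mass factor `1 - lam^2`. -/
theorem coin_body (ha : nn a) (hm : mass a = 1) (hH : H1 a K lam) (h0 : 0 < lam) (h1 : lam ≤ 1)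
    (H : ℕ) (γ : ℝ[X]) (n p s : ℕ) (hγ : γ.natDegree ≤ n)
    (hp : H * (K + 1) ≤ p) (hs : H * (K + 1) ≤ s) :
    n1 (FP a c γ n p s) ≤
      (∑ j ∈ range (H + 1), bw H (lam ^ 2) j * l1p (γ * hX ^ j)) * n1 c := by
  obtain ⟨μ, ν₀, ν₁, hμ, hν₀, hν₁, e0, e1, hmμ⟩ := hH
  have hm0 := coin_mass_nu hm K e0 hmμ
  have hm1 := coin_mass_nu hm (K + 1) e1 hmμ
  induction H generalizing γ n p s with
  | zero =>
    simp only [zero_add, range_one, sum_singleton, pow_zero, mul_one]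
    have hb : bw 0 (lam ^ 2) 0 = 1 := by simp [bw]
    rw [hb, one_mul, l1p_eq γ hγ, sum_mul]
    unfold FP
    refine (n1_sum_le _ _).trans (sum_le_sum fun t _ => ?_)
    rw [n1_smul]
    refine mul_le_mul_of_nonneg_left ?_ (abs_nonneg _)
    refine (n1_mul_right_le (nn_pow ha _) (by rw [mass_pow, hm, one_pow]) _).trans ?_
    exact n1_mul_left_le (nn_pow ha _) (by rw [mass_pow, hm, one_pow]) _
  | succ H ih =>
    obtain ⟨p', rfl⟩ : ∃ p', p = p' + (K + 1) :=
      ⟨p - (K + 1), (Nat.sub_add_cancel (le_trans (by nlinarith) hp)).symm⟩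
    obtain ⟨s', rfl⟩ : ∃ s', s = s' + (K + 1) :=
      ⟨s - (K + 1), (Nat.sub_add_cancel (le_trans (by nlinarith) hs)).symm⟩
    have hp' : H * (K + 1) ≤ p' := by nlinarith
    have hs' : H * (K + 1) ≤ s' := by nlinarith
    rw [coin_split a c hγ p' s' K e0 e1]
    have i0 := ih (γ * hX) (n + 1) p' s' (coin_hX_natDegree γ n hγ) hp' hs'
    have i1 := ih γ n (p' + 1) s' hγ (by omega) hs'
    have i2 := ih γ n p' (s' + 1) hγ hp' (by omega)
    have hb := bw_rec H (lam ^ 2) (fun j => l1p (γ * hX ^ j))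
    beta_reduce at hb
    rw [hb]
    have i0' : n1 (FP a c (γ * hX) (n + 1) p' s') ≤
        (∑ j ∈ range (H + 1), bw H (lam ^ 2) j * l1p (γ * hX ^ (j + 1))) * n1 c := by
      refine i0.trans (le_of_eq ?_)
      congr 1
      refine sum_congr rfl fun j _ => ?_
      congr 2
      ring
    clear i0
    have hthree : ∀ L M R : Alg, n1 (L * M * R) ≤ n1 L * n1 M * n1 R := by
      intro L M R
      refine (n1_mul_le _ _).trans ?_
      exact mul_le_mul_of_nonneg_right (n1_mul_le _ _) (n1_nonneg _)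
    have hμ1 : n1 μ = lam := by rw [n1_of_nn hμ, hmμ]
    have hν01 : n1 ν₀ = 1 - lam := by rw [n1_of_nn hν₀, hm0]
    have hν11 : n1 ν₁ = 1 - lam := by rw [n1_of_nn hν₁, hm1]
    have hK : n1 (a ^ K) = 1 := n1_pow_nn ha hm K
    have hK1 : n1 (a ^ (K + 1)) = 1 := n1_pow_nn ha hm (K + 1)
    have j0 := hthree μ (FP a c (γ * hX) (n + 1) p' s') μ
    have j1 := hthree μ (FP a c γ n (p' + 1) s') ν₁
    have j2 := hthree ν₀ (FP a c γ n (p' + 1) s') (a ^ (K + 1))
    have j3 := hthree μ (FP a c γ n p' (s' + 1)) ν₀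
    have j4 := hthree ν₁ (FP a c γ n p' (s' + 1)) (a ^ K)
    rw [hμ1] at j0 j1 j3
    rw [hν11] at j1 j4
    rw [hν01] at j2 j3
    rw [hK1] at j2
    rw [hK] at j4
    refine (n1_add_le _ _).trans ?_
    have k1 := n1_add_le ((1 / 2 : ℝ) • (μ * FP a c γ n (p' + 1) s' * ν₁) +
        (1 / 2 : ℝ) • (ν₀ * FP a c γ n (p' + 1) s' * a ^ (K + 1)))
        ((1 / 2 : ℝ) • (μ * FP a c γ n p' (s' + 1) * ν₀) +
        (1 / 2 : ℝ) • (ν₁ * FP a c γ n p' (s' + 1) * a ^ K))
    have k2 := n1_add_le ((1 / 2 : ℝ) • (μ * FP a c γ n (p' + 1) s' * ν₁))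
        ((1 / 2 : ℝ) • (ν₀ * FP a c γ n (p' + 1) s' * a ^ (K + 1)))
    have k3 := n1_add_le ((1 / 2 : ℝ) • (μ * FP a c γ n p' (s' + 1) * ν₀))
        ((1 / 2 : ℝ) • (ν₁ * FP a c γ n p' (s' + 1) * a ^ K))
    rw [n1_smul, n1_smul, abs_of_nonneg (by norm_num : (0 : ℝ) ≤ 1 / 2)] at k2 k3
    set S1 := ∑ j ∈ range (H + 1), bw H (lam ^ 2) j * l1p (γ * hX ^ (j + 1))
    set S0 := ∑ j ∈ range (H + 1), bw H (lam ^ 2) j * l1p (γ * hX ^ j)
    have l0 : lam * n1 (FP a c (γ * hX) (n + 1) p' s') * lam ≤ lam * (S1 * n1 c) * lam := by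
      gcongr
    have l1' : lam * n1 (FP a c γ n (p' + 1) s') * (1 - lam) ≤
        lam * (S0 * n1 c) * (1 - lam) := by
      have : 0 ≤ 1 - lam := by linarith
      gcongr
    have l2' : (1 - lam) * n1 (FP a c γ n (p' + 1) s') * 1 ≤ (1 - lam) * (S0 * n1 c) * 1 := by
      have : 0 ≤ 1 - lam := by linarith
      gcongr
    have l3' : lam * n1 (FP a c γ n p' (s' + 1)) * (1 - lam) ≤
        lam * (S0 * n1 c) * (1 - lam) := by
      have : 0 ≤ 1 - lam := by linarith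
      gcongr
    have l4' : (1 - lam) * n1 (FP a c γ n p' (s' + 1)) * 1 ≤ (1 - lam) * (S0 * n1 c) * 1 := by
      have : 0 ≤ 1 - lam := by linarith
      gcongr
    calc _ ≤ lam * (S1 * n1 c) * lam + (1 / 2 * (lam * (S0 * n1 c) * (1 - lam)) +
          1 / 2 * ((1 - lam) * (S0 * n1 c) * 1) + (1 / 2 * (lam * (S0 * n1 c) * (1 - lam)) +
          1 / 2 * ((1 - lam) * (S0 * n1 c) * 1))) := by linarith
      _ = _ := by ring

/-- Coin lemma, one sided (commutative). -/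
theorem coin_pow (ha : nn a) (hm : mass a = 1) (hH : H1 a K lam) (h0 : 0 < lam) (h1 : lam ≤ 1)
    (H : ℕ) (γ : ℝ[X]) (n N : ℕ) (hγ : γ.natDegree ≤ n) (hN : H * (K + 1) ≤ N) :
    n1 (∑ t ∈ range (n + 1), γ.coeff t • a ^ (N + t)) ≤
      ∑ j ∈ range (H + 1), bw H lam j * l1p (γ * hX ^ j) := by
  obtain ⟨μ, ν₀, ν₁, hμ, hν₀, hν₁, e0, e1, hmμ⟩ := hH
  have hm0 := coin_mass_nu hm K e0 hmμ
  have hm1 := coin_mass_nu hm (K + 1) e1 hmμ
  induction H generalizing γ n N with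
  | zero =>
    simp only [zero_add, range_one, sum_singleton, pow_zero, mul_one]
    have hb : bw 0 lam 0 = 1 := by simp [bw]
    rw [hb, one_mul, l1p_eq γ hγ]
    refine (n1_sum_le _ _).trans (sum_le_sum fun t _ => ?_)
    rw [n1_smul, n1_pow_nn ha hm, mul_one]
  | succ H ih =>
    obtain ⟨N', rfl⟩ : ∃ N', N = N' + (K + 1) :=
      ⟨N - (K + 1), (Nat.sub_add_cancel (le_trans (by nlinarith) hN)).symm⟩
    have hN' : H * (K + 1) ≤ N' := by nlinarith
    have hsplit : ∑ t ∈ range (n + 1), γ.coeff t • a ^ (N' + (K + 1) + t) =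
        μ * (∑ t ∈ range (n + 2), (γ * hX).coeff t • a ^ (N' + t)) +
        ((1 / 2 : ℝ) • (ν₀ * ∑ t ∈ range (n + 1), γ.coeff t • a ^ (N' + 1 + t)) +
         (1 / 2 : ℝ) • (ν₁ * ∑ t ∈ range (n + 1), γ.coeff t • a ^ (N' + t))) := by
      rw [coin_sum_hX hγ (fun t => a ^ (N' + t))]
      have e3 : ∑ t ∈ range (n + 1), γ.coeff t • a ^ (N' + (t + 1)) =
          ∑ t ∈ range (n + 1), γ.coeff t • a ^ (N' + 1 + t) := by
        refine sum_congr rfl fun t _ => ?_
        rw [show N' + (t + 1) = N' + 1 + t by omega]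
      rw [e3]
      have e4 : ∑ t ∈ range (n + 1), γ.coeff t • a ^ (N' + (K + 1) + t) =
          a ^ K * ∑ t ∈ range (n + 1), γ.coeff t • a ^ (N' + 1 + t) := by
        rw [mul_sum]
        refine sum_congr rfl fun t _ => ?_
        rw [mul_smul_comm, ← pow_add]
        congr 2
        omega
      have e5 : ∑ t ∈ range (n + 1), γ.coeff t • a ^ (N' + (K + 1) + t) =
          a ^ (K + 1) * ∑ t ∈ range (n + 1), γ.coeff t • a ^ (N' + t) := by
        rw [mul_sum]
        refine sum_congr rfl fun t _ => ?_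
        rw [mul_smul_comm, ← pow_add]
        congr 2
        omega
      have e6 : ∑ t ∈ range (n + 1), γ.coeff t • a ^ (N' + (K + 1) + t) =
          (1 / 2 : ℝ) • (a ^ K * (∑ t ∈ range (n + 1), γ.coeff t • a ^ (N' + 1 + t)) +
            a ^ (K + 1) * (∑ t ∈ range (n + 1), γ.coeff t • a ^ (N' + t))) := by
        rw [← e4, ← e5, ← two_smul ℝ, smul_smul]
        norm_num
      rw [e6, e0, e1]
      simp only [mul_add, add_mul, smul_add, mul_smul_comm]
      abel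
    rw [hsplit]
    have i0 := ih (γ * hX) (n + 1) N' (coin_hX_natDegree γ n hγ) hN'
    have i1 := ih γ n (N' + 1) hγ (by omega)
    have i2 := ih γ n N' hγ hN'
    have hb := bw_rec H lam (fun j => l1p (γ * hX ^ j))
    beta_reduce at hb
    rw [hb]
    have i0' : n1 (∑ t ∈ range (n + 2), (γ * hX).coeff t • a ^ (N' + t)) ≤
        ∑ j ∈ range (H + 1), bw H lam j * l1p (γ * hX ^ (j + 1)) := by
      refine i0.trans (le_of_eq ?_)
      refine sum_congr rfl fun j _ => ?_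
      congr 2
      ring
    clear i0
    have hμ1 : n1 μ = lam := by rw [n1_of_nn hμ, hmμ]
    have hν01 : n1 ν₀ = 1 - lam := by rw [n1_of_nn hν₀, hm0]
    have hν11 : n1 ν₁ = 1 - lam := by rw [n1_of_nn hν₁, hm1]
    set F0 := ∑ t ∈ range (n + 2), (γ * hX).coeff t • a ^ (N' + t)
    set F1 := ∑ t ∈ range (n + 1), γ.coeff t • a ^ (N' + 1 + t)
    set F2 := ∑ t ∈ range (n + 1), γ.coeff t • a ^ (N' + t)
    set S1 := ∑ j ∈ range (H + 1), bw H lam j * l1p (γ * hX ^ (j + 1))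
    set S0 := ∑ j ∈ range (H + 1), bw H lam j * l1p (γ * hX ^ j)
    have j0 := n1_mul_le μ F0
    have j1 := n1_mul_le ν₀ F1
    have j2 := n1_mul_le ν₁ F2
    rw [hμ1] at j0
    rw [hν01] at j1
    rw [hν11] at j2
    have k0 := n1_add_le (μ * F0) ((1 / 2 : ℝ) • (ν₀ * F1) + (1 / 2 : ℝ) • (ν₁ * F2))
    have k1 := n1_add_le ((1 / 2 : ℝ) • (ν₀ * F1)) ((1 / 2 : ℝ) • (ν₁ * F2))
    rw [n1_smul, n1_smul, abs_of_nonneg (by norm_num : (0 : ℝ) ≤ 1 / 2)] at k1
    have l0 : lam * n1 F0 ≤ lam * S1 := by gcongr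
    have hl : 0 ≤ 1 - lam := by linarith
    have l1' : (1 - lam) * n1 F1 ≤ (1 - lam) * S0 := by gcongr
    have l2' : (1 - lam) * n1 F2 ≤ (1 - lam) * S0 := by gcongr
    linarith

/-- Base case of `coin_bd`: general coefficients. -/
theorem coin_bd_base {h : ℕ} {σ x : ℝ} (hctx : Ctx h a f σ x) (n : ℕ) (g : ℕ → ℝ) :
    Bd h (∑ t ∈ range (n + 1), g t • (a ^ t * f * a ^ (n - t))) (a ^ (n + 1))
      ((x * ∑ t ∈ range (n + 1), g t ^ 2) ^ h) := by
  have hx0 : 0 ≤ x := le_trans (by positivity) hctx.hx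
  induction n generalizing g with
  | zero =>
    have h1 : Bd h (g 0 • (1 : Alg)) 1 (1 * (g 0 ^ 2) ^ h) := by
      have := Bd_self (h := h) (g 0) (1 : Alg)
      rw [mass_one, mul_one, pow_mul] at this
      rwa [one_mul]
    have h0 : Bd h (0 : Alg) 1 (1 * (0 : ℝ) ^ h) := by
      have := Bd_self (h := h) 0 (1 : Alg)
      rw [zero_smul, mass_one, mul_one, pow_mul] at this
      rw [one_mul]
      simpa using this
    have h2 := Bd_slot_left hctx.hh hctx.nna hctx.ma hctx.s0 hctx.dom hctx.mf hctx.hx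
      nn_one zero_le_one le_rfl (sq_nonneg (g 0)) h0 h1
    simpa using h2
  | succ n ih =>
    have h1 := ih (fun t => g (t + 1))
    have h2 : Bd h (g 0 • a ^ (n + 1)) (a ^ (n + 1)) (1 * (g 0 ^ 2) ^ h) := by
      have := Bd_self (h := h) (g 0) (a ^ (n + 1))
      rw [mass_pow, hctx.ma, one_pow, mul_one, pow_mul] at this
      rwa [one_mul]
    rw [← one_mul ((x * ∑ t ∈ range (n + 1), g (t + 1) ^ 2) ^ h)] at h1
    have h3 := Bd_slot_left hctx.hh hctx.nna hctx.ma hctx.s0 hctx.dom hctx.mf hctx.hx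
      (nn_pow hctx.nna (n + 1)) zero_le_one (by positivity) (sq_nonneg (g 0)) h1 h2
    rw [one_mul, ← mul_add] at h3
    rw [sum_range_succ', sum_range_succ' (fun t => g t ^ 2), pow_succ' a (n + 1)]
    refine Eq.mp ?_ h3
    congr 1
    congr 1
    · rw [mul_sum]
      refine sum_congr rfl fun t ht => ?_
      rw [mul_smul_comm]
      congr 1
      rw [pow_succ' a t, Nat.add_sub_add_right]
      simp only [mul_assoc]
    · rw [mul_smul_comm]
      simp

/-- Coin lemma, two sided, in the `Bd` sense. For `H = 0` use `Bd_slot_left` repeatedly. -/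
theorem coin_bd {h : ℕ} {σ x : ℝ} (hctx : Ctx h a f σ x) (hH : H1 a K lam) (h0 : 0 < lam)
    (h1 : lam ≤ 1) (H : ℕ) (γ : ℝ[X]) (n p s : ℕ) (hγ : γ.natDegree ≤ n)
    (hp : H * (K + 1) ≤ p) (hs : H * (K + 1) ≤ s) :
    Bd h (FP a f γ n p s) (a ^ (p + s + n + 1))
      (∑ j ∈ range (H + 1), bw H (lam ^ 2) j * (x * l2p (γ * hX ^ j)) ^ h) := by
  obtain ⟨μ, ν₀, ν₁, hμ, hν₀, hν₁, e0, e1, hmμ⟩ := hH
  have hm0 := coin_mass_nu hctx.ma K e0 hmμ
  have hm1 := coin_mass_nu hctx.ma (K + 1) e1 hmμ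
  induction H generalizing γ n p s with
  | zero =>
    simp only [zero_add, range_one, sum_singleton, pow_zero, mul_one]
    have hb : bw 0 (lam ^ 2) 0 = 1 := by simp [bw]
    rw [hb, one_mul, l2p_eq γ hγ]
    have h2 := coin_bd_base hctx n (fun t => γ.coeff t)
    have h3 := Bd_mul_left (nn_pow hctx.nna p) (nn_pow hctx.nna (n + 1)) h2
    have h4 := Bd_mul_right (nn_pow hctx.nna s)
      (nn_mul (nn_pow hctx.nna p) (nn_pow hctx.nna (n + 1))) h3
    rw [mass_pow, mass_pow, hctx.ma, one_pow, one_pow, one_mul, mul_one] at h4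
    refine Eq.mp ?_ h4
    congr 1
    · unfold FP
      rw [mul_sum, sum_mul]
      refine sum_congr rfl fun t _ => ?_
      rw [mul_smul_comm, smul_mul_assoc]
      congr 1
      rw [pow_add, add_comm s (n - t), pow_add]
      simp only [mul_assoc]
    · rw [← pow_add, ← pow_add]
      congr 1
      omega
  | succ H ih =>
    obtain ⟨p', rfl⟩ : ∃ p', p = p' + (K + 1) :=
      ⟨p - (K + 1), (Nat.sub_add_cancel (le_trans (by nlinarith) hp)).symm⟩
    obtain ⟨s', rfl⟩ : ∃ s', s = s' + (K + 1) :=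
      ⟨s - (K + 1), (Nat.sub_add_cancel (le_trans (by nlinarith) hs)).symm⟩
    have hp' : H * (K + 1) ≤ p' := by nlinarith
    have hs' : H * (K + 1) ≤ s' := by nlinarith
    rw [coin_split a f hγ p' s' K e0 e1]
    have i0 := ih (γ * hX) (n + 1) p' s' (coin_hX_natDegree γ n hγ) hp' hs'
    have i1 := ih γ n (p' + 1) s' hγ (by omega) hs'
    have i2 := ih γ n p' (s' + 1) hγ hp' (by omega)
    rw [show p' + s' + (n + 1) + 1 = p' + s' + n + 2 by omega] at i0
    rw [show p' + 1 + s' + n + 1 = p' + s' + n + 2 by omega] at i1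
    rw [show p' + (s' + 1) + n + 1 = p' + s' + n + 2 by omega] at i2
    have hb := bw_rec H (lam ^ 2) (fun j => (x * l2p (γ * hX ^ j)) ^ h)
    beta_reduce at hb
    rw [hb]
    have i0' : Bd h (FP a f (γ * hX) (n + 1) p' s') (a ^ (p' + s' + n + 2))
        (∑ j ∈ range (H + 1), bw H (lam ^ 2) j * (x * l2p (γ * hX ^ (j + 1))) ^ h) := by
      refine Eq.mp ?_ i0
      congr 1
      refine sum_congr rfl fun j _ => ?_
      congr 4
      ring
    clear i0
    set S1 := ∑ j ∈ range (H + 1), bw H (lam ^ 2) j * (x * l2p (γ * hX ^ (j + 1))) ^ h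
    set S0 := ∑ j ∈ range (H + 1), bw H (lam ^ 2) j * (x * l2p (γ * hX ^ j)) ^ h
    set q0 := a ^ (p' + s' + n + 2) with hq0
    have hq : nn q0 := nn_pow hctx.nna _
    have haK : nn (a ^ K) := nn_pow hctx.nna _
    have haK1 : nn (a ^ (K + 1)) := nn_pow hctx.nna _
    have hmK : mass (a ^ K) = 1 := by rw [mass_pow, hctx.ma, one_pow]
    have hmK1 : mass (a ^ (K + 1)) = 1 := by rw [mass_pow, hctx.ma, one_pow]
    have three : ∀ {L R F : Alg} {B : ℝ}, nn L → nn R → Bd h F q0 B →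
        Bd h (L * F * R) (L * q0 * R) (mass L * B * mass R) := by
      intro L R F B hL hR hF
      exact Bd_mul_right hR (nn_mul hL hq) (Bd_mul_left hL hq hF)
    have hhalf : (0 : ℝ) ≤ 1 / 2 := by norm_num
    have t0 := three hμ hμ i0'
    have t1 := Bd_smul_ref hhalf (three hμ hν₁ i1)
    have t2 := Bd_smul_ref hhalf (three hν₀ haK1 i1)
    have t3 := Bd_smul_ref hhalf (three hμ hν₀ i2)
    have t4 := Bd_smul_ref hhalf (three hν₁ haK i2)
    have nthree : ∀ {L R : Alg}, nn L → nn R → nn (L * q0 * R) := fun hL hR =>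
      nn_mul (nn_mul hL hq) hR
    have u1 := Bd_add (nn_smul hhalf (nthree hμ hν₁)) (nn_smul hhalf (nthree hν₀ haK1)) t1 t2
    have u2 := Bd_add (nn_smul hhalf (nthree hμ hν₀)) (nn_smul hhalf (nthree hν₁ haK)) t3 t4
    have u3 := Bd_add (nn_add (nn_smul hhalf (nthree hμ hν₁)) (nn_smul hhalf (nthree hν₀ haK1)))
      (nn_add (nn_smul hhalf (nthree hμ hν₀)) (nn_smul hhalf (nthree hν₁ haK))) u1 u2
    have u4 := Bd_add (nthree hμ hμ) (nn_add (nn_add (nn_smul hhalf (nthree hμ hν₁))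
      (nn_smul hhalf (nthree hν₀ haK1))) (nn_add (nn_smul hhalf (nthree hμ hν₀))
      (nn_smul hhalf (nthree hν₁ haK)))) t0 u3
    rw [hmμ, hm0, hm1, hmK, hmK1] at u4
    refine Eq.mp ?_ u4
    congr 1
    · have e7 : a ^ (p' + (K + 1) + (s' + (K + 1)) + n + 1) =
          (1 / 2 : ℝ) • (a ^ K * q0 * a ^ (K + 1) + a ^ (K + 1) * q0 * a ^ K) := by
        rw [hq0, ← pow_add, ← pow_add, ← pow_add, ← pow_add]
        have e8 : K + (p' + s' + n + 2) + (K + 1) = p' + (K + 1) + (s' + (K + 1)) + n + 1 := by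
          omega
        have e9 : K + 1 + (p' + s' + n + 2) + K = p' + (K + 1) + (s' + (K + 1)) + n + 1 := by
          omega
        rw [e8, e9, ← two_smul ℝ, smul_smul]
        norm_num
      rw [e7]
      have e10 : a ^ K * q0 * a ^ (K + 1) =
          μ * q0 * μ + (μ * q0 * ν₁ + ν₀ * q0 * a ^ (K + 1)) := by
        rw [e0]
        conv_lhs => rw [add_mul, add_mul, e1, mul_add]
        rw [e1]
        abel
      have e11 : a ^ (K + 1) * q0 * a ^ K =
          μ * q0 * μ + (μ * q0 * ν₀ + ν₁ * q0 * a ^ K) := by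
        rw [e1]
        conv_lhs => rw [add_mul, add_mul, e0, mul_add]
        rw [e0]
        abel
      rw [e10, e11]
      simp only [smul_add]
      have e12 : μ * q0 * μ = (1 / 2 : ℝ) • (μ * q0 * μ) + (1 / 2 : ℝ) • (μ * q0 * μ) := by
        rw [← add_smul]; norm_num
      conv_lhs => rw [e12]
      abel
    · ring

/-- Thue-Morse combinations are killed. -/
theorem tm_kill (k : ℕ) : ∃ C : ℝ, 0 < C ∧ ∀ (a c : Alg) (K : ℕ) (lam : ℝ), nn a → mass a = 1 →
    H1 a K lam → 0 < lam → lam ≤ 1 → ∀ H p s : ℕ, H * (K + 1) ≤ p → H * (K + 1) ≤ s →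
    n1 (∑ i ∈ range (4 ^ k), tm i • (a ^ (p + i) * c * a ^ (s + (4 ^ k - 1 - i)))) ≤
      C * n1 c / (lam ^ 2 * ((H : ℝ) + 1)) ^ k := by
  obtain ⟨C, hC, hCj⟩ := l1_tm k
  refine ⟨C * k.factorial, by positivity, ?_⟩
  intro a c K lam ha hm hH h0 h1 H p s hp hs
  have h4 : 4 ^ k = 2 ^ (2 * k) := by rw [pow_mul]; norm_num
  have h4pos : 0 < 4 ^ k := by positivity
  have hdeg : (tmP (2 * k)).natDegree ≤ 4 ^ k - 1 := by
    rw [h4]; exact tmP_natDegree (2 * k)
  have h2 := coin_body (c := c) ha hm hH h0 h1 H (tmP (2 * k)) (4 ^ k - 1) p s hdeg hp hs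
  have h3 : ∑ i ∈ range (4 ^ k), tm i • (a ^ (p + i) * c * a ^ (s + (4 ^ k - 1 - i))) =
      FP a c (tmP (2 * k)) (4 ^ k - 1) p s := by
    unfold FP
    rw [Nat.sub_add_cancel h4pos]
    refine sum_congr rfl fun i hi => ?_
    rw [mem_range] at hi
    rw [tmP_coeff, if_pos (by rw [← h4]; exact hi)]
  rw [h3]
  refine h2.trans ?_
  have hl2 : 0 < lam ^ 2 := by positivity
  have hl21 : lam ^ 2 ≤ 1 := by nlinarith
  have h5 : ∑ j ∈ range (H + 1), bw H (lam ^ 2) j * l1p (tmP (2 * k) * hX ^ j) ≤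
      C * (k.factorial / (lam ^ 2 * ((H : ℝ) + 1)) ^ k) := by
    refine le_trans ?_ (mul_le_mul_of_nonneg_left (inv_moment H k hl2 hl21) hC.le)
    rw [mul_sum]
    refine sum_le_sum fun j _ => ?_
    have h6 := bw_nonneg (H := H) hl2.le hl21 j
    calc bw H (lam ^ 2) j * l1p (tmP (2 * k) * hX ^ j)
        ≤ bw H (lam ^ 2) j * (C / ((j : ℝ) + 1) ^ k) := mul_le_mul_of_nonneg_left (hCj j) h6
      _ = C * (bw H (lam ^ 2) j * (1 / ((j : ℝ) + 1) ^ k)) := by ring
  calc _ ≤ C * (k.factorial / (lam ^ 2 * ((H : ℝ) + 1)) ^ k) * n1 c :=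
        mul_le_mul_of_nonneg_right h5 (n1_nonneg c)
    _ = _ := by ring

theorem coin_X_sub_one_natDegree : (X - 1 : ℝ[X]).natDegree ≤ 1 := by
  rw [show (1 : ℝ[X]) = C 1 by simp]
  exact natDegree_X_sub_C_le 1

/-- Lemma alpha. -/
theorem alpha (ha : nn a) (hm : mass a = 1) (hH : H1 a K lam) (h0 : 0 < lam) (h1 : lam ≤ 1)
    (H N M : ℕ) (hN : H * (K + 1) ≤ N) :
    n1 (a ^ (N + M) - a ^ N) ≤ 2 * M / Real.sqrt (lam * ((H : ℝ) + 1)) := by
  have hstep : ∀ N', H * (K + 1) ≤ N' → n1 (a ^ (N' + 1) - a ^ N') ≤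
      2 / Real.sqrt (lam * ((H : ℝ) + 1)) := by
    intro N' hN'
    have h2 := coin_pow ha hm hH h0 h1 H (X - 1) 1 N' coin_X_sub_one_natDegree hN'
    have h3 : ∑ t ∈ range (1 + 1), (X - 1 : ℝ[X]).coeff t • a ^ (N' + t) =
        a ^ (N' + 1) - a ^ N' := by
      rw [sum_range_succ, sum_range_one, coeff_sub, coeff_sub, coeff_X_zero, coeff_X_one,
        coeff_one, coeff_one]
      simp [sub_eq_add_neg, add_comm]
    rw [h3] at h2
    refine h2.trans ?_
    have h5 := inv_sqrt_moment H h0 h1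
    have h6 : ∑ j ∈ range (H + 1), bw H lam j * l1p ((X - 1) * hX ^ j) ≤
        2 * ∑ j ∈ range (H + 1), bw H lam j * (1 / Real.sqrt ((j : ℝ) + 1)) := by
      rw [mul_sum]
      refine sum_le_sum fun j _ => ?_
      have h7 := bw_nonneg (H := H) h0.le h1 j
      calc bw H lam j * l1p ((X - 1) * hX ^ j)
          ≤ bw H lam j * (2 / Real.sqrt ((j : ℝ) + 1)) := mul_le_mul_of_nonneg_left (l1_diff j) h7
        _ = _ := by ring
    calc _ ≤ 2 * (1 / Real.sqrt (lam * ((H : ℝ) + 1))) := h6.trans (by linarith)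
      _ = _ := by ring
  induction M with
  | zero => simp
  | succ M ih =>
    have h2 := n1_triangle (a ^ (N + (M + 1))) (a ^ (N + M)) (a ^ N)
    have h3 := hstep (N + M) (by omega)
    rw [← add_assoc] at h2 ⊢
    refine h2.trans ((add_le_add h3 ih).trans (le_of_eq ?_))
    push_cast
    ring

/-- One shifted perturbation, `Bd` version (`h` even). -/
theorem shift_bd (h' : ℕ) (hh' : 1 ≤ h') : ∃ C : ℝ, 0 < C ∧ ∀ (a f : Alg) (σ x : ℝ) (K : ℕ) (lam : ℝ),
    Ctx (2 * h') a f σ x → H1 a K lam → 0 < lam → lam ≤ 1 → ∀ H p s : ℕ,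
    H * (K + 1) ≤ p → H * (K + 1) ≤ s →
    Bd (2 * h') (a ^ (p + 1) * f * a ^ s - a ^ p * f * a ^ (s + 1)) (a ^ (p + s + 2))
      (C * x ^ (2 * h') / (lam ^ 2 * ((H : ℝ) + 1)) ^ (3 * h')) := by
  refine ⟨2 ^ (2 * h') * (3 * h').factorial, by positivity, ?_⟩
  intro a f σ x K lam hctx hH h0 h1 H p s hp hs
  have h2 := coin_bd hctx hH h0 h1 H (X - 1) 1 p s coin_X_sub_one_natDegree hp hs
  have hx0 : 0 ≤ x := le_trans (by positivity) hctx.hx
  have h3 : FP a f (X - 1) 1 p s = a ^ (p + 1) * f * a ^ s - a ^ p * f * a ^ (s + 1) := by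
    unfold FP
    rw [sum_range_succ, sum_range_one, coeff_sub, coeff_sub, coeff_X_zero, coeff_X_one,
      coeff_one, coeff_one]
    simp [sub_eq_add_neg, add_comm]
  rw [h3] at h2
  refine Bd_le h2 ?_
  have hl2 : 0 < lam ^ 2 := by positivity
  have hl21 : lam ^ 2 ≤ 1 := by nlinarith
  have h5 := inv_moment H (3 * h') hl2 hl21
  have h6 : ∑ j ∈ range (H + 1), bw H (lam ^ 2) j * (x * l2p ((X - 1) * hX ^ j)) ^ (2 * h') ≤
      2 ^ (2 * h') * x ^ (2 * h') *
        ∑ j ∈ range (H + 1), bw H (lam ^ 2) j * (1 / ((j : ℝ) + 1) ^ (3 * h')) := by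
    rw [mul_sum]
    refine sum_le_sum fun j _ => ?_
    have h7 := bw_nonneg (H := H) hl2.le hl21 j
    have hl2p : 0 ≤ l2p ((X - 1) * hX ^ j) := by
      unfold l2p
      exact Finset.sum_nonneg fun _ _ => sq_nonneg _
    have h8 : (x * l2p ((X - 1) * hX ^ j)) ^ (2 * h') ≤
        (x * (2 / (((j : ℝ) + 1) * Real.sqrt ((j : ℝ) + 1)))) ^ (2 * h') :=
      pow_le_pow_left₀ (mul_nonneg hx0 hl2p) (mul_le_mul_of_nonneg_left (l2_diff j) hx0) _
    refine (mul_le_mul_of_nonneg_left h8 h7).trans (le_of_eq ?_)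
    have h9 : (((j : ℝ) + 1) * Real.sqrt ((j : ℝ) + 1)) ^ (2 * h') = ((j : ℝ) + 1) ^ (3 * h') := by
      rw [mul_pow, pow_mul (Real.sqrt _) 2 h', Real.sq_sqrt (by positivity), ← pow_add]
      congr 1
      omega
    rw [mul_pow, div_pow, h9]
    ring
  refine h6.trans ?_
  calc _ ≤ 2 ^ (2 * h') * x ^ (2 * h') *
        (((3 * h').factorial : ℝ) / (lam ^ 2 * ((H : ℝ) + 1)) ^ (3 * h')) :=
        mul_le_mul_of_nonneg_left h5 (by positivity)
    _ = _ := by ring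

end Vale.Agent.P321
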