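import Vale.Agent.P321.Bd

namespace Vale.Agent.P321

open Finset

/-- Clamping of `f` to `[-c a, c a]`. -/
private lemma convert_clamp (f a g : Alg) (c : ℝ) (hc : 0 ≤ c) (ha : nn a)
    (hfg : ∀ w, |f.coeff w| ≤ c * a.coeff w + g.coeff w) (hg : nn g) :
    ∃ f' : Alg, Dom c f' a ∧ n1 (f - f') ≤ mass g := by
  refine ⟨MonoidAlgebra.ofCoeff (Finsupp.onFinset f.coeff.support
    (fun w => max (-(c * a.coeff w)) (min (c * a.coeff w) (f.coeff w))) ?_), ?_, ?_⟩
  · intro w hw
    rw [Finsupp.mem_support_iff]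
    intro h0
    apply hw
    have : 0 ≤ c * a.coeff w := mul_nonneg hc (ha w)
    rw [h0, min_eq_right this, max_eq_right (by linarith)]
  · intro w
    have : 0 ≤ c * a.coeff w := mul_nonneg hc (ha w)
    change |max (-(c * a.coeff w)) (min (c * a.coeff w) (f.coeff w))| ≤ _
    rw [abs_le]
    exact ⟨le_max_left _ _, max_le (by linarith) (min_le_left _ _)⟩
  · apply n1_le_of_abs_le
    intro w
    have h0 : 0 ≤ c * a.coeff w := mul_nonneg hc (ha w)
    have h1 := hfg w
    have h2 := hg w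
    rw [abs_le] at h1
    simp only [MonoidAlgebra.coeff_sub, Finsupp.sub_apply]
    change |f.coeff w - max (-(c * a.coeff w)) (min (c * a.coeff w) (f.coeff w))| ≤ _
    rw [abs_le]
    rcases le_total (c * a.coeff w) (f.coeff w) with h3 | h3
    · rw [min_eq_left h3, max_eq_right (by linarith)]
      constructor <;> linarith [h1.1, h1.2]
    · rw [min_eq_right h3]
      rcases le_total (-(c * a.coeff w)) (f.coeff w) with h4 | h4
      · rw [max_eq_right h4]
        constructor <;> linarith [h1.1, h1.2]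
      · rw [max_eq_left h4]
        constructor <;> linarith [h1.1, h1.2]

/-- The absolute value of an element. -/
private lemma convert_abs (f : Alg) : ∃ g : Alg, mass g = n1 f ∧ ∀ w, g.coeff w = |f.coeff w| := by
  classical
  refine ⟨pt (fun w => if 0 ≤ f.coeff w then 1 else -1) f, ?_, ?_⟩
  · have hs : (pt (fun w => if 0 ≤ f.coeff w then (1 : ℝ) else -1) f).coeff.support ⊆
        f.coeff.support := by
      intro w hw
      rw [Finsupp.mem_support_iff] at hw ⊢
      intro h0; apply hw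
      simp [h0]
    rw [mass_eq_sum hs, n1_eq_sum (f := f) subset_rfl]
    refine Finset.sum_congr rfl fun w _ => ?_
    rw [pt_coeff]
    split_ifs with h
    · rw [abs_of_nonneg h, one_mul]
    · rw [abs_of_neg (not_le.1 h)]; ring
  · intro w
    rw [pt_coeff]
    split_ifs with h
    · rw [abs_of_nonneg h, one_mul]
    · rw [abs_of_neg (not_le.1 h)]; ring

/-- Change of the reference measure, abstract form: `q ≤ Λ a' + g`.
Truncate `F` at level `s` relative to `q` (`Bd_trunc`), clamp to `[-sΛa', sΛa']`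
(the loss is at most `s g`), and subtract `mass` times `a'`. -/
theorem convert_dom {h : ℕ} {q a' g F D : Alg} {β s Λ ε₂ : ℝ} (hh : 1 ≤ h) (hq : nn q)
    (ha : nn a') (hma : mass a' = 1) (hg : nn g) (hΛ : 0 ≤ Λ) (hβ : 0 ≤ β) (hs : 0 < s)
    (hqa : ∀ w, q.coeff w ≤ Λ * a'.coeff w + g.coeff w)
    (hF : Bd h F q (β ^ h)) (hD : mass D = 0) (hDF : n1 (D - F) ≤ ε₂) :
    ∃ f' : Alg, mass f' = 0 ∧
      Dom (s * Λ + (ε₂ + β ^ h / s ^ (2 * h - 1) + s * mass g)) f' a' ∧
      n1 (D - f') ≤ 2 * (ε₂ + β ^ h / s ^ (2 * h - 1) + s * mass g) := by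
  obtain ⟨F1, hF1, hF1n⟩ := Bd_trunc hh hq hβ hs hF
  have hsg : nn (s • g) := nn_smul hs.le hg
  obtain ⟨F2, hF2, hF2n⟩ := convert_clamp F1 a' (s • g) (s * Λ) (mul_nonneg hs.le hΛ) ha (by
    intro w
    refine (hF1 w).trans ?_
    simp only [MonoidAlgebra.coeff_smul, Finsupp.smul_apply, smul_eq_mul]
    have := mul_le_mul_of_nonneg_left (hqa w) hs.le
    linarith) hsg
  rw [mass_smul] at hF2n
  set η := ε₂ + β ^ h / s ^ (2 * h - 1) + s * mass g with hη
  have hDF2 : n1 (D - F2) ≤ η := by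
    have e1 := n1_triangle D F F2
    have e2 := n1_triangle F F1 F2
    linarith
  have hm : |mass F2| ≤ η := by
    have : |mass (D - F2)| ≤ η := (abs_mass_le _).trans hDF2
    rw [mass_sub, hD, zero_sub, abs_neg] at this
    exact this
  refine ⟨F2 - mass F2 • a', ?_, ?_, ?_⟩
  · rw [mass_sub, mass_smul, hma]; ring
  · intro w
    simp only [MonoidAlgebra.coeff_sub, Finsupp.sub_apply, MonoidAlgebra.coeff_smul,
      Finsupp.smul_apply, smul_eq_mul]
    have h1 := hF2 w
    have h2 : |mass F2 * a'.coeff w| ≤ η * a'.coeff w := by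
      rw [abs_mul, abs_of_nonneg (ha w)]
      exact mul_le_mul_of_nonneg_right hm (ha w)
    refine (abs_sub _ _).trans ?_
    linarith
  · have e : D - (F2 - mass F2 • a') = (D - F2) + mass F2 • a' := by abel
    rw [e]
    refine (n1_add_le _ _).trans ?_
    rw [n1_smul, n1_of_nn ha, hma]
    linarith

/-- Closeness of `a'` and `q` gives the domination `q ≤ 2 a' + g`. Truncate `E` at level `1/4`. -/
theorem dom_of_close {h : ℕ} {q a' E : Alg} {δ ε₁ : ℝ} (hh : 1 ≤ h) (hq : nn q) (ha : nn a')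
    (hδ : 0 ≤ δ) (hE : Bd h E q (δ ^ h)) (hclose : n1 (a' - q - E) ≤ ε₁) :
    ∃ g : Alg, nn g ∧ mass g ≤ 2 * (ε₁ + δ ^ h * 4 ^ (2 * h - 1)) ∧
      ∀ w, q.coeff w ≤ 2 * a'.coeff w + g.coeff w := by
  obtain ⟨E1, hE1, hE1n⟩ := Bd_trunc (s := 1 / 4) hh hq hδ (by norm_num) hE
  obtain ⟨g1, hg1, hg1'⟩ := convert_abs (E - E1)
  obtain ⟨g2, hg2, hg2'⟩ := convert_abs (a' - q - E)
  refine ⟨(2 : ℝ) • (g1 + g2), ?_, ?_, ?_⟩
  · refine nn_smul (by norm_num) (nn_add ?_ ?_)
    · intro w; rw [hg1']; exact abs_nonneg _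
    · intro w; rw [hg2']; exact abs_nonneg _
  · rw [mass_smul, mass_add, hg1, hg2]
    have : δ ^ h / (1 / 4) ^ (2 * h - 1) = δ ^ h * 4 ^ (2 * h - 1) := by
      rw [one_div, inv_pow, div_inv_eq_mul]
    rw [this] at hE1n
    linarith
  · intro w
    have h1 := hE1 w
    have h2 := hg1' w
    have h3 := hg2' w
    have h4 := hq w
    have h5 := ha w
    simp only [MonoidAlgebra.coeff_sub, Finsupp.sub_apply] at h2 h3
    simp only [MonoidAlgebra.coeff_smul, Finsupp.smul_apply, smul_eq_mul,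
      MonoidAlgebra.coeff_add, Finsupp.add_apply]
    rw [h2, h3]
    rw [abs_le] at h1
    have h6 := neg_abs_le (E.coeff w - E1.coeff w)
    have h7 := le_abs_self (E.coeff w - E1.coeff w)
    have h8 := neg_abs_le (a'.coeff w - q.coeff w - E.coeff w)
    have h9 := le_abs_self (a'.coeff w - q.coeff w - E.coeff w)
    have h10 := abs_nonneg (E.coeff w - E1.coeff w)
    have h11 := abs_nonneg (a'.coeff w - q.coeff w - E.coeff w)
    linarith [h1.1, h1.2]

end Vale.Agent.P321
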