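import Vale.Agent.P321.BaseLem
import Vale.Agent.P321.Convert
import Vale.Agent.P321.Coin

namespace Vale.Agent.P321

open Finset

theorem bo_coeff_sum {ι : Type*} (s : Finset ι) (F : ι → Alg) (w : Wd) :
    (∑ i ∈ s, F i).coeff w = ∑ i ∈ s, (F i).coeff w := by
  classical
  induction s using Finset.induction_on with
  | empty => simp
  | insert i s hi ih =>
    rw [Finset.sum_insert hi, Finset.sum_insert hi, MonoidAlgebra.coeff_add, Finsupp.add_apply, ih]

/-- Binomial expansion of `e^n`. -/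
theorem bo_eS_pow (q θ : ℝ) (n : ℕ) : eS q θ ^ n =
    ∑ j ∈ range (n + 1), bw n (1 - θ) j • symb q ^ (n - j) := by
  have hc : Commute ((1 - θ) • (1 : Alg)) (θ • symb q) := by
    refine Commute.smul_left ?_ _
    exact Commute.one_left _
  unfold eS
  rw [hc.add_pow]
  refine Finset.sum_congr rfl fun j _ => ?_
  unfold bw
  rw [smul_pow, smul_pow, one_pow, sub_sub_cancel, smul_mul_smul_comm, one_mul,
    ← Nat.cast_comm, ← nsmul_eq_mul, ← Nat.cast_smul_eq_nsmul ℝ, smul_smul]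
  ring_nf

theorem bo_bw_step (n i : ℕ) (t : ℝ) :
    ((i : ℝ) + 1) * bw (n + 1) t (i + 1) = t * ((n : ℝ) + 1) * bw n t i := by
  unfold bw
  have h := Nat.add_one_mul_choose_eq n i
  have h' : ((n : ℝ) + 1) * (n.choose i : ℝ) = ((n + 1).choose (i + 1) : ℝ) * ((i : ℝ) + 1) := by
    exact_mod_cast h
  rw [Nat.add_sub_add_right, pow_succ]
  linear_combination (-(t ^ i * t * (1 - t) ^ (n - i))) * h'

/-- `e^(n+1) ≤ L e^n + g` with `mass g` polynomially small: `e = (1-θ) 1 + θ π`,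
`e^n = ∑_k bw n θ k π^k`, `bw (n+1) θ k / bw n θ k = (n+1)(1-θ)/(n+1-k)`; the tail
`n+1-k ≤ (n+1)/L` is bounded by Markov and `inv_moment` for `n+1-k` binomial with `1-θ`. -/
theorem eS_pow_succ_le {q θ : ℝ} (h0 : 0 < q) (h1 : q < 1) (t0 : 0 < θ) (t1 : θ < 1) (T : ℕ) :
    ∃ L0 : ℕ, ∀ L : ℕ, L0 ≤ L → ∀ n : ℕ, L ^ 2 ≤ n → ∃ g : Alg, nn g ∧
      mass g * (L : ℝ) ^ T ≤ 1 ∧
      ∀ w, (eS q θ ^ (n + 1)).coeff w ≤ L * (eS q θ ^ n).coeff w + g.coeff w := by
  classical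
  have hτ0 : 0 < 1 - θ := by linarith
  have hτ1 : 1 - θ ≤ 1 := by linarith
  obtain ⟨L1, hL1⟩ := exists_nat_ge (1 / (1 - θ))
  obtain ⟨L2, hL2⟩ := exists_nat_ge (((T + 1).factorial : ℝ) * 2 ^ (T + 1))
  refine ⟨max 1 (max L1 L2), fun L hL n hn => ?_⟩
  have hLa : 1 ≤ L := (le_max_left _ _).trans hL
  have hLb : L1 ≤ L := (le_max_left _ _).trans ((le_max_right _ _).trans hL)
  have hLc : L2 ≤ L := (le_max_right _ _).trans ((le_max_right _ _).trans hL)
  have hLr : (1 : ℝ) ≤ L := by exact_mod_cast hLa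
  have hLpos : (0 : ℝ) < L := by linarith
  have hLb' : 1 / (1 - θ) ≤ L := hL1.trans (by exact_mod_cast hLb)
  have hLc' : ((T + 1).factorial : ℝ) * 2 ^ (T + 1) ≤ L := hL2.trans (by exact_mod_cast hLc)
  have hbw : ∀ m j, 0 ≤ bw m (1 - θ) j := fun m j => bw_nonneg hτ0.le hτ1 j
  have hπ := nn_symb h0 h1
  have hπm : ∀ m, mass (symb q ^ m) = 1 := fun m => by rw [mass_pow, mass_symb h0 h1, one_pow]
  refine ⟨∑ j ∈ range (n + 2), (if (L : ℝ) * j < (1 - θ) * (n + 1) then bw (n + 1) (1 - θ) j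
    else 0) • symb q ^ (n + 1 - j), ?_, ?_, ?_⟩
  · refine nn_sum _ _ fun j _ => nn_smul ?_ (nn_pow hπ _)
    split_ifs
    · exact hbw _ _
    · exact le_rfl
  · rw [mass_sum]
    have hn2 : (0 : ℝ) < (n : ℝ) + 2 := by positivity
    set Λ : ℝ := (1 - θ) * (n + 1) / L + 1 with hΛ
    have hΛ0 : 0 < Λ := by positivity
    have h2 : ∑ j ∈ range (n + 2), mass ((if (L : ℝ) * j < (1 - θ) * (n + 1) then
        bw (n + 1) (1 - θ) j else 0) • symb q ^ (n + 1 - j)) ≤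
        Λ ^ (T + 1) * ∑ j ∈ range (n + 1 + 1), bw (n + 1) (1 - θ) j *
          (1 / ((j : ℝ) + 1) ^ (T + 1)) := by
      rw [Finset.mul_sum]
      refine Finset.sum_le_sum fun j _ => ?_
      rw [mass_smul, hπm, mul_one]
      split_ifs with hj
      · have h3 : (j : ℝ) + 1 ≤ Λ := by
          have : (j : ℝ) ≤ (1 - θ) * (n + 1) / L := by
            rw [le_div_iff₀ hLpos]
            linarith
          linarith
        have h4 : (1 : ℝ) ≤ Λ ^ (T + 1) * (1 / ((j : ℝ) + 1) ^ (T + 1)) := by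
          rw [mul_one_div, le_div_iff₀ (by positivity), one_mul]
          exact pow_le_pow_left₀ (by positivity) h3 _
        calc bw (n + 1) (1 - θ) j = bw (n + 1) (1 - θ) j * 1 := (mul_one _).symm
          _ ≤ bw (n + 1) (1 - θ) j * (Λ ^ (T + 1) * (1 / ((j : ℝ) + 1) ^ (T + 1))) :=
              mul_le_mul_of_nonneg_left h4 (hbw _ _)
          _ = _ := by ring
      · have := hbw (n + 1) j
        positivity
    have h3 := inv_moment (n + 1) (T + 1) hτ0 hτ1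
    have h4 : Λ ≤ (2 / L) * ((1 - θ) * (((n + 1 : ℕ) : ℝ) + 1)) := by
      have hn' : (L : ℝ) ^ 2 ≤ n := by exact_mod_cast hn
      have h5 : 1 ≤ L * (1 - θ) := by
        rw [div_le_iff₀ hτ0] at hLb'
        linarith
      have h6 : 1 ≤ (1 - θ) * ((n : ℝ) + 1) / L := by
        rw [le_div_iff₀ hLpos, one_mul]
        nlinarith
      rw [hΛ]
      have h7 : (2 / L) * ((1 - θ) * (((n + 1 : ℕ) : ℝ) + 1)) =
          2 * ((1 - θ) * ((n : ℝ) + 1) / L) + 2 * (1 - θ) / L := by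
        push_cast; ring
      rw [h7]
      have h8 : 0 ≤ 2 * (1 - θ) / L := by positivity
      linarith
    have h5 : Λ ^ (T + 1) * (((T + 1).factorial : ℝ) /
        ((1 - θ) * (((n + 1 : ℕ) : ℝ) + 1)) ^ (T + 1)) ≤
        ((T + 1).factorial : ℝ) * (2 / L) ^ (T + 1) := by
      have hpos : 0 < (1 - θ) * (((n + 1 : ℕ) : ℝ) + 1) := by positivity
      have h6 := pow_le_pow_left₀ hΛ0.le h4 (T + 1)
      rw [mul_pow] at h6
      calc Λ ^ (T + 1) * (((T + 1).factorial : ℝ) /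
        ((1 - θ) * (((n + 1 : ℕ) : ℝ) + 1)) ^ (T + 1)) ≤ ((2 / L) ^ (T + 1) *
          ((1 - θ) * (((n + 1 : ℕ) : ℝ) + 1)) ^ (T + 1)) * (((T + 1).factorial : ℝ) /
        ((1 - θ) * (((n + 1 : ℕ) : ℝ) + 1)) ^ (T + 1)) :=
            mul_le_mul_of_nonneg_right h6 (by positivity)
        _ = ((T + 1).factorial : ℝ) * (2 / L) ^ (T + 1) := by
            field_simp
    have h6 := h2.trans ((mul_le_mul_of_nonneg_left h3 (by positivity)).trans h5)
    calc _ ≤ (((T + 1).factorial : ℝ) * (2 / L) ^ (T + 1)) * (L : ℝ) ^ T :=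
          mul_le_mul_of_nonneg_right h6 (by positivity)
      _ = (((T + 1).factorial : ℝ) * 2 ^ (T + 1)) / L := by
          rw [div_pow, pow_succ (L : ℝ) T]
          field_simp
      _ ≤ 1 := by rw [div_le_one hLpos]; exact hLc'
  · intro w
    rw [bo_eS_pow, bo_eS_pow, bo_coeff_sum, bo_coeff_sum, bo_coeff_sum]
    have e1 : ∑ j ∈ range (n + 1 + 1), (bw (n + 1) (1 - θ) j • symb q ^ (n + 1 - j)).coeff w -
        ∑ j ∈ range (n + 2), ((if (L : ℝ) * j < (1 - θ) * (n + 1) then bw (n + 1) (1 - θ) j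
          else 0) • symb q ^ (n + 1 - j)).coeff w =
        ∑ j ∈ range (n + 1 + 1), (if (L : ℝ) * j < (1 - θ) * (n + 1) then 0 else
          bw (n + 1) (1 - θ) j * (symb q ^ (n + 1 - j)).coeff w) := by
      rw [← Finset.sum_sub_distrib]
      refine Finset.sum_congr rfl fun j _ => ?_
      simp only [MonoidAlgebra.coeff_smul, Finsupp.smul_apply, smul_eq_mul]
      split_ifs <;> ring
    have e2 : ∑ j ∈ range (n + 1 + 1), (if (L : ℝ) * j < (1 - θ) * (n + 1) then 0 else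
          bw (n + 1) (1 - θ) j * (symb q ^ (n + 1 - j)).coeff w) ≤
        L * ∑ j ∈ range (n + 1), (bw n (1 - θ) j • symb q ^ (n - j)).coeff w := by
      rw [Finset.sum_range_succ']
      have h3 : (L : ℝ) * ((0 : ℕ) : ℝ) < (1 - θ) * (n + 1) := by
        push_cast
        rw [mul_zero]; positivity
      rw [if_pos h3, add_zero, Finset.mul_sum]
      refine Finset.sum_le_sum fun i _ => ?_
      simp only [MonoidAlgebra.coeff_smul, Finsupp.smul_apply, smul_eq_mul]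
      have h4 := nn_pow hπ (n - i) w
      have h5 := hbw n i
      split_ifs with hi
      · positivity
      · rw [Nat.add_sub_add_right, ← mul_assoc]
        refine mul_le_mul_of_nonneg_right ?_ h4
        have h6 := bo_bw_step n i (1 - θ)
        push_cast at hi
        have h7 : (1 - θ) * ((n : ℝ) + 1) ≤ L * ((i : ℝ) + 1) := not_lt.mp hi
        have h8 : (0 : ℝ) < (i : ℝ) + 1 := by positivity
        have h9 : ((i : ℝ) + 1) * bw (n + 1) (1 - θ) (i + 1) ≤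
            ((i : ℝ) + 1) * (L * bw n (1 - θ) i) := by
          rw [h6]
          have := mul_le_mul_of_nonneg_right h7 h5
          linarith
        exact le_of_mul_le_mul_left h9 h8
    linarith

/-- `a ≥ q e^(2r+1)`. -/
theorem bo_aS_ge {q θ : ℝ} (h0 : 0 < q) (h1 : q < 1) (t0 : 0 ≤ θ) (t1 : θ ≤ 1) (r : ℕ) (w : Wd) :
    q * (eS q θ ^ (2 * r + 1)).coeff w ≤ (aS q θ r).coeff w := by
  have e1 : aS q θ r = q • eS q θ ^ (2 * r + 1) +
      eS q θ ^ r * ((1 - q) • MonoidAlgebra.single (FreeMonoid.of false) (1 : ℝ)) *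
        eS q θ ^ (r + 1) := by
    unfold aS
    rw [bl_zS, mul_add, add_mul]
    congr 1
    rw [mul_smul_comm, mul_one, smul_mul_assoc, ← pow_add]
    congr 2
    ring
  have hn := nn_eS h0 h1 t0 t1
  have h2 : nn (eS q θ ^ r * ((1 - q) • MonoidAlgebra.single (FreeMonoid.of false) (1 : ℝ)) *
        eS q θ ^ (r + 1)) :=
    nn_mul (nn_mul (nn_pow hn _) (nn_smul (by linarith) (nn_single _ zero_le_one))) (nn_pow hn _)
  rw [e1]
  have h3 := h2 w
  simp only [MonoidAlgebra.coeff_add, Finsupp.add_apply, MonoidAlgebra.coeff_smul,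
    Finsupp.smul_apply, smul_eq_mul]
  linarith

theorem bo_diff {q : ℝ} (h0 : 0 < q) (h1 : q < 1) (r : ℕ) :
    PX q (wordAB (r + 1) r) - PX q (wordAB r (r + 1)) =
      eS q (1 - q ^ 2) ^ (r + 1) * (zS q - eS q (1 - q ^ 2)) * eS q (1 - q ^ 2) ^ r -
      eS q (1 - q ^ 2) ^ r * (zS q - eS q (1 - q ^ 2)) * eS q (1 - q ^ 2) ^ (r + 1) := by
  unfold wordAB
  simp only [PX_append, PX_flatten_replicate]
  rw [← eS_eq h0 h1]
  have e1 : PX q [false] = zS q := rfl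
  rw [e1, mul_sub, sub_mul, mul_sub, sub_mul]
  have e2 : eS q (1 - q ^ 2) ^ (r + 1) * eS q (1 - q ^ 2) * eS q (1 - q ^ 2) ^ r =
      eS q (1 - q ^ 2) ^ r * eS q (1 - q ^ 2) * eS q (1 - q ^ 2) ^ (r + 1) := by
    rw [← pow_succ, ← pow_succ, ← pow_add, ← pow_add]
    congr 1
    ring
  rw [e2]
  abel

/-- Base closeness. `b - a = e^(r+1) f e^r - e^r f e^(r+1)` with `f = z - e`; `shift_bd` with
`h = 2h'`, `K = 0`, `H = r = L^(2D)`, `β = C r^(-3/2) = C L^(-3D)`, `s = sqrt (L β)`; then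
`a ≥ q e^(2r+1)` and `eS_pow_succ_le`, `convert_dom` with `Λ = L / q`. -/
theorem base_one {q : ℝ} (h0 : 0 < q) (h1 : q < 1) (D T : ℕ) (hD : 2 ≤ D) : ∃ L0 : ℕ, ∀ L : ℕ,
    L0 ≤ L → ∃ (f : Alg) (σ : ℝ), 0 ≤ σ ∧ σ ^ 2 * (L : ℝ) ^ (3 * D - 4) ≤ 1 ∧
      Dom σ f (PX q (wordAB (L ^ (2 * D)) (L ^ (2 * D) + 1))) ∧ mass f = 0 ∧
      n1 (PX q (wordAB (L ^ (2 * D) + 1) (L ^ (2 * D))) -
        PX q (wordAB (L ^ (2 * D)) (L ^ (2 * D) + 1)) - f) * (L : ℝ) ^ T ≤ 1 := by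
  have hq2 : 0 < q ^ 2 := by positivity
  have hq2' : q ^ 2 < 1 := by nlinarith
  have t0 : 0 < 1 - q ^ 2 := by linarith
  have t1 : 1 - q ^ 2 < 1 := by linarith
  have htt : 1 - (1 - q ^ 2) = q ^ 2 := by ring
  obtain ⟨C, hC0, hC⟩ := shift_bd (T + 1) (by omega)
  have hctx := Ctx_eS h0 h1 t0 t1 (2 * (T + 1)) (by omega)
  have hH1 := H1_eS h0 h1 t0.le t1.le
  rw [htt] at hH1
  set x0 : ℝ := 16 * ((2 * (T + 1) : ℕ) : ℝ) ^ 2 *
    (2 / (q * (1 - q ^ 2) * (1 - (1 - q ^ 2)))) ^ 2 with hx0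
  have hx0p : 0 < x0 := by
    rw [hx0, htt]
    have : (0 : ℝ) < ((2 * (T + 1) : ℕ) : ℝ) := by positivity
    positivity
  set A : ℝ := max 1 C * x0 / q ^ 6 with hA
  have hm1 : 1 ≤ max 1 C := le_max_left _ _
  have hAp : 0 < A := by
    have : 0 < max 1 C := by linarith
    positivity
  obtain ⟨L1, hL1⟩ := eS_pow_succ_le h0 h1 t0 t1 (T + 1)
  obtain ⟨L2, hL2⟩ := exists_nat_ge A
  obtain ⟨L3, hL3⟩ := exists_nat_ge (9 * A / q ^ 2)
  refine ⟨max (max 4 L1) (max L2 L3), fun L hL => ?_⟩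
  have g1 : 4 ≤ L := (le_max_left _ _).trans ((le_max_left _ _).trans hL)
  have g2 : L1 ≤ L := (le_max_right _ _).trans ((le_max_left _ _).trans hL)
  have g3 : L2 ≤ L := (le_max_left _ _).trans ((le_max_right _ _).trans hL)
  have g4 : L3 ≤ L := (le_max_right _ _).trans ((le_max_right _ _).trans hL)
  have r1 : (4 : ℝ) ≤ L := by exact_mod_cast g1
  have r3 : A ≤ L := hL2.trans (by exact_mod_cast g3)
  have r4 : 9 * A / q ^ 2 ≤ L := hL3.trans (by exact_mod_cast g4)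
  have hLp : (0 : ℝ) < L := by linarith
  have hL1' : (1 : ℝ) ≤ L := by linarith
  set r : ℕ := L ^ (2 * D) with hr
  -- the comparison of `e^(2r+2)` with `a`
  have hLr : L ^ 2 ≤ 2 * r + 1 := by
    have : L ^ 2 ≤ L ^ (2 * D) := Nat.pow_le_pow_right (by omega) (by omega)
    omega
  obtain ⟨g, hg, hgm, hgc⟩ := hL1 L g2 (2 * r + 1) hLr
  set e : Alg := eS q (1 - q ^ 2) with he
  have hen : nn e := nn_eS h0 h1 t0.le t1.le
  have hem : mass e = 1 := mass_eS h0 h1 _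
  -- the bound
  have hbd := hC e (zS q - e) _ x0 0 (q ^ 2) hctx hH1 hq2 hq2'.le r r r (by omega) (by omega)
  set β : ℝ := A / (L : ℝ) ^ (3 * D) with hβ
  have hβp : 0 < β := by positivity
  have hβb : C * x0 ^ (2 * (T + 1)) / ((q ^ 2) ^ 2 * ((r : ℝ) + 1)) ^ (3 * (T + 1)) ≤
      β ^ (2 * (T + 1)) := by
    have c1 : C ≤ max 1 C ^ (2 * (T + 1)) :=
      (le_max_right _ _).trans (le_self_pow₀ hm1 (by omega))
    have c2 : ((q ^ 2) ^ 2 * (r : ℝ)) ^ (3 * (T + 1)) ≤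
        ((q ^ 2) ^ 2 * ((r : ℝ) + 1)) ^ (3 * (T + 1)) := by
      refine pow_le_pow_left₀ (by positivity) ?_ _
      exact mul_le_mul_of_nonneg_left (by linarith) (by positivity)
    have hrp : (0 : ℝ) < r := by
      rw [hr]; push_cast; positivity
    have c3 : β ^ (2 * (T + 1)) = max 1 C ^ (2 * (T + 1)) * x0 ^ (2 * (T + 1)) /
        ((q ^ 2) ^ 2 * (r : ℝ)) ^ (3 * (T + 1)) := by
      rw [hβ, hA, hr, div_div, div_pow, mul_pow]
      congr 1
      push_cast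
      rw [mul_pow, mul_pow, ← pow_mul, ← pow_mul, ← pow_mul, ← pow_mul, ← pow_mul]
      congr 2 <;> ring
    rw [c3]
    calc C * x0 ^ (2 * (T + 1)) / ((q ^ 2) ^ 2 * ((r : ℝ) + 1)) ^ (3 * (T + 1)) ≤
        C * x0 ^ (2 * (T + 1)) / ((q ^ 2) ^ 2 * (r : ℝ)) ^ (3 * (T + 1)) :=
          div_le_div_of_nonneg_left (by positivity) (by positivity) c2
      _ ≤ _ := by
          refine div_le_div_of_nonneg_right ?_ (by positivity)
          exact mul_le_mul_of_nonneg_right c1 (by positivity)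
  have hbd2 := Bd_le hbd hβb
  set s : ℝ := Real.sqrt (L * β) with hs
  have hsp : 0 < s := Real.sqrt_pos.mpr (by positivity)
  have hss : s ^ 2 = L * β := Real.sq_sqrt (by positivity)
  have hLD : (L : ℝ) ^ (3 * D) = (L : ℝ) ^ (3 * D - 4) * (L : ℝ) ^ 4 := by
    rw [← pow_add]; congr 1; omega
  have hL34 : (1 : ℝ) ≤ (L : ℝ) ^ (3 * D - 4) := one_le_pow₀ hL1'
  have hs1 : s ≤ 1 := by
    rw [hs, Real.sqrt_le_iff]
    refine ⟨zero_le_one, ?_⟩
    rw [one_pow, hβ, hLD]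
    rw [← mul_div_assoc, div_le_one (by positivity)]
    have : (L : ℝ) * A ≤ 1 * (L : ℝ) ^ 4 := by
      have c1 : (L : ℝ) * A ≤ L * L := mul_le_mul_of_nonneg_left r3 hLp.le
      have c2 : (L : ℝ) * L ≤ (L : ℝ) ^ 4 := by
        rw [← pow_two]; exact pow_le_pow_right₀ hL1' (by norm_num)
      linarith
    exact this.trans (mul_le_mul_of_nonneg_right hL34 (by positivity))
  have hkey : β ^ (2 * (T + 1)) / s ^ (2 * (2 * (T + 1)) - 1) = s / (L : ℝ) ^ (2 * (T + 1)) := by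
    have c1 : β = s ^ 2 / L := by rw [hss]; field_simp
    have c2 : s ^ (2 * (2 * (T + 1))) = s ^ (2 * (2 * (T + 1)) - 1) * s := by
      rw [← pow_succ]; congr 1
    rw [c1, div_pow, ← pow_mul, c2]
    field_simp
  have haP : PX q (wordAB r (r + 1)) = aS q (1 - q ^ 2) r := (aS_eq h0 h1 r).symm
  have hna : nn (aS q (1 - q ^ 2) r) := by
    rw [aS_eq h0 h1]; exact nn_PX h0.le h1.le _
  have hma : mass (aS q (1 - q ^ 2) r) = 1 := by
    rw [aS_eq h0 h1]; exact mass_PX _ _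
  have hmass0 : mass (PX q (wordAB (r + 1) r) - PX q (wordAB r (r + 1))) = 0 := by
    rw [mass_sub, mass_PX, mass_PX, sub_self]
  have hqa : ∀ w, (e ^ (r + r + 2)).coeff w ≤
      (L / q) * (aS q (1 - q ^ 2) r).coeff w + g.coeff w := by
    intro w
    have c1 := hgc w
    have c2 := bo_aS_ge h0 h1 t0.le t1.le r w
    have c3 : (eS q (1 - q ^ 2) ^ (2 * r + 1)).coeff w ≤ (aS q (1 - q ^ 2) r).coeff w / q := by
      rw [le_div_iff₀ h0]; linarith
    have c4 : (L : ℝ) * (eS q (1 - q ^ 2) ^ (2 * r + 1)).coeff w ≤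
        (L / q) * (aS q (1 - q ^ 2) r).coeff w := by
      calc (L : ℝ) * (eS q (1 - q ^ 2) ^ (2 * r + 1)).coeff w ≤
          L * ((aS q (1 - q ^ 2) r).coeff w / q) := mul_le_mul_of_nonneg_left c3 hLp.le
        _ = _ := by ring
    have c5 : r + r + 2 = 2 * r + 1 + 1 := by ring
    rw [c5]
    linarith
  obtain ⟨f', hf1, hf2, hf3⟩ := convert_dom (ε₂ := 0) (Λ := L / q) (by omega) (nn_pow hen _)
    hna hma hg (by positivity) hβp.le hsp hqa hbd2 (D := PX q (wordAB (r + 1) r) -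
      PX q (wordAB r (r + 1))) hmass0 (by
        rw [bo_diff h0 h1, ← he, sub_self, n1_zero])
  rw [hkey, zero_add] at hf2 hf3
  have hgm0 : 0 ≤ mass g := mass_nonneg hg
  have hLT : (1 : ℝ) ≤ (L : ℝ) ^ (T + 1) := one_le_pow₀ hL1'
  have hgm1 : mass g ≤ 1 := by
    have := mul_le_mul_of_nonneg_left hLT hgm0
    linarith
  have hLh : (1 : ℝ) ≤ (L : ℝ) ^ (2 * (T + 1)) := one_le_pow₀ hL1'
  have hsL : s / (L : ℝ) ^ (2 * (T + 1)) ≤ s := div_le_self hsp.le hLh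
  have hsL0 : 0 ≤ s / (L : ℝ) ^ (2 * (T + 1)) := by positivity
  refine ⟨f', s * (L / q) + (s / (L : ℝ) ^ (2 * (T + 1)) + s * mass g), by positivity, ?_, ?_,
    hf1, ?_⟩
  · have hLq : 1 ≤ (L : ℝ) / q := by
      rw [le_div_iff₀ h0]; linarith
    have b1 : s * (L / q) + (s / (L : ℝ) ^ (2 * (T + 1)) + s * mass g) ≤ 3 * (s * (L / q)) := by
      have c1 : s ≤ s * (L / q) := le_mul_of_one_le_right hsp.le hLq
      have c2 : s * mass g ≤ s := by nlinarith
      linarith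
    have b2 : (s * (L / q) + (s / (L : ℝ) ^ (2 * (T + 1)) + s * mass g)) ^ 2 ≤
        (3 * (s * (L / q))) ^ 2 := pow_le_pow_left₀ (by positivity) b1 2
    have b3 : (3 * (s * (L / q))) ^ 2 = 9 * A / q ^ 2 * ((L : ℝ) ^ 3 / (L : ℝ) ^ (3 * D)) := by
      rw [mul_pow, mul_pow, hss, hβ]
      field_simp
      ring
    calc _ ≤ (9 * A / q ^ 2 * ((L : ℝ) ^ 3 / (L : ℝ) ^ (3 * D))) * (L : ℝ) ^ (3 * D - 4) := by
          rw [← b3]
          exact mul_le_mul_of_nonneg_right b2 (by positivity)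
      _ = (9 * A / q ^ 2) / L := by
          rw [hLD]
          field_simp
      _ ≤ 1 := by rw [div_le_one hLp]; exact r4
  · rw [haP]; exact hf2
  · have b1 : s / (L : ℝ) ^ (2 * (T + 1)) * (L : ℝ) ^ T ≤ 1 / L := by
      have c1 : (L : ℝ) ^ (2 * (T + 1)) = (L : ℝ) ^ (T + 1) * ((L : ℝ) ^ T * L) := by
        rw [← pow_succ, ← pow_add]; congr 1; ring
      rw [c1]
      have c2 : s / ((L : ℝ) ^ (T + 1) * ((L : ℝ) ^ T * L)) * (L : ℝ) ^ T =
          (s / (L : ℝ) ^ (T + 1)) / L := by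
        field_simp
      rw [c2]
      refine div_le_div_of_nonneg_right ?_ hLp.le
      rw [div_le_one (by positivity)]
      linarith
    have b2 : s * mass g * (L : ℝ) ^ T ≤ 1 / L := by
      rw [le_div_iff₀ hLp]
      have c1 : mass g * (L : ℝ) ^ (T + 1) = mass g * (L : ℝ) ^ T * L := by
        rw [pow_succ]; ring
      rw [c1] at hgm
      have c2 : 0 ≤ mass g * (L : ℝ) ^ T * L := by positivity
      calc s * mass g * (L : ℝ) ^ T * L = s * (mass g * (L : ℝ) ^ T * L) := by ring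
        _ ≤ 1 * (mass g * (L : ℝ) ^ T * L) := mul_le_mul_of_nonneg_right hs1 c2
        _ ≤ 1 := by linarith
    have b3 : 1 / (L : ℝ) ≤ 1 / 4 := one_div_le_one_div_of_le (by norm_num) r1
    calc _ ≤ 2 * (s / (L : ℝ) ^ (2 * (T + 1)) + s * mass g) * (L : ℝ) ^ T :=
          mul_le_mul_of_nonneg_right hf3 (by positivity)
      _ = 2 * (s / (L : ℝ) ^ (2 * (T + 1)) * (L : ℝ) ^ T + s * mass g * (L : ℝ) ^ T) := by ring
      _ ≤ 1 := by linarith

end Vale.Agent.P321
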