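import Vale.Agent.P321.Defs

/-!
P321, module M8a: Gram products of shifted copies of a clustered slot list.
-/

namespace Vale.Agent.P321

variable {d : ℕ} {x : ℝ}

theorem pg_nPsi_append (l l' : List Slot) : nPsi (l ++ l') = nPsi l + nPsi l' := by
  induction l with
  | nil => simp [nPsi]
  | cons s l ih => cases s <;> simp [nPsi, ih] <;> omega

theorem pg_nB_append (l l' : List Slot) : nB (l ++ l') = nB l + nB l' := by
  induction l with
  | nil => simp [nB]
  | cons s l ih => cases s <;> simp [nB, ih] <;> omega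

theorem pg_nPsi_replicate (n : ℕ) : nPsi (List.replicate n Slot.A) = 0 := by
  induction n with
  | zero => simp [nPsi]
  | succ n ih => simp [List.replicate_succ, nPsi, ih]

theorem pg_nB_replicate (n : ℕ) : nB (List.replicate n Slot.A) = 0 := by
  induction n with
  | zero => simp [nB]
  | succ n ih => simp [List.replicate_succ, nB, ih]

theorem pg_nPsi_pad (l : List Slot) (u v : ℕ) :
    nPsi (List.replicate u Slot.A ++ l ++ List.replicate v Slot.A) = nPsi l := by
  simp [pg_nPsi_append, pg_nPsi_replicate]

theorem pg_nB_pad (l : List Slot) (u v : ℕ) :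
    nB (List.replicate u Slot.A ++ l ++ List.replicate v Slot.A) = nB l := by
  simp [pg_nB_append, pg_nB_replicate]

theorem pg_al_nonneg (s : Slot) : 0 ≤ s.al := by
  cases s <;> simp [Slot.al]

theorem pg_al_le (s : Slot) : s.al ≤ 1 := by
  cases s <;> simp [Slot.al]

theorem pg_be_nonneg (s : Slot) : 0 ≤ s.be := by
  cases s <;> simp [Slot.be]

theorem pg_be_le (s : Slot) : s.be ≤ 1 := by
  cases s <;> simp [Slot.be]

theorem pg_gram_nonneg (hx : 0 ≤ x) (l : List Slot) : ∀ l' : List Slot, 0 ≤ gram x l l' := by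
  intro l'
  unfold gram
  apply List.prod_nonneg
  intro y hy
  obtain ⟨i, hi, rfl⟩ := List.getElem_of_mem hy
  rw [List.getElem_zipWith]
  have h1 := pg_al_nonneg
  have h2 := pg_be_nonneg
  exact add_nonneg (mul_nonneg (h1 _) (h1 _)) (mul_nonneg hx (mul_nonneg (h2 _) (h2 _)))

/-- The Gram product is at most `x ^ (number of Psi) (1+x) ^ (number of B)` of the first list. -/
theorem pg_gram_le (hx : 0 ≤ x) (l : List Slot) :
    ∀ l' : List Slot, l.length = l'.length → gram x l l' ≤ x ^ nPsi l * (1 + x) ^ nB l := by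
  induction l with
  | nil => intro l' _; simp [gram, nPsi, nB]
  | cons s l ih =>
    intro l' hl
    cases l' with
    | nil => simp at hl
    | cons t l' =>
      have hl' : l.length = l'.length := by simpa using hl
      have ih' := ih l' hl'
      have hg : gram x (s :: l) (t :: l') =
          (s.al * t.al + x * (s.be * t.be)) * gram x l l' := by
        simp [gram]
      have h0 := pg_gram_nonneg hx l l'
      have hta := pg_al_le t
      have htb := pg_be_le t
      have hta0 := pg_al_nonneg t
      have htb0 := pg_be_nonneg t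
      have hR : 0 ≤ x ^ nPsi l * (1 + x) ^ nB l := by positivity
      have hxt : x * t.be ≤ x := by nlinarith
      have hxt0 : 0 ≤ x * t.be := mul_nonneg hx htb0
      rw [hg]
      cases s with
      | A =>
        simp only [Slot.al, Slot.be, nPsi, nB]
        have h1 : 1 * t.al + x * (0 * t.be) ≤ 1 := by linarith
        calc (1 * t.al + x * (0 * t.be)) * gram x l l' ≤ 1 * gram x l l' :=
              mul_le_mul_of_nonneg_right h1 h0
          _ ≤ _ := by rw [one_mul]; exact ih'
      | B =>
        simp only [Slot.al, Slot.be, nPsi, nB]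
        have h1 : 1 * t.al + x * (1 * t.be) ≤ 1 + x := by linarith
        calc (1 * t.al + x * (1 * t.be)) * gram x l l' ≤ (1 + x) * gram x l l' :=
              mul_le_mul_of_nonneg_right h1 h0
          _ ≤ (1 + x) * (x ^ nPsi l * (1 + x) ^ nB l) :=
              mul_le_mul_of_nonneg_left ih' (by linarith)
          _ = _ := by ring
      | Psi =>
        simp only [Slot.al, Slot.be, nPsi, nB]
        have h1 : 0 * t.al + x * (1 * t.be) ≤ x := by linarith
        calc (0 * t.al + x * (1 * t.be)) * gram x l l' ≤ x * gram x l l' :=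
              mul_le_mul_of_nonneg_right h1 h0
          _ ≤ x * (x ^ nPsi l * (1 + x) ^ nB l) :=
              mul_le_mul_of_nonneg_left ih' hx
          _ = _ := by ring

/-- A list without `Psi` has no element equal to `Psi`. -/
theorem pg_ne_psi {l : List Slot} (hl : nPsi l = 0) : ∀ s ∈ l, s ≠ Slot.Psi := by
  induction l with
  | nil => simp
  | cons s l ih =>
    cases s with
    | A =>
      simp only [nPsi] at hl
      simpa using ih hl
    | B =>
      simp only [nPsi] at hl
      simpa using ih hl
    | Psi => simp [nPsi] at hl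

/-- A list with a positive number of `Psi` contains `Psi`. -/
theorem pg_mem_psi {l : List Slot} (hl : 1 ≤ nPsi l) : Slot.Psi ∈ l := by
  induction l with
  | nil => simp [nPsi] at hl
  | cons s l ih =>
    cases s with
    | A =>
      simp only [nPsi] at hl
      simpa using ih hl
    | B =>
      simp only [nPsi] at hl
      simpa using ih hl
    | Psi => simp

/-- Positions of the slots different from `A` in a padded list. -/
theorem pg_pos (l : List Slot) (u v j : ℕ)
    (hj : j < (List.replicate u Slot.A ++ l ++ List.replicate v Slot.A).length)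
    (hne : (List.replicate u Slot.A ++ l ++ List.replicate v Slot.A)[j] ≠ Slot.A) :
    ∃ i, ∃ hi : i < l.length, j = u + i ∧ l[i] ≠ Slot.A := by
  rw [List.getElem_append] at hne
  split_ifs at hne with h1
  · rw [List.getElem_append] at hne
    split_ifs at hne with h2
    · simp at hne
    · simp only [List.length_append, List.length_replicate] at h1 h2
      refine ⟨j - u, by omega, by omega, ?_⟩
      simpa using hne
  · simp at hne

/-- Two shifted clusters do not meet. -/
theorem pg_disj (M P i i' d : ℕ) (δ : ℤ) (h : (i : ℤ) - i' = δ) (h1 : (P : ℤ) ≤ |δ|)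
    (h2 : |δ| ≤ 2 * d) (hd : 2 * d + P ≤ M) (hi : i % M < P) (hi' : i' % M < P) : False := by
  have e1 := Nat.div_add_mod i M
  have e2 := Nat.div_add_mod i' M
  set r := i % M
  set r' := i' % M
  set q := i / M
  set q' := i' / M
  have e1' : (M : ℤ) * q + r = i := by exact_mod_cast e1
  have e2' : (M : ℤ) * q' + r' = i' := by exact_mod_cast e2
  have hM : (2 : ℤ) * d + P ≤ M := by exact_mod_cast hd
  have hr : (r : ℤ) < P := by exact_mod_cast hi
  have hr' : (r' : ℤ) < P := by exact_mod_cast hi'
  have hr0 : (0 : ℤ) ≤ r := by positivity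
  have hr0' : (0 : ℤ) ≤ r' := by positivity
  have hd0 : (0 : ℤ) ≤ d := by positivity
  have key : (M : ℤ) * ((q : ℤ) - q') = δ - (r - r') := by
    rw [← h, ← e1', ← e2']; ring
  have hMpos : (0 : ℤ) < M := by linarith
  rcases lt_trichotomy (q : ℤ) q' with hq | hq | hq
  · have : (M : ℤ) * ((q : ℤ) - q') ≤ -M := by nlinarith
    have h3 := neg_abs_le δ
    linarith
  · rw [hq, sub_self, mul_zero] at key
    have : δ = r - r' := by linarith
    have h4 : |δ| < P := by
      rw [this, abs_lt]; constructor <;> linarith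
    linarith
  · have : (M : ℤ) ≤ (M : ℤ) * ((q : ℤ) - q') := by nlinarith
    have h3 := le_abs_self δ
    linarith

/-- If the shift is large, then at each position one of the two lists has an `A`. -/
theorem pg_meet (l : List Slot) (p s P M : ℕ) (D D' : ℤ)
    (hM : Clus M P l) (hd : 2 * d + P ≤ M)
    (hD : |D| ≤ d) (hD' : |D'| ≤ d) (hp : d ≤ p) (hDD : ¬ |D - D'| < (P : ℤ)) (j : ℕ)
    (hj : j < (List.replicate ((p : ℤ) - D).toNat Slot.A ++ l ++
      List.replicate ((s : ℤ) + D).toNat Slot.A).length)
    (hj' : j < (List.replicate ((p : ℤ) - D').toNat Slot.A ++ l ++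
      List.replicate ((s : ℤ) + D').toNat Slot.A).length) :
    (List.replicate ((p : ℤ) - D).toNat Slot.A ++ l ++
      List.replicate ((s : ℤ) + D).toNat Slot.A)[j] = Slot.A ∨
    (List.replicate ((p : ℤ) - D').toNat Slot.A ++ l ++
      List.replicate ((s : ℤ) + D').toNat Slot.A)[j] = Slot.A := by
  by_contra hcon
  rw [not_or] at hcon
  obtain ⟨hc1, hc2⟩ := hcon
  obtain ⟨i, hi, hij, hli⟩ := pg_pos l _ _ j hj hc1
  obtain ⟨i', hi', hij', hli'⟩ := pg_pos l _ _ j hj' hc2
  have m1 := hM i hi hli
  have m2 := hM i' hi' hli'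
  have a1 := abs_le.mp hD
  have a2 := abs_le.mp hD'
  have a3 : |D - D'| ≤ 2 * (d : ℤ) := by
    have := abs_sub D D'
    linarith
  refine pg_disj M P i i' d (D - D') ?_ (not_lt.mp hDD) a3 hd m1 m2
  omega

theorem pg_len (l : List Slot) (p s : ℕ) (D : ℤ) (hD : |D| ≤ d) (hp : d ≤ p) (hs : d ≤ s) :
    (List.replicate ((p : ℤ) - D).toNat Slot.A ++ l ++
      List.replicate ((s : ℤ) + D).toNat Slot.A).length = p + s + l.length := by
  have a1 := abs_le.mp hD
  simp only [List.length_append, List.length_replicate]
  omega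

/-- Gram bound without `Psi`: shifted copies of the same list inside `A`s. -/
theorem gram_shift_le (hx : 0 ≤ x) (l : List Slot) (p s P M n : ℕ) (D D' : ℤ)
    (hl : nPsi l = 0) (hM : Clus M P l) (hd : 2 * d + P ≤ M) (hB : nB l ≤ n)
    (hD : |D| ≤ d) (hD' : |D'| ≤ d) (hp : d ≤ p) (hs : d ≤ s) :
    gram x
      (List.replicate ((p : ℤ) - D).toNat Slot.A ++ l ++ List.replicate ((s : ℤ) + D).toNat Slot.A)
      (List.replicate ((p : ℤ) - D').toNat Slot.A ++ l ++
        List.replicate ((s : ℤ) + D').toNat Slot.A) ≤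
      bump ((1 + x) ^ n - 1) P (D - D') := by
  unfold bump
  split_ifs with hDD
  · have hlen := (pg_len l p s D hD hp hs).trans (pg_len l p s D' hD' hp hs).symm
    refine (pg_gram_le hx _ _ hlen).trans ?_
    rw [pg_nPsi_pad, pg_nB_pad, hl, pow_zero, one_mul]
    have := pow_le_pow_right₀ (by linarith : (1 : ℝ) ≤ 1 + x) hB
    linarith
  · rw [add_zero]
    apply le_of_eq
    unfold gram
    apply List.prod_eq_one
    intro y hy
    obtain ⟨j, hj, rfl⟩ := List.getElem_of_mem hy
    rw [List.getElem_zipWith]
    have hj1 : j < (List.replicate ((p : ℤ) - D).toNat Slot.A ++ l ++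
      List.replicate ((s : ℤ) + D).toNat Slot.A).length := by
      rw [List.length_zipWith] at hj
      exact lt_of_lt_of_le hj (min_le_left _ _)
    have hj2 : j < (List.replicate ((p : ℤ) - D').toNat Slot.A ++ l ++
      List.replicate ((s : ℤ) + D').toNat Slot.A).length := by
      rw [List.length_zipWith] at hj
      exact lt_of_lt_of_le hj (min_le_right _ _)
    have hn1 := pg_ne_psi ((pg_nPsi_pad l ((p : ℤ) - D).toNat ((s : ℤ) + D).toNat).trans hl) _
      (List.getElem_mem hj1)
    have hn2 := pg_ne_psi ((pg_nPsi_pad l ((p : ℤ) - D').toNat ((s : ℤ) + D').toNat).trans hl) _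
      (List.getElem_mem hj2)
    have hAB : ∀ t : Slot, t ≠ Slot.Psi → t.al = 1 := by
      intro t ht
      cases t with
      | A => rfl
      | B => rfl
      | Psi => exact absurd rfl ht
    rw [hAB _ hn1, hAB _ hn2]
    rcases pg_meet l p s P M D D' hM hd hD hD' hp hDD j hj1 hj2 with h | h
    · rw [h]; simp [Slot.be]
    · rw [h]; simp [Slot.be]

/-- Gram bound with at least `k` `Psi`s. -/
theorem gram_shift_psi_le (hx : 0 ≤ x) (hx1 : x ≤ 1) (l : List Slot) (p s P M n k : ℕ) (D D' : ℤ)
    (hk1 : 1 ≤ k) (hl : k ≤ nPsi l) (hM : Clus M P l) (hd : 2 * d + P ≤ M) (hB : nB l ≤ n)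
    (hD : |D| ≤ d) (hD' : |D'| ≤ d) (hp : d ≤ p) (hs : d ≤ s) :
    gram x
      (List.replicate ((p : ℤ) - D).toNat Slot.A ++ l ++ List.replicate ((s : ℤ) + D).toNat Slot.A)
      (List.replicate ((p : ℤ) - D').toNat Slot.A ++ l ++
        List.replicate ((s : ℤ) + D').toNat Slot.A) ≤
      if |D - D'| < (P : ℤ) then x ^ k * (1 + x) ^ n else 0 := by
  have hlen := (pg_len l p s D hD hp hs).trans (pg_len l p s D' hD' hp hs).symm
  split_ifs with hDD
  · refine (pg_gram_le hx _ _ hlen).trans ?_
    rw [pg_nPsi_pad, pg_nB_pad]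
    have h1 := pow_le_pow_right₀ (by linarith : (1 : ℝ) ≤ 1 + x) hB
    have h2 := pow_le_pow_of_le_one hx hx1 hl
    have h3 : 0 ≤ (1 + x) ^ nB l := by positivity
    have h4 : 0 ≤ x ^ k := by positivity
    exact mul_le_mul h2 h1 h3 h4
  · apply le_of_eq
    unfold gram
    apply List.prod_eq_zero
    have hmem : Slot.Psi ∈ (List.replicate ((p : ℤ) - D).toNat Slot.A ++ l ++
        List.replicate ((s : ℤ) + D).toNat Slot.A) := by
      apply pg_mem_psi
      rw [pg_nPsi_pad]
      exact hk1.trans hl
    obtain ⟨j, hj1, hjP⟩ := List.getElem_of_mem hmem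
    have hj2 : j < (List.replicate ((p : ℤ) - D').toNat Slot.A ++ l ++
      List.replicate ((s : ℤ) + D').toNat Slot.A).length := by
      rw [← hlen]; exact hj1
    have hz : j < (List.zipWith (fun s t : Slot => s.al * t.al + x * (s.be * t.be))
        (List.replicate ((p : ℤ) - D).toNat Slot.A ++ l ++
          List.replicate ((s : ℤ) + D).toNat Slot.A)
        (List.replicate ((p : ℤ) - D').toNat Slot.A ++ l ++
          List.replicate ((s : ℤ) + D').toNat Slot.A)).length := by
      rw [List.length_zipWith]
      exact lt_min hj1 hj2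
    have hmem2 := List.getElem_mem hz
    rw [List.getElem_zipWith] at hmem2
    have hA : (List.replicate ((p : ℤ) - D').toNat Slot.A ++ l ++
      List.replicate ((s : ℤ) + D').toNat Slot.A)[j] = Slot.A := by
      rcases pg_meet l p s P M D D' hM hd hD hD' hp hDD j hj1 hj2 with h | h
      · rw [hjP] at h; cases h
      · exact h
    rw [hjP, hA] at hmem2
    simpa [Slot.al, Slot.be] using hmem2

end Vale.Agent.P321
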