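import Vale.Agent.P321.GBs
import Vale.Agent.P321.PeelGram

namespace Vale.Agent.P321

open Finset

variable {h : ℕ} {c : ℝ} {a f T : Alg} {N p0 d : ℕ} {b e : ℤ → ℝ} {σ x : ℝ}

theorem pval_append (a f : Alg) (l l' : List Slot) :
    pval a f (l ++ l') = pval a f l * pval a f l' := by
  simp [pval]

theorem pval_replicate_A (a f : Alg) (n : ℕ) :
    pval a f (List.replicate n Slot.A) = a ^ n := by
  simp [pval, Slot.val]

theorem alp_eq (l : List Slot) : alp l = if nPsi l = 0 then 1 else 0 := by
  induction l with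
  | nil => simp [alp, nPsi]
  | cons s l ih =>
    have h1 : alp (s :: l) = s.al * alp l := by simp [alp]
    rw [h1, ih]
    by_cases h0 : nPsi l = 0 <;> cases s <;> simp [Slot.al, nPsi, h0]

theorem peel_pval_cons (a f : Alg) (s : Slot) (l : List Slot) :
    pval a f (s :: l) = s.val a f * pval a f l := by
  simp [pval]

theorem nn_pval (hctx : Ctx h a f σ x) (l : List Slot) (hl : nPsi l = 0) :
    nn (pval a f l) ∧ mass (pval a f l) = 1 := by
  induction l with
  | nil =>
    have h1 : pval a f [] = 1 := by simp [pval]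
    rw [h1]
    exact ⟨nn_one, mass_one⟩
  | cons s l ih =>
    rw [peel_pval_cons]
    cases s with
    | A =>
      obtain ⟨i1, i2⟩ := ih hl
      refine ⟨nn_mul hctx.nna i1, ?_⟩
      rw [mass_mul, i2]
      simp [Slot.val, hctx.ma]
    | B =>
      obtain ⟨i1, i2⟩ := ih hl
      refine ⟨nn_mul hctx.nnb i1, ?_⟩
      rw [mass_mul, i2]
      simp [Slot.val, mass_add, hctx.ma, hctx.mf]
    | Psi => simp [nPsi] at hl

theorem n1_pval_le (hctx : Ctx h a f σ x) (hf : n1 f ≤ 1) (l : List Slot) :
    n1 (pval a f l) ≤ 1 := by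
  induction l with
  | nil =>
    have h1 : pval a f [] = 1 := by simp [pval]
    rw [h1, n1_one]
  | cons s l ih =>
    rw [peel_pval_cons]
    have hs : n1 (s.val a f) ≤ 1 := by
      cases s with
      | A =>
        have : n1 a = 1 := by rw [n1_of_nn hctx.nna, hctx.ma]
        simpa [Slot.val] using this.le
      | B =>
        have : n1 (a + f) = 1 := by rw [n1_of_nn hctx.nnb, mass_add, hctx.ma, hctx.mf, add_zero]
        simpa [Slot.val] using this.le
      | Psi => simpa [Slot.val] using hf
    refine (n1_mul_le _ _).trans ?_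
    exact mul_le_one₀ hs (n1_nonneg _) ih

theorem peel_x_nonneg (hctx : Ctx h a f σ x) : 0 ≤ x := by
  have := hctx.hx
  have h2 : 0 ≤ 16 * (h : ℝ) ^ 2 * σ ^ 2 := by positivity
  linarith

theorem peel_nB_le (l : List Slot) : nB l ≤ l.length := by
  induction l with
  | nil => simp [nB]
  | cons s l ih => cases s <;> simp [nB] <;> omega

theorem peel_Clus (l : List Slot) (d : ℕ) : Clus (2 * d + l.length) l.length l := by
  intro i hi _
  rw [Nat.mod_eq_of_lt (by omega)]
  exact hi

/-- the padded list -/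
def peel_pad (l : List Slot) (p s : ℕ) (D : ℤ) : List Slot :=
  List.replicate ((p : ℤ) - D).toNat Slot.A ++ l ++ List.replicate ((s : ℤ) + D).toNat Slot.A

theorem peel_pad_length (l : List Slot) (p s d : ℕ) (D : ℤ) (hD : |D| ≤ d) (hp : d ≤ p)
    (hs : d ≤ s) : (peel_pad l p s D).length = p + s + l.length := by
  rw [abs_le] at hD
  unfold peel_pad
  simp only [List.length_append, List.length_replicate]
  omega

theorem peel_pad_pval (a f : Alg) (l : List Slot) (p s : ℕ) (D : ℤ) :
    pval a f (peel_pad l p s D) =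
      a ^ ((p : ℤ) - D).toNat * pval a f l * a ^ ((s : ℤ) + D).toNat := by
  unfold peel_pad
  rw [pval_append, pval_append, pval_replicate_A, pval_replicate_A]

theorem peel_pad_alp (l : List Slot) (p s : ℕ) (D : ℤ) (hl : nPsi l = 0) :
    alp (peel_pad l p s D) = 1 := by
  unfold peel_pad
  rw [alp_eq, pg_nPsi_pad, if_pos hl]

theorem peel_rep_alp (n : ℕ) : alp (List.replicate n Slot.A) = 1 := by
  rw [alp_eq, pg_nPsi_replicate, if_pos rfl]

theorem peel_Fam_n1 (hctx : Ctx h a f σ x) (hT : n1 T ≤ 1) (p s : ℕ) (D : ℤ) :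
    n1 (Fam a T p s D) ≤ 1 := by
  unfold Fam
  refine (n1_mul_right_le (nn_pow hctx.nna _) (by rw [mass_pow, hctx.ma, one_pow]) _).trans ?_
  exact (n1_mul_left_le (nn_pow hctx.nna _) (by rw [mass_pow, hctx.ma, one_pow]) _).trans hT

theorem peel_far (hctx : Ctx h a f σ x) (hc : c = 0 ∨ c = 1) (hT : n1 T ≤ 1) (p s : ℕ) (D : ℤ)
    (n : ℕ) : n1 (Fam a T p s D - c • a ^ n) ≤ 2 := by
  refine (n1_sub_le _ _).trans ?_
  have h1 := peel_Fam_n1 hctx hT p s D
  have h2 : n1 (c • a ^ n) ≤ 1 := by
    rw [n1_smul, n1_pow_nn hctx.nna hctx.ma, mul_one]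
    rcases hc with rfl | rfl <;> simp
  linarith

theorem peel_bump_one_le {y : ℝ} (hy : 0 ≤ y) (P : ℕ) (D : ℤ) : 1 ≤ bump y P D := by
  unfold bump
  split_ifs <;> linarith

/-- PEEL STEP. For `|D| ≤ d`:
`a^(p-D) w a^W T a^W w a^(s+D) = [a^(p-D) w a^(d+D)] (Fam a T (W-d) (W-d) D) [a^(d-D) w a^(s+D)]`,
and the two outer brackets are slot lists of `D`-independent lengths `p+P+d`, `d+P+s`
(`GB_lists_left/right`; for `|D| > d` take all-`A` lists), whose Gram factors are at most
`(1+x)^(P 1_{|D-D'|<P})` each. Then `GB_replace` for `|D| > d` with `c q`, error `≤ 2`. -/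
theorem peel (hctx : Ctx h a f σ x) (hc : c = 0 ∨ c = 1) (wl : List Slot) (P W : ℕ)
    (hw : wl.length = P) (hwP : nPsi wl = 0) (hT : n1 T ≤ 1) (hW : p0 + d ≤ W)
    (hyp : Hyp h c a T N p0 b e) (hdp : d ≤ p0) :
    Hyp h c a (pval a f wl * a ^ W * T * a ^ W * pval a f wl) (N + 2 * W + 2 * P) (d + 1)
      (fun D => bump ((1 + x) ^ (2 * P) - 1) P D * b D)
      (fun D => if |D| ≤ (d : ℤ) then e D else 2) := by
  classical
  intro p s hp hs
  obtain ⟨Y0, hG, hE⟩ := hyp (W - d) (W - d) (by omega) (by omega)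
  have hx0 := peel_x_nonneg hctx
  have hc0 : 0 ≤ c := by rcases hc with rfl | rfl <;> norm_num
  obtain ⟨hwn, hwm⟩ := nn_pval hctx wl hwP
  have hTw : n1 (pval a f wl * a ^ W * T * a ^ W * pval a f wl) ≤ 1 := by
    have haW : nn (a ^ W) := nn_pow hctx.nna W
    have hmW : mass (a ^ W) ≤ 1 := by rw [mass_pow, hctx.ma, one_pow]
    refine (n1_mul_right_le hwn hwm.le _).trans ?_
    refine (n1_mul_right_le haW hmW _).trans ?_
    rw [mul_assoc]
    refine (n1_mul_left_le hwn hwm.le _).trans ?_
    exact (n1_mul_left_le haW hmW _).trans hT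
  -- the lists
  let lL : ℤ → List Slot := fun D =>
    if |D| ≤ (d : ℤ) then peel_pad wl p d D else List.replicate (p + d + P) Slot.A
  let lR : ℤ → List Slot := fun D =>
    if |D| ≤ (d : ℤ) then peel_pad wl d s D else List.replicate (d + s + P) Slot.A
  have hlL : ∀ D, (lL D).length = p + d + P := by
    intro D
    by_cases hD : |D| ≤ (d : ℤ)
    · simp only [lL, if_pos hD]
      rw [peel_pad_length wl p d d D hD (by omega) le_rfl, hw]
    · simp only [lL, if_neg hD, List.length_replicate]
  have hlR : ∀ D, (lR D).length = d + s + P := by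
    intro D
    by_cases hD : |D| ≤ (d : ℤ)
    · simp only [lR, if_pos hD]
      rw [peel_pad_length wl d s d D hD le_rfl (by omega), hw]
    · simp only [lR, if_neg hD, List.length_replicate]
  have haL : ∀ D, alp (lL D) = 1 := by
    intro D
    by_cases hD : |D| ≤ (d : ℤ)
    · simp only [lL, if_pos hD]
      exact peel_pad_alp _ _ _ _ hwP
    · simp only [lL, if_neg hD]
      exact peel_rep_alp _
  have haR : ∀ D, alp (lR D) = 1 := by
    intro D
    by_cases hD : |D| ≤ (d : ℤ)
    · simp only [lR, if_pos hD]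
      exact peel_pad_alp _ _ _ _ hwP
    · simp only [lR, if_neg hD]
      exact peel_rep_alp _
  have g1 := GB_lists_left hctx hG (p + d + P) lL hlL
  have g2 := GB_lists_right hctx g1 (d + s + P) lR hlR
  have hcfun : (fun i : ℤ => alp (lR i) * (alp (lL i) * c)) = fun _ => c := by
    funext D
    rw [haL, haR, one_mul, one_mul]
  rw [hcfun] at g2
  have hq : a ^ (p + d + P) * a ^ (W - d + (W - d) + N) * a ^ (d + s + P) =
      a ^ (p + s + (N + 2 * W + 2 * P)) := by
    rw [← pow_add, ← pow_add]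
    congr 1
    omega
  rw [hq] at g2
  have hb : ∀ D D' : ℤ, c * c ≤ b (D - D') := fun D D' => hG.2.2.1 D D'
  have hy0 : ∀ m : ℕ, 0 ≤ (1 + x) ^ m - 1 := by
    intro m
    have : (1 : ℝ) ≤ (1 + x) ^ m := one_le_pow₀ (by linarith)
    linarith
  have g3 := GB_replace (fun D : ℤ => |D| ≤ (d : ℤ)) g2
    (B₁ := fun D D' => bump ((1 + x) ^ (2 * P) - 1) P (D - D') * b (D - D')) (by
      intro D D' hD hD'
      have hb0 : 0 ≤ b (D - D') := le_trans (mul_nonneg hc0 hc0) (hb D D')
      have k1 : gram x (lL D) (lL D') ≤ bump ((1 + x) ^ P - 1) P (D - D') := by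
        simp only [lL, if_pos hD, if_pos hD']
        have hcl := peel_Clus wl d
        rw [hw] at hcl
        exact gram_shift_le hx0 wl p d P (2 * d + P) P D D' hwP hcl le_rfl
          (by have := peel_nB_le wl; omega) hD hD' (by omega) le_rfl
      have k2 : gram x (lR D) (lR D') ≤ bump ((1 + x) ^ P - 1) P (D - D') := by
        simp only [lR, if_pos hD, if_pos hD']
        have hcl := peel_Clus wl d
        rw [hw] at hcl
        exact gram_shift_le hx0 wl d s P (2 * d + P) P D D' hwP hcl le_rfl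
          (by have := peel_nB_le wl; omega) hD hD' le_rfl (by omega)
      have k3 := pg_gram_nonneg hx0 (lL D) (lL D')
      have k4 := pg_gram_nonneg hx0 (lR D) (lR D')
      have k5 : bump ((1 + x) ^ P - 1) P (D - D') * bump ((1 + x) ^ P - 1) P (D - D') =
          bump ((1 + x) ^ (2 * P) - 1) P (D - D') := by
        unfold bump
        split_ifs
        · rw [two_mul, pow_add]; ring
        · ring
      rw [← mul_assoc]
      refine mul_le_mul_of_nonneg_right ?_ hb0
      rw [← k5]
      exact mul_le_mul k2 k1 k3 (k4.trans k2))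
    (by
      intro D D'
      have h1 := hb D D'
      have h2 := peel_bump_one_le (hy0 (2 * P)) P (D - D')
      have h3 : 0 ≤ c * c := mul_nonneg hc0 hc0
      nlinarith)
  refine ⟨_, g3, ?_⟩
  intro D
  by_cases hD : |D| ≤ (d : ℤ)
  · beta_reduce
    rw [if_pos hD, if_pos hD]
    have hD' := abs_le.1 hD
    have e1 : Fam a (pval a f wl * a ^ W * T * a ^ W * pval a f wl) p s D =
        pval a f (lL D) * Fam a T (W - d) (W - d) D * pval a f (lR D) := by
      simp only [lL, lR, if_pos hD]
      rw [peel_pad_pval, peel_pad_pval]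
      unfold Fam
      have e2 : a ^ ((d : ℤ) + D).toNat * a ^ (((W - d : ℕ) : ℤ) - D).toNat = a ^ W := by
        rw [← pow_add]; congr 1; omega
      have e3 : a ^ (((W - d : ℕ) : ℤ) + D).toNat * a ^ ((d : ℤ) - D).toNat = a ^ W := by
        rw [← pow_add]; congr 1; omega
      calc a ^ ((p : ℤ) - D).toNat * (pval a f wl * a ^ W * T * a ^ W * pval a f wl) *
            a ^ ((s : ℤ) + D).toNat
          = a ^ ((p : ℤ) - D).toNat * (pval a f wl *
            (a ^ ((d : ℤ) + D).toNat * a ^ (((W - d : ℕ) : ℤ) - D).toNat) * T *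
            (a ^ (((W - d : ℕ) : ℤ) + D).toNat * a ^ ((d : ℤ) - D).toNat) * pval a f wl) *
            a ^ ((s : ℤ) + D).toNat := by rw [e2, e3]
        _ = _ := by simp only [mul_assoc]
    have hlLn : nn (pval a f (lL D)) ∧ mass (pval a f (lL D)) = 1 := by
      apply nn_pval hctx
      simp only [lL, if_pos hD, peel_pad, pg_nPsi_pad]
      exact hwP
    have hlRn : nn (pval a f (lR D)) ∧ mass (pval a f (lR D)) = 1 := by
      apply nn_pval hctx
      simp only [lR, if_pos hD, peel_pad, pg_nPsi_pad]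
      exact hwP
    rw [e1, ← sub_mul, ← mul_sub]
    refine (n1_mul_right_le hlRn.1 hlRn.2.le _).trans ?_
    exact (n1_mul_left_le hlLn.1 hlLn.2.le _).trans (hE D)
  · beta_reduce
    rw [if_neg hD, if_neg hD]
    exact peel_far hctx hc hTw p s D _

theorem core_one (hctx : Ctx h a f σ x) (l : List Slot) (P M n : ℕ) (hl : nPsi l = 0)
    (hM : Clus M P l) (hd : 2 * d + P ≤ M) (hB : nB l ≤ n) :
    Hyp h 1 a (pval a f l) l.length (d + 1) (bump ((1 + x) ^ n - 1) P)
      (fun D => if |D| ≤ (d : ℤ) then 0 else 2) := by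
  classical
  intro p s hp hs
  have hx0 := peel_x_nonneg hctx
  let lL : ℤ → List Slot := fun D =>
    if |D| ≤ (d : ℤ) then peel_pad l p s D else List.replicate (p + s + l.length) Slot.A
  have hlL : ∀ D, (lL D).length = p + s + l.length := by
    intro D
    by_cases hD : |D| ≤ (d : ℤ)
    · simp only [lL, if_pos hD]
      exact peel_pad_length l p s d D hD (by omega) (by omega)
    · simp only [lL, if_neg hD, List.length_replicate]
  have haL : ∀ D, alp (lL D) = 1 := by
    intro D
    by_cases hD : |D| ≤ (d : ℤ)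
    · simp only [lL, if_pos hD]
      exact peel_pad_alp _ _ _ _ hl
    · simp only [lL, if_neg hD]
      exact peel_rep_alp _
  have g1 := GB_lists_left hctx (GB_one (ι := ℤ) hctx.hh) (p + s + l.length) lL hlL
  have hcfun : (fun i : ℤ => alp (lL i) * (1 : ℝ)) = fun _ => 1 := by
    funext D
    rw [haL, one_mul]
  rw [hcfun] at g1
  have hYfun : (fun i : ℤ => pval a f (lL i) * 1) = fun i => pval a f (lL i) := by
    funext D
    rw [mul_one]
  rw [hYfun, mul_one] at g1
  have hy0 : 0 ≤ (1 + x) ^ n - 1 := by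
    have : (1 : ℝ) ≤ (1 + x) ^ n := one_le_pow₀ (by linarith)
    linarith
  have g3 := GB_replace (fun D : ℤ => |D| ≤ (d : ℤ)) g1
    (B₁ := fun D D' => bump ((1 + x) ^ n - 1) P (D - D')) (by
      intro D D' hD hD'
      rw [mul_one]
      simp only [lL, if_pos hD, if_pos hD']
      exact gram_shift_le hx0 l p s P M n D D' hl hM hd hB hD hD' (by omega) (by omega))
    (by
      intro D D'
      rw [one_mul]
      exact peel_bump_one_le hy0 P (D - D'))
  refine ⟨_, g3, ?_⟩
  intro D
  by_cases hD : |D| ≤ (d : ℤ)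
  · beta_reduce
    rw [if_pos hD, if_pos hD]
    simp only [lL, if_pos hD]
    rw [peel_pad_pval]
    unfold Fam
    rw [sub_self, n1_zero]
  · beta_reduce
    rw [if_neg hD, if_neg hD]
    exact peel_far hctx (Or.inr rfl) (by
      obtain ⟨h1, h2⟩ := nn_pval hctx l hl
      rw [n1_of_nn h1, h2]) p s D _

theorem core_zero (hctx : Ctx h a f σ x) (hx1 : x ≤ 1) (hf : n1 f ≤ 1) (l : List Slot)
    (P M n k : ℕ) (hk1 : 1 ≤ k) (hl : k ≤ nPsi l)
    (hM : Clus M P l) (hd : 2 * d + P ≤ M) (hB : nB l ≤ n) :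
    Hyp h 0 a (pval a f l) l.length (d + 1)
      (fun D => if |D| < (P : ℤ) then x ^ k * (1 + x) ^ n else 0)
      (fun D => if |D| ≤ (d : ℤ) then 0 else 2) := by
  classical
  intro p s hp hs
  have hx0 := peel_x_nonneg hctx
  have hlen : 1 ≤ l.length := by
    by_contra hcon
    have h0 : l = [] := by
      cases l with
      | nil => rfl
      | cons s l => simp at hcon
    rw [h0] at hl
    simp [nPsi] at hl
    omega
  let lL : ℤ → List Slot := fun D =>
    if |D| ≤ (d : ℤ) then peel_pad l p s D else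
      List.replicate (p + s + (l.length - 1)) Slot.A ++ [Slot.Psi]
  have hlL : ∀ D, (lL D).length = p + s + l.length := by
    intro D
    by_cases hD : |D| ≤ (d : ℤ)
    · simp only [lL, if_pos hD]
      exact peel_pad_length l p s d D hD (by omega) (by omega)
    · simp only [lL, if_neg hD, List.length_append, List.length_replicate, List.length_singleton]
      omega
  have haL : ∀ D, alp (lL D) = 0 := by
    intro D
    by_cases hD : |D| ≤ (d : ℤ)
    · simp only [lL, if_pos hD, peel_pad]
      rw [alp_eq, pg_nPsi_pad, if_neg (by omega)]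
    · simp only [lL, if_neg hD]
      rw [alp_eq, pg_nPsi_append, pg_nPsi_replicate]
      simp [nPsi]
  have g1 := GB_lists_left hctx (GB_one (ι := ℤ) hctx.hh) (p + s + l.length) lL hlL
  have hcfun : (fun i : ℤ => alp (lL i) * (1 : ℝ)) = fun _ => 0 := by
    funext D
    rw [haL, zero_mul]
  rw [hcfun] at g1
  have hYfun : (fun i : ℤ => pval a f (lL i) * 1) = fun i => pval a f (lL i) := by
    funext D
    rw [mul_one]
  rw [hYfun, mul_one] at g1
  have hpos : 0 ≤ x ^ k * (1 + x) ^ n := by positivity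
  have g3 := GB_replace (fun D : ℤ => |D| ≤ (d : ℤ)) g1
    (B₁ := fun D D' => if |D - D'| < (P : ℤ) then x ^ k * (1 + x) ^ n else 0) (by
      intro D D' hD hD'
      rw [mul_one]
      simp only [lL, if_pos hD, if_pos hD']
      exact gram_shift_psi_le hx0 hx1 l p s P M n k D D' hk1 hl hM hd hB hD hD'
        (by omega) (by omega))
    (by
      intro D D'
      rw [mul_zero]
      split_ifs
      · exact hpos
      · exact le_rfl)
  refine ⟨_, g3, ?_⟩
  intro D
  by_cases hD : |D| ≤ (d : ℤ)
  · beta_reduce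
    rw [if_pos hD, if_pos hD]
    simp only [lL, if_pos hD]
    rw [peel_pad_pval]
    unfold Fam
    rw [sub_self, n1_zero]
  · beta_reduce
    rw [if_neg hD, if_neg hD]
    exact peel_far hctx (Or.inl rfl) (n1_pval_le hctx hf l) p s D _

end Vale.Agent.P321
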