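import Vale.Agent.P321.Defs

namespace Vale.Agent.P321

open Finset

/-- Error recursion. -/
noncomputable def recE (δ : ℝ) (d : ℕ) : ℕ → ℤ → ℝ
  | 0 => fun D => if |D| ≤ (d : ℤ) then 0 else 2
  | n + 1 => fun D => if |D| ≤ (d : ℤ) then opQ (recE δ d n) D + 4 * δ else 2

theorem rec_cosh_le {τ : ℝ} (hτ : 0 ≤ τ) (d : ℕ) (D : ℤ) (hD : ¬ |D| ≤ (d : ℤ)) :
    Real.cosh (τ * d) ≤ Real.cosh (τ * D) := by
  rw [Real.cosh_le_cosh]
  have h1 : (d : ℝ) ≤ |(D : ℝ)| := by
    have : (d : ℤ) ≤ |D| := by omega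
    have h2 : ((d : ℤ) : ℝ) ≤ ((|D| : ℤ) : ℝ) := by exact_mod_cast this
    rw [Int.cast_abs] at h2
    exact_mod_cast h2
  rw [abs_mul, abs_mul, abs_of_nonneg hτ, abs_of_nonneg (Nat.cast_nonneg d)]
  exact mul_le_mul_of_nonneg_left h1 hτ

/-- `recE n D ≤ 2 cosh(τ D) cosh(τ/2)^(2n) / cosh(τ d) + 4 n δ` for all `τ`, then `τ = 2d/n`,
`cosh u ≤ exp (u^2/2)`. -/
theorem recE_bound_aux (δ : ℝ) (hδ : 0 ≤ δ) (d : ℕ) {τ : ℝ} (hτ : 0 ≤ τ) (n : ℕ) (D : ℤ) :
    recE δ d n D ≤ 2 * (Real.cosh (τ * D) / Real.cosh (τ * d)) * ((1 + Real.cosh τ) / 2) ^ n +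
      4 * n * δ := by
  have hc : 0 < Real.cosh (τ * d) := Real.cosh_pos _
  have hK : 1 ≤ (1 + Real.cosh τ) / 2 := by linarith [Real.one_le_cosh τ]
  have hout : ∀ (n : ℕ) (D : ℤ), ¬ |D| ≤ (d : ℤ) →
      2 ≤ 2 * (Real.cosh (τ * D) / Real.cosh (τ * d)) * ((1 + Real.cosh τ) / 2) ^ n +
      4 * n * δ := by
    intro n D hD
    have h1 : 1 ≤ Real.cosh (τ * D) / Real.cosh (τ * d) := by
      rw [le_div_iff₀ hc, one_mul]
      exact rec_cosh_le hτ d D hD
    have h2 : 1 ≤ ((1 + Real.cosh τ) / 2) ^ n := one_le_pow₀ hK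
    have h3 : 0 ≤ 4 * (n : ℝ) * δ := by positivity
    nlinarith [mul_le_mul h1 h2 (by norm_num) (by linarith)]
  induction n generalizing D with
  | zero =>
    by_cases hD : |D| ≤ (d : ℤ)
    · have : recE δ d 0 D = 0 := if_pos hD
      rw [this]
      have := Real.cosh_pos (τ * D)
      positivity
    · have : recE δ d 0 D = 2 := if_neg hD
      rw [this]
      exact hout 0 D hD
  | succ n ih =>
    by_cases hD : |D| ≤ (d : ℤ)
    · have h1 : recE δ d (n + 1) D = opQ (recE δ d n) D + 4 * δ := if_pos hD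
      rw [h1]
      unfold opQ
      have e1 : Real.cosh (τ * ((D - 1 : ℤ) : ℝ)) + Real.cosh (τ * ((D + 1 : ℤ) : ℝ)) =
          2 * (Real.cosh (τ * D) * Real.cosh τ) := by
        push_cast
        rw [mul_sub, mul_add, mul_one, Real.cosh_sub, Real.cosh_add]
        ring
      have i1 := ih (D - 1)
      have i2 := ih D
      have i3 := ih (D + 1)
      set Q := ((1 + Real.cosh τ) / 2) ^ n with hQ
      have e2 : 2 * (Real.cosh (τ * D) / Real.cosh (τ * d)) * ((1 + Real.cosh τ) / 2) ^ (n + 1) =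
          2 * (Real.cosh (τ * ((D - 1 : ℤ) : ℝ)) / Real.cosh (τ * d)) * Q / 4 +
          2 * (Real.cosh (τ * D) / Real.cosh (τ * d)) * Q / 2 +
          2 * (Real.cosh (τ * ((D + 1 : ℤ) : ℝ)) / Real.cosh (τ * d)) * Q / 4 := by
        have e3 : 2 * (Real.cosh (τ * ((D - 1 : ℤ) : ℝ)) / Real.cosh (τ * d)) * Q / 4 +
          2 * (Real.cosh (τ * D) / Real.cosh (τ * d)) * Q / 2 +
          2 * (Real.cosh (τ * ((D + 1 : ℤ) : ℝ)) / Real.cosh (τ * d)) * Q / 4 =
          ((Real.cosh (τ * ((D - 1 : ℤ) : ℝ)) + Real.cosh (τ * ((D + 1 : ℤ) : ℝ))) / 2 +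
            Real.cosh (τ * D)) / Real.cosh (τ * d) * Q := by ring
        rw [e3, e1, pow_succ, ← hQ]
        ring
      have hcast : ((n + 1 : ℕ) : ℝ) = (n : ℝ) + 1 := by
        push_cast
        ring
      rw [e2, hcast]
      linarith
    · have : recE δ d (n + 1) D = 2 := if_neg hD
      rw [this]
      exact hout (n + 1) D hD

theorem recE_bound (δ : ℝ) (hδ : 0 ≤ δ) (d n : ℕ) (hn : 1 ≤ n) :
    recE δ d n 0 ≤ 4 * Real.exp (-((d : ℝ) ^ 2 / n)) + 4 * n * δ := by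
  have hn0 : (0 : ℝ) < n := by exact_mod_cast hn
  have h := recE_bound_aux δ hδ d (τ := 2 * d / n) (by positivity) n 0
  refine h.trans (add_le_add ?_ le_rfl)
  rw [Int.cast_zero, mul_zero, Real.cosh_zero]
  set τ : ℝ := 2 * d / n with hτ
  have h1 : (1 + Real.cosh τ) / 2 = Real.cosh (τ / 2) ^ 2 := by
    have := Real.cosh_two_mul (τ / 2)
    rw [show 2 * (τ / 2) = τ from by ring] at this
    have h2 := Real.cosh_sq (τ / 2)
    linarith
  have h2 : (1 + Real.cosh τ) / 2 ≤ Real.exp (τ ^ 2 / 4) := by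
    rw [h1]
    have h3 := Real.cosh_le_exp_half_sq (τ / 2)
    calc Real.cosh (τ / 2) ^ 2 ≤ (Real.exp ((τ / 2) ^ 2 / 2)) ^ 2 :=
          pow_le_pow_left₀ (Real.cosh_pos _).le h3 2
      _ = Real.exp (τ ^ 2 / 4) := by
          rw [← Real.exp_nat_mul]
          congr 1
          push_cast
          ring
  have h3 : ((1 + Real.cosh τ) / 2) ^ n ≤ Real.exp (n * (τ ^ 2 / 4)) := by
    rw [Real.exp_nat_mul]
    exact pow_le_pow_left₀ (by linarith [Real.one_le_cosh τ]) h2 n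
  have h4 : 1 / Real.cosh (τ * d) ≤ 2 * Real.exp (-(τ * d)) := by
    have h5 : Real.exp (τ * d) / 2 ≤ Real.cosh (τ * d) := by
      rw [Real.cosh_eq]
      linarith [Real.exp_pos (-(τ * d))]
    rw [div_le_iff₀ (Real.cosh_pos _)]
    have h6 : Real.exp (-(τ * d)) * Real.exp (τ * d) = 1 := by
      rw [← Real.exp_add]
      simp
    nlinarith [Real.exp_pos (-(τ * d)), mul_le_mul_of_nonneg_left h5 (Real.exp_pos (-(τ * d))).le]
  calc 2 * (1 / Real.cosh (τ * d)) * ((1 + Real.cosh τ) / 2) ^ n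
      ≤ 2 * (2 * Real.exp (-(τ * d))) * Real.exp (n * (τ ^ 2 / 4)) := by
        refine mul_le_mul (by linarith) h3 (by
          have := Real.one_le_cosh τ
          positivity) (by positivity)
    _ = 4 * (Real.exp (-(τ * d)) * Real.exp (n * (τ ^ 2 / 4))) := by ring
    _ = 4 * Real.exp (-((d : ℝ) ^ 2 / n)) := by
        rw [← Real.exp_add]
        congr 2
        rw [hτ]
        field_simp
        ring

theorem recE_nonneg (δ : ℝ) (hδ : 0 ≤ δ) (d n : ℕ) (D : ℤ) : 0 ≤ recE δ d n D := by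
  induction n generalizing D with
  | zero =>
    show (0 : ℝ) ≤ if |D| ≤ (d : ℤ) then 0 else 2
    split_ifs <;> norm_num
  | succ n ih =>
    show (0 : ℝ) ≤ if |D| ≤ (d : ℤ) then opQ (recE δ d n) D + 4 * δ else 2
    split_ifs
    · unfold opQ
      linarith [ih (D - 1), ih D, ih (D + 1)]
    · norm_num

theorem recE_outside (δ : ℝ) (d n : ℕ) (D : ℤ) (hD : (d : ℤ) < |D|) : recE δ d n D = 2 := by
  cases n with
  | zero => exact if_neg (not_le.2 hD)
  | succ n => exact if_neg (not_le.2 hD)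

/-- The operator on errors of `pair_both` (`s = lam^2/2`). -/
noncomputable def opE (s : ℝ) (e : ℤ → ℝ) : ℤ → ℝ :=
  fun D => ((1 - s) ^ 2 + s ^ 2) * e D + s * (1 - s) * (e (D + 1) + e (D - 1))

/-- Error recursion, many coins per zone. -/
noncomputable def recF (s : ℝ) (J d : ℕ) : ℕ → ℤ → ℝ
  | 0 => fun D => if |D| ≤ (d : ℤ) then 0 else 2
  | n + 1 => fun D => if |D| ≤ (d : ℤ) then ((opE s)^[J] (recF s J d n)) D else 2

theorem rec_opE_mono {s : ℝ} (h0 : 0 < s) (h1 : s ≤ 1 / 2) {e e' : ℤ → ℝ}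
    (he : ∀ D, e D ≤ e' D) (D : ℤ) : opE s e D ≤ opE s e' D := by
  unfold opE
  have hs : 0 ≤ s * (1 - s) := mul_nonneg h0.le (by linarith)
  have h2 : 0 ≤ (1 - s) ^ 2 + s ^ 2 := by positivity
  exact add_le_add (mul_le_mul_of_nonneg_left (he D) h2)
    (mul_le_mul_of_nonneg_left (add_le_add (he _) (he _)) hs)

theorem rec_opE_iter_mono {s : ℝ} (h0 : 0 < s) (h1 : s ≤ 1 / 2) {e e' : ℤ → ℝ}
    (he : ∀ D, e D ≤ e' D) (n : ℕ) (D : ℤ) : ((opE s)^[n] e) D ≤ ((opE s)^[n] e') D := by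
  induction n generalizing e e' with
  | zero => simpa using he D
  | succ n ih =>
    rw [Function.iterate_succ_apply, Function.iterate_succ_apply]
    exact ih (fun D => rec_opE_mono h0 h1 he D)

theorem rec_opE_cosh (s τ c : ℝ) (n : ℕ) :
    (opE s)^[n] (fun D : ℤ => c * Real.cosh (τ * D)) =
      fun D : ℤ => c * (1 + 2 * s * (1 - s) * (Real.cosh τ - 1)) ^ n * Real.cosh (τ * D) := by
  induction n generalizing c with
  | zero => simp
  | succ n ih =>
    rw [Function.iterate_succ_apply]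
    have h1 : opE s (fun D : ℤ => c * Real.cosh (τ * D)) = fun D : ℤ =>
        (c * (1 + 2 * s * (1 - s) * (Real.cosh τ - 1))) * Real.cosh (τ * D) := by
      funext D
      unfold opE
      push_cast
      have e1 : Real.cosh (τ * ((D : ℝ) + 1)) = Real.cosh (τ * D) * Real.cosh τ +
          Real.sinh (τ * D) * Real.sinh τ := by
        rw [mul_add, mul_one, Real.cosh_add]
      have e2 : Real.cosh (τ * ((D : ℝ) - 1)) = Real.cosh (τ * D) * Real.cosh τ -
          Real.sinh (τ * D) * Real.sinh τ := by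
        rw [mul_sub, mul_one, Real.cosh_sub]
      rw [e1, e2]
      ring
    rw [h1, ih]
    funext D
    ring

theorem rec_opE_iter_zero (s : ℝ) (n : ℕ) : (opE s)^[n] (fun _ => 0) = fun _ => 0 := by
  induction n with
  | zero => rfl
  | succ n ih =>
    rw [Function.iterate_succ_apply]
    have : opE s (fun _ => 0) = fun _ => 0 := by
      funext D
      unfold opE
      ring
    rw [this, ih]

theorem recF_nonneg (s : ℝ) (h0 : 0 < s) (h1 : s ≤ 1 / 2) (J d n : ℕ) (D : ℤ) :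
    0 ≤ recF s J d n D := by
  induction n generalizing D with
  | zero =>
    show (0 : ℝ) ≤ if |D| ≤ (d : ℤ) then 0 else 2
    split_ifs <;> norm_num
  | succ n ih =>
    show (0 : ℝ) ≤ if |D| ≤ (d : ℤ) then ((opE s)^[J] (recF s J d n)) D else 2
    split_ifs
    · have h := rec_opE_iter_mono h0 h1 ih J D
      rwa [rec_opE_iter_zero] at h
    · norm_num

theorem recF_outside (s : ℝ) (J d n : ℕ) (D : ℤ) (hD : (d : ℤ) < |D|) : recF s J d n D = 2 := by
  cases n with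
  | zero => exact if_neg (not_le.2 hD)
  | succ n => exact if_neg (not_le.2 hD)

theorem recF_bound_aux (s : ℝ) (h0 : 0 < s) (h1 : s ≤ 1 / 2) (J d : ℕ) {τ : ℝ} (hτ : 0 ≤ τ)
    (n : ℕ) (D : ℤ) :
    recF s J d n D ≤ 2 / Real.cosh (τ * d) *
      (1 + 2 * s * (1 - s) * (Real.cosh τ - 1)) ^ (J * n) * Real.cosh (τ * D) := by
  have hc : 0 < Real.cosh (τ * d) := Real.cosh_pos _
  have hs : 0 ≤ s * (1 - s) := mul_nonneg h0.le (by linarith)
  have hK : 1 ≤ 1 + 2 * s * (1 - s) * (Real.cosh τ - 1) := by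
    have := Real.one_le_cosh τ
    nlinarith [mul_nonneg hs (sub_nonneg.2 this)]
  have hout : ∀ (m : ℕ) (D : ℤ), ¬ |D| ≤ (d : ℤ) →
      2 ≤ 2 / Real.cosh (τ * d) *
      (1 + 2 * s * (1 - s) * (Real.cosh τ - 1)) ^ m * Real.cosh (τ * D) := by
    intro m D hD
    have h2 : 1 ≤ (1 + 2 * s * (1 - s) * (Real.cosh τ - 1)) ^ m := one_le_pow₀ hK
    have h3 := rec_cosh_le hτ d D hD
    have h4 : 2 = 2 / Real.cosh (τ * d) * 1 * Real.cosh (τ * d) := by
      field_simp
    calc (2 : ℝ) = 2 / Real.cosh (τ * d) * 1 * Real.cosh (τ * d) := h4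
      _ ≤ _ := by
        refine mul_le_mul (mul_le_mul_of_nonneg_left h2 (by positivity)) h3 hc.le (by positivity)
  induction n generalizing D with
  | zero =>
    by_cases hD : |D| ≤ (d : ℤ)
    · have : recF s J d 0 D = 0 := if_pos hD
      rw [this]
      have := Real.cosh_pos (τ * D)
      positivity
    · have : recF s J d 0 D = 2 := if_neg hD
      rw [this]
      exact hout _ D hD
  | succ n ih =>
    by_cases hD : |D| ≤ (d : ℤ)
    · have h2 : recF s J d (n + 1) D = ((opE s)^[J] (recF s J d n)) D := if_pos hD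
      rw [h2]
      refine (rec_opE_iter_mono h0 h1 ih J D).trans (le_of_eq ?_)
      rw [rec_opE_cosh]
      simp only
      rw [mul_assoc (2 / Real.cosh (τ * d)), ← pow_add,
        show J * n + J = J * (n + 1) from by ring]
    · have : recF s J d (n + 1) D = 2 := if_neg hD
      rw [this]
      exact hout _ D hD

theorem rec_cosh_sub_one {τ : ℝ} (h0 : 0 ≤ τ) (h1 : τ ≤ 1) : Real.cosh τ - 1 ≤ τ ^ 2 := by
  have h2 := Real.cosh_le_exp_half_sq τ
  have h3 : Real.exp (τ ^ 2 / 2) ≤ 1 + τ ^ 2 := by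
    have h4 : |τ ^ 2 / 2| ≤ 1 := by
      rw [abs_of_nonneg (by positivity)]
      nlinarith
    have h5 := Real.abs_exp_sub_one_sub_id_le h4
    have h6 := (abs_le.1 h5).2
    nlinarith [sq_nonneg τ, mul_nonneg h0 h0, mul_le_mul h1 h1 h0 (by norm_num : (0:ℝ) ≤ 1)]
  linarith

/-- Potential `cosh (τ D)`; one `opE` costs a factor `1 + 2 s (1-s) (cosh τ - 1) ≤ exp (2 s τ^2)`
for `τ ≤ 1`; choose `τ = d / (4 s J (n+1))`. -/
theorem recF_bound (s : ℝ) (h0 : 0 < s) (h1 : s ≤ 1 / 2) (J d n : ℕ) (hJ : 1 ≤ J)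
    (hd : (d : ℝ) ≤ 4 * s * J * (n + 1)) :
    ((opE s)^[J] (recF s J d n)) 0 ≤
      4 * Real.exp (-((d : ℝ) ^ 2 / (8 * s * J * (n + 1)))) := by
  have hJ0 : (0 : ℝ) < J := by exact_mod_cast hJ
  have hden : 0 < 4 * s * J * ((n : ℝ) + 1) := by positivity
  set τ : ℝ := d / (4 * s * J * (n + 1)) with hτdef
  have hτ : 0 ≤ τ := by positivity
  have hτ1 : τ ≤ 1 := (div_le_one hden).2 hd
  have h2 := rec_opE_iter_mono h0 h1 (fun D => recF_bound_aux s h0 h1 J d hτ n D) J 0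
  refine h2.trans ?_
  rw [rec_opE_cosh]
  simp only [Int.cast_zero, mul_zero, Real.cosh_zero, mul_one]
  rw [mul_assoc, ← pow_add, show J * n + J = J * (n + 1) from by ring]
  have hK : 1 + 2 * s * (1 - s) * (Real.cosh τ - 1) ≤ Real.exp (2 * s * τ ^ 2) := by
    have h3 := rec_cosh_sub_one hτ hτ1
    have h4 := Real.add_one_le_exp (2 * s * τ ^ 2)
    have h5 := Real.one_le_cosh τ
    have h6 : 2 * s * (1 - s) * (Real.cosh τ - 1) ≤ 2 * s * τ ^ 2 := by
      have h7 : 2 * s * (1 - s) * (Real.cosh τ - 1) ≤ 2 * s * 1 * (Real.cosh τ - 1) := by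
        refine mul_le_mul_of_nonneg_right (mul_le_mul_of_nonneg_left (by linarith) (by linarith))
          (by linarith)
      nlinarith
    linarith
  have hK0 : 0 ≤ 1 + 2 * s * (1 - s) * (Real.cosh τ - 1) := by
    have := Real.one_le_cosh τ
    have hs : 0 ≤ s * (1 - s) := mul_nonneg h0.le (by linarith)
    nlinarith [mul_nonneg hs (sub_nonneg.2 this)]
  have h3 : (1 + 2 * s * (1 - s) * (Real.cosh τ - 1)) ^ (J * (n + 1)) ≤
      Real.exp ((J * (n + 1) : ℕ) * (2 * s * τ ^ 2)) := by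
    rw [Real.exp_nat_mul]
    exact pow_le_pow_left₀ hK0 hK _
  have h4 : 2 / Real.cosh (τ * d) ≤ 4 * Real.exp (-(τ * d)) := by
    have h5 : Real.exp (τ * d) / 2 ≤ Real.cosh (τ * d) := by
      rw [Real.cosh_eq]
      linarith [Real.exp_pos (-(τ * d))]
    rw [div_le_iff₀ (Real.cosh_pos _)]
    have h6 : Real.exp (-(τ * d)) * Real.exp (τ * d) = 1 := by
      rw [← Real.exp_add]
      simp
    nlinarith [Real.exp_pos (-(τ * d)), mul_le_mul_of_nonneg_left h5 (Real.exp_pos (-(τ * d))).le]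
  refine (mul_le_mul h4 h3 (pow_nonneg hK0 _) (by positivity)).trans (le_of_eq ?_)
  rw [mul_assoc, ← Real.exp_add]
  congr 2
  rw [hτdef]
  push_cast
  field_simp
  ring

end Vale.Agent.P321
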