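import Vale.Agent.P321.RecurA
import Vale.Agent.P321.RecurB

/-! The recursions `recB`, `recR` (file `RecurA`) and `recE`, `recF` (file `RecurB`). -/
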