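import Vale.Agent.P321.Zone
import Vale.Agent.P321.Peel
import Vale.Agent.P321.Recur

namespace Vale.Agent.P321

open Finset

/-- The `A`-word blocks assemble to a tower. -/
theorem tower_eq (a w c : Alg) (G g : ℕ) :
    (a ^ G * w * a ^ G) ^ g * (a ^ G * c * a ^ G) * (a ^ G * w * a ^ G) ^ g =
      a ^ G * tower a w (2 * G) c g * a ^ G := by
  induction g with
  | zero => simp [tower]
  | succ g ih =>
    have h1 : (a ^ G * w * a ^ G) ^ (g + 1) * (a ^ G * c * a ^ G) * (a ^ G * w * a ^ G) ^ (g + 1)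
        = (a ^ G * w * a ^ G) *
          ((a ^ G * w * a ^ G) ^ g * (a ^ G * c * a ^ G) * (a ^ G * w * a ^ G) ^ g) *
          (a ^ G * w * a ^ G) := by
      conv_lhs => rw [pow_succ' (a ^ G * w * a ^ G) g]
      conv_lhs =>
        rw [show (a ^ G * w * a ^ G) * (a ^ G * w * a ^ G) ^ g =
          (a ^ G * w * a ^ G) ^ g * (a ^ G * w * a ^ G) from
          (pow_succ' _ _).symm.trans (pow_succ _ _)]
      rw [show (a ^ G * w * a ^ G) ^ g * (a ^ G * w * a ^ G) =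
          (a ^ G * w * a ^ G) * (a ^ G * w * a ^ G) ^ g from
          (pow_succ _ _).symm.trans (pow_succ' _ _)]
      have h2 : (a ^ G * w * a ^ G) * (a ^ G * w * a ^ G) ^ g =
          (a ^ G * w * a ^ G) ^ g * (a ^ G * w * a ^ G) :=
        (pow_succ' _ _).symm.trans (pow_succ _ _)
      calc (a ^ G * w * a ^ G) * (a ^ G * w * a ^ G) ^ g * (a ^ G * c * a ^ G) *
            ((a ^ G * w * a ^ G) * (a ^ G * w * a ^ G) ^ g)
          = (a ^ G * w * a ^ G) * (a ^ G * w * a ^ G) ^ g * (a ^ G * c * a ^ G) *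
            ((a ^ G * w * a ^ G) ^ g * (a ^ G * w * a ^ G)) := by rw [h2]
        _ = _ := by simp only [mul_assoc]
    rw [h1, ih]
    simp only [tower]
    rw [two_mul, pow_add]
    simp only [mul_assoc]

theorem n1_tower_le {a w T : Alg} (W : ℕ) (ha : nn a) (hm : mass a = 1) (hw : nn w)
    (hmw : mass w = 1) (hT : n1 T ≤ 1) (n : ℕ) : n1 (tower a w W T n) ≤ 1 := by
  induction n with
  | zero => simpa [tower] using hT
  | succ n ih =>
    simp only [tower]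
    have haW : nn (a ^ W) := nn_pow ha W
    have hmW : mass (a ^ W) ≤ 1 := by rw [mass_pow, hm, one_pow]
    refine (n1_mul_right_le hw hmw.le _).trans ?_
    refine (n1_mul_right_le haW hmW _).trans ?_
    rw [mul_assoc]
    refine (n1_mul_left_le hw hmw.le _).trans ?_
    exact (n1_mul_left_le haW hmW _).trans ih

theorem win_x_nonneg {h : ℕ} {a f : Alg} {σ x : ℝ} (hctx : Ctx h a f σ x) : 0 ≤ x := by
  have := hctx.hx
  have h2 : 0 ≤ 16 * (h : ℝ) ^ 2 * σ ^ 2 := by positivity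
  linarith

theorem win_Hyp_cast {h : ℕ} {c : ℝ} {a T : Alg} {N N' p0 : ℕ} {b e : ℤ → ℝ} (hN : N = N')
    (hyp : Hyp h c a T N p0 b e) : Hyp h c a T N' p0 b e := by
  rw [← hN]; exact hyp

/-- The induction behind the window theorem. -/
theorem win_ind {h : ℕ} {c : ℝ} {a f T : Alg} {σ x lam : ℝ} {K N d J W P : ℕ} {b0 : ℤ → ℝ}
    (hctx : Ctx h a f σ x) (hH : H1 a K lam) (h0 : 0 < lam) (h1 : lam ≤ 1)
    (hc : c = 0 ∨ c = 1) (wl : List Slot) (hw : wl.length = P) (hwP : nPsi wl = 0)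
    (hT : n1 T ≤ 1) (hcore : Hyp h c a T N (d + 1) b0 (fun D => if |D| ≤ (d : ℤ) then 0 else 2))
    (hJ : 1 ≤ J) (hW : 2 * d + 1 + 2 * J * (K + 1) ≤ W) (n : ℕ) :
    Hyp h c a (tower a (pval a f wl) W T n) (N + n * (2 * W + 2 * P)) (d + 1)
      (recB ((1 + x) ^ (2 * P) - 1) P b0 n) (recE ((1 - lam ^ 2) ^ J) d n) := by
  have hδ : 0 ≤ (1 - lam ^ 2) ^ J := by
    apply pow_nonneg
    nlinarith
  have hc0 : 0 ≤ c := by rcases hc with rfl | rfl <;> norm_num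
  have hc1 : c ≤ 1 := by rcases hc with rfl | rfl <;> norm_num
  obtain ⟨hwn, hwm⟩ := nn_pval hctx wl hwP
  induction n with
  | zero =>
    simp only [tower, recB, recE, zero_mul, add_zero]
    exact hcore
  | succ n ih =>
    have hTn := n1_tower_le W hctx.nna hctx.ma hwn hwm hT n
    have hz := zone_both (d := d) hctx.hh hctx.nna hctx.ma hH h0 h1 hc0 hc1 hTn hJ (le_refl (d + 1))
      (fun D hD => (recE_outside _ d n D hD).ge) (fun D => recE_nonneg _ hδ d n D) ih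
    have hp := peel (d := d) hctx hc wl P W hw hwP hTn (by omega) hz (by omega)
    simp only [tower, recB, recE]
    refine win_Hyp_cast ?_ hp
    ring

/-- WINDOW THEOREM (general `h`, one coin of each orientation per zone). -/
theorem window {h : ℕ} {c : ℝ} {a f T : Alg} {σ x lam : ℝ} {K N d J W P : ℕ} {b0 : ℤ → ℝ}
    (hctx : Ctx h a f σ x) (hH : H1 a K lam) (h0 : 0 < lam) (h1 : lam ≤ 1)
    (hc : c = 0 ∨ c = 1) (wl : List Slot) (hw : wl.length = P) (hwP : nPsi wl = 0)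
    (hT : n1 T ≤ 1) (hcore : Hyp h c a T N (d + 1) b0 (fun D => if |D| ≤ (d : ℤ) then 0 else 2))
    (hJ : 1 ≤ J) (hW : 2 * d + 1 + 2 * J * (K + 1) ≤ W) (n : ℕ) (hn : 1 ≤ n) (p s : ℕ)
    (hp : d + 1 ≤ p) (hs : d + 1 ≤ s) :
    ∃ Y : Alg,
      Bd h (Y - c • a ^ (p + s + (N + n * (2 * W + 2 * P))))
        (a ^ (p + s + (N + n * (2 * W + 2 * P))))
        ((recB ((1 + x) ^ (2 * P) - 1) P b0 n 0 - c ^ 2) ^ h) ∧
      n1 (a ^ p * tower a (pval a f wl) W T n * a ^ s - Y) ≤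
        4 * Real.exp (-((d : ℝ) ^ 2 / n)) + 4 * n * (1 - lam ^ 2) ^ J := by
  have hδ : 0 ≤ (1 - lam ^ 2) ^ J := by
    apply pow_nonneg
    nlinarith
  obtain ⟨Y, hY1, hY2⟩ := win_ind hctx hH h0 h1 hc wl hw hwP hT hcore hJ hW n p s hp hs
  refine ⟨Y 0, ?_, ?_⟩
  · have hB := GB_single hY1 (0 : ℤ)
    rw [mass_pow, hctx.ma, one_pow, one_mul] at hB
    simpa using hB
  · have h3 := (hY2 0).trans (recE_bound _ hδ d n hn)
    have h4 : Fam a (tower a (pval a f wl) W T n) p s 0 =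
        a ^ p * tower a (pval a f wl) W T n * a ^ s := by
      simp [Fam]
    rw [h4] at h3
    exact h3

/-- `opE` is an average. -/
theorem win_opE_nonneg {s : ℝ} (h0 : 0 ≤ s) (h1 : s ≤ 1) {e : ℤ → ℝ} (he : ∀ D, 0 ≤ e D) (D : ℤ) :
    0 ≤ opE s e D := by
  unfold opE
  have h2 := he D
  have h3 := he (D + 1)
  have h4 := he (D - 1)
  have h5 : 0 ≤ 1 - s := by linarith
  positivity

theorem win_opE_two {s : ℝ} (h0 : 0 ≤ s) (h1 : s ≤ 1) {e : ℤ → ℝ} {D : ℤ} (h2 : 2 ≤ e D)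
    (h3 : 2 ≤ e (D + 1)) (h4 : 2 ≤ e (D - 1)) : 2 ≤ opE s e D := by
  unfold opE
  have h5 : 0 ≤ s * (1 - s) := mul_nonneg h0 (by linarith)
  have h6 : 0 ≤ (1 - s) ^ 2 + s ^ 2 := by positivity
  nlinarith [mul_le_mul_of_nonneg_left h2 h6,
    mul_le_mul_of_nonneg_left (add_le_add h3 h4) h5]

/-- The induction over the pairs of one zone. -/
theorem win_pairs {a T : Alg} {lam : ℝ} {K N d p0 : ℕ} {b e : ℤ → ℝ}
    (ha : nn a) (hm : mass a = 1) (hH : H1 a K lam) (h0 : 0 < lam)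
    (h1 : lam ≤ 1) (hT : n1 T ≤ 1) (hd : d + 1 ≤ p0)
    (he : ∀ D : ℤ, (d : ℤ) < |D| → 2 ≤ e D) (he0 : ∀ D, 0 ≤ e D)
    (hyp : Hyp 1 1 a T N p0 b e) (j : ℕ) :
    Hyp 1 1 a T N (p0 + 2 * j * (K + 1)) ((opR (lam ^ 2))^[2 * j] b)
        ((opE (lam ^ 2 / 2))^[j] e) ∧
      (∀ D : ℤ, ((d + j : ℕ) : ℤ) < |D| → 2 ≤ ((opE (lam ^ 2 / 2))^[j] e) D) ∧
      ∀ D, 0 ≤ ((opE (lam ^ 2 / 2))^[j] e) D := by
  have hs0 : 0 ≤ lam ^ 2 / 2 := by positivity
  have hs1 : lam ^ 2 / 2 ≤ 1 := by nlinarith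
  induction j with
  | zero => simpa using ⟨hyp, he, he0⟩
  | succ j ih =>
    obtain ⟨i1, i2, i3⟩ := ih
    have hpair := pair_both (d := d + j) ha hm hH h0 h1 zero_le_one le_rfl hT (by nlinarith)
      i2 i3 i1
    refine ⟨?_, ?_, ?_⟩
    · rw [show 2 * (j + 1) = 2 * j + 1 + 1 by ring, Function.iterate_succ_apply',
        Function.iterate_succ_apply', Function.iterate_succ_apply']
      have e1 : p0 + (2 * j + 1 + 1) * (K + 1) = p0 + 2 * j * (K + 1) + 2 * (K + 1) := by ring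
      rw [e1]
      exact hpair
    · intro D hD
      rw [Function.iterate_succ_apply']
      have hD' : ((d + j : ℕ) : ℤ) + 1 < |D| := by
        push_cast at hD ⊢; linarith
      have a1 : |D| ≤ |D + 1| + 1 := by
        have := abs_sub_abs_le_abs_sub D (D + 1)
        have h2 : |D - (D + 1)| = 1 := by simp
        linarith
      have a2 : |D| ≤ |D - 1| + 1 := by
        have := abs_sub_abs_le_abs_sub D (D - 1)
        have h2 : |D - (D - 1)| = 1 := by simp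
        linarith
      exact win_opE_two hs0 hs1 (i2 D (by linarith)) (i2 _ (by linarith)) (i2 _ (by linarith))
    · intro D
      rw [Function.iterate_succ_apply']
      exact win_opE_nonneg hs0 hs1 i3 D

/-- The induction behind the window theorem with many coins. -/
theorem win_ind_many {a f : Alg} {σ x lam : ℝ} {K N d J W P : ℕ} {b0 : ℤ → ℝ} {T : Alg}
    (hctx : Ctx 1 a f σ x) (hH : H1 a K lam) (h0 : 0 < lam) (h1 : lam ≤ 1)
    (wl : List Slot) (hw : wl.length = P) (hwP : nPsi wl = 0)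
    (hT : n1 T ≤ 1) (hcore : Hyp 1 1 a T N (d + 1) b0 (fun D => if |D| ≤ (d : ℤ) then 0 else 2))
    (hW : 2 * d + 1 + 2 * J * (K + 1) ≤ W) (n : ℕ) :
    Hyp 1 1 a (tower a (pval a f wl) W T n) (N + n * (2 * W + 2 * P)) (d + 1)
      (recR (lam ^ 2) ((1 + x) ^ (2 * P) - 1) P J b0 n) (recF (lam ^ 2 / 2) J d n) := by
  have hs0 : 0 < lam ^ 2 / 2 := by positivity
  have hs1 : lam ^ 2 / 2 ≤ 1 / 2 := by nlinarith
  obtain ⟨hwn, hwm⟩ := nn_pval hctx wl hwP
  induction n with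
  | zero =>
    simp only [tower, recR, recF, zero_mul, add_zero]
    exact hcore
  | succ n ih =>
    have hTn := n1_tower_le W hctx.nna hctx.ma hwn hwm hT n
    have hz := (win_pairs (d := d) hctx.nna hctx.ma hH h0 h1 hTn (le_refl (d + 1))
      (fun D hD => (recF_outside _ J d n D hD).ge) (fun D => recF_nonneg _ hs0 hs1 J d n D) ih J).1
    have hp := peel (d := d) hctx (Or.inr rfl) wl P W hw hwP hTn (by omega) hz (by omega)
    simp only [tower, recR, recF]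
    refine win_Hyp_cast ?_ hp
    ring

/-- WINDOW THEOREM (`h = 1`, many coins per zone), conclusion in `n1`. -/
theorem window_many {a f : Alg} {σ x lam : ℝ} {K N d J W P : ℕ} {b0 : ℤ → ℝ} {T : Alg}
    (hctx : Ctx 1 a f σ x) (hH : H1 a K lam) (h0 : 0 < lam) (h1 : lam ≤ 1)
    (wl : List Slot) (hw : wl.length = P) (hwP : nPsi wl = 0)
    (hT : n1 T ≤ 1) (hcore : Hyp 1 1 a T N (d + 1) b0 (fun D => if |D| ≤ (d : ℤ) then 0 else 2))
    (y : ℝ) (hy : (1 + x) ^ (2 * P) - 1 ≤ y) (hb0 : ∀ D, b0 D ≤ bump y P D)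
    (hJ : 1 ≤ J) (hW : 2 * d + 1 + 2 * J * (K + 1) ≤ W) (n : ℕ) (p s : ℕ)
    (hp : d + 1 + 2 * J * (K + 1) ≤ p) (hs : d + 1 + 2 * J * (K + 1) ≤ s)
    (hd : (d : ℝ) ≤ 2 * lam ^ 2 * J * (n + 1))
    (hz : 4 * P * y * Real.sqrt (((n : ℝ) + 1) / (2 * J * lam ^ 2)) ≤ 1 / 2) :
    n1 (a ^ p * tower a (pval a f wl) W T n * a ^ s - a ^ (p + s + (N + n * (2 * W + 2 * P)))) ≤
      Real.sqrt (8 * P * y * Real.sqrt (((n : ℝ) + 1) / (2 * J * lam ^ 2))) +
        4 * Real.exp (-((d : ℝ) ^ 2 / (4 * lam ^ 2 * J * (n + 1)))) := by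
  have hs0 : 0 < lam ^ 2 / 2 := by positivity
  have hs1 : lam ^ 2 / 2 ≤ 1 / 2 := by nlinarith
  obtain ⟨hwn, hwm⟩ := nn_pval hctx wl hwP
  have hTn := n1_tower_le W hctx.nna hctx.ma hwn hwm hT n
  have hx0 := win_x_nonneg hctx
  have hind := win_ind_many hctx hH h0 h1 wl hw hwP hT hcore hW n
  have hfin := (win_pairs (d := d) hctx.nna hctx.ma hH h0 h1 hTn (le_refl (d + 1))
      (fun D hD => (recF_outside _ J d n D hD).ge) (fun D => recF_nonneg _ hs0 hs1 J d n D)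
      hind J).1
  obtain ⟨Y, hY1, hY2⟩ := hfin p s hp hs
  have hB := GB_single hY1 (0 : ℤ)
  rw [mass_pow, hctx.ma, one_pow, one_mul] at hB
  have hcc := hY1.2.2.1 0 0
  simp only [sub_zero, mul_one, one_pow, one_smul] at hB hcc
  have hy0 : 0 ≤ (1 + x) ^ (2 * P) - 1 := by
    have := one_le_pow₀ (n := 2 * P) (by linarith : (1 : ℝ) ≤ 1 + x)
    linarith
  have hlam2 : lam ^ 2 ≤ 1 := by nlinarith
  have hR := recR_one (lam ^ 2) (by positivity) hlam2 ((1 + x) ^ (2 * P) - 1) y hy0 hy P J hJ b0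
    hb0 n hz 0
  have hmq : mass (a ^ (p + s + (N + n * (2 * W + 2 * P)))) = 1 := by
    rw [mass_pow, hctx.ma, one_pow]
  have hn1 := Bd_n1 le_rfl (nn_pow hctx.nna _) hmq (sub_nonneg.mpr hcc) hB
  have hn2 : n1 (Y 0 - a ^ (p + s + (N + n * (2 * W + 2 * P)))) ≤
      Real.sqrt (8 * P * y * Real.sqrt (((n : ℝ) + 1) / (2 * J * lam ^ 2))) := by
    refine hn1.trans (Real.sqrt_le_sqrt ?_)
    linarith
  have hF := (hY2 0).trans (recF_bound (lam ^ 2 / 2) hs0 hs1 J d n hJ (by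
    refine hd.trans (le_of_eq ?_); ring))
  have h4 : Fam a (tower a (pval a f wl) W T n) p s 0 =
      a ^ p * tower a (pval a f wl) W T n * a ^ s := by
    simp [Fam]
  rw [h4] at hF
  have h5 : (8 : ℝ) * (lam ^ 2 / 2) * J * (n + 1) = 4 * lam ^ 2 * J * (n + 1) := by ring
  rw [h5] at hF
  have h6 := n1_triangle (a ^ p * tower a (pval a f wl) W T n * a ^ s) (Y 0)
    (a ^ (p + s + (N + n * (2 * W + 2 * P))))
  linarith

end Vale.Agent.P321
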