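import Vale.Agent.P321.Tilt
import Vale.Agent.P321.Window

namespace Vale.Agent.P321

open Finset

theorem bt_tower (e z T : Alg) (r g : ℕ) :
    e ^ r * tower e z (2 * r + 1) T g * e ^ (r + 1) =
      (e ^ r * z * e ^ (r + 1)) ^ g * (e ^ r * T * e ^ (r + 1)) * (e ^ r * z * e ^ (r + 1)) ^ g := by
  induction g with
  | zero => simp [tower]
  | succ g ih =>
    have hW : e ^ (2 * r + 1) = e ^ (r + 1) * e ^ r := by
      rw [← pow_add]; congr 1; ring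
    calc e ^ r * tower e z (2 * r + 1) T (g + 1) * e ^ (r + 1)
        = (e ^ r * z * e ^ (r + 1)) * (e ^ r * tower e z (2 * r + 1) T g * e ^ (r + 1)) *
            (e ^ r * z * e ^ (r + 1)) := by
          simp only [tower, hW, mul_assoc]
      _ = _ := by
          rw [ih]
          generalize e ^ r * z * e ^ (r + 1) = X
          generalize e ^ r * T * e ^ (r + 1) = Y
          calc X * (X ^ g * Y * X ^ g) * X = (X * X ^ g) * Y * (X ^ g * X) := by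
                simp only [mul_assoc]
            _ = _ := by rw [← pow_succ', ← pow_succ]

theorem bt_odd (e z : Alg) (r g : ℕ) :
    (e ^ r * z * e ^ (r + 1)) ^ (2 * g + 1) =
      e ^ r * tower e z (2 * r + 1) z g * e ^ (r + 1) := by
  rw [bt_tower, ← pow_succ, ← pow_add]
  congr 1; ring

theorem bt_even (e z : Alg) (r g : ℕ) :
    (e ^ r * z * e ^ (r + 1)) ^ (2 * g + 2) =
      e ^ r * tower e z (2 * r + 1) (z * e ^ (2 * r + 1) * z) g * e ^ (r + 1) := by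
  have h : e ^ r * (z * e ^ (2 * r + 1) * z) * e ^ (r + 1) =
      (e ^ r * z * e ^ (r + 1)) * (e ^ r * z * e ^ (r + 1)) := by
    have hW : e ^ (2 * r + 1) = e ^ (r + 1) * e ^ r := by
      rw [← pow_add]; congr 1; ring
    rw [hW]; simp only [mul_assoc]
  rw [bt_tower, h, ← mul_assoc, ← pow_succ, ← pow_succ, ← pow_add]
  congr 1; ring

/-- The list `B A^(2r+1) B`. -/
def btL (r : ℕ) : List Slot := [Slot.B] ++ List.replicate (2 * r + 1) Slot.A ++ [Slot.B]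

theorem bt_pvalB (a f : Alg) : pval a f [Slot.B] = a + f := by
  simp [pval, Slot.val]

theorem bt_pvalL (a f : Alg) (r : ℕ) :
    pval a f (btL r) = (a + f) * a ^ (2 * r + 1) * (a + f) := by
  unfold btL
  rw [pval_append, pval_append, pval_replicate_A, bt_pvalB]

theorem bt_nPsi_append (l l' : List Slot) : nPsi (l ++ l') = nPsi l + nPsi l' := by
  induction l with
  | nil => simp [nPsi]
  | cons s l ih => cases s <;> simp [nPsi, ih]; ring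

theorem bt_nB_append (l l' : List Slot) : nB (l ++ l') = nB l + nB l' := by
  induction l with
  | nil => simp [nB]
  | cons s l ih => cases s <;> simp [nB, ih]; ring

theorem bt_nPsi_rep (n : ℕ) : nPsi (List.replicate n Slot.A) = 0 := by
  induction n with
  | zero => simp [nPsi]
  | succ n ih => rw [List.replicate_succ]; simpa [nPsi] using ih

theorem bt_nB_rep (n : ℕ) : nB (List.replicate n Slot.A) = 0 := by
  induction n with
  | zero => simp [nB]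
  | succ n ih => rw [List.replicate_succ]; simpa [nB] using ih

theorem bt_nPsiL (r : ℕ) : nPsi (btL r) = 0 := by
  unfold btL
  rw [bt_nPsi_append, bt_nPsi_append, bt_nPsi_rep]; rfl

theorem bt_nBL (r : ℕ) : nB (btL r) = 2 := by
  unfold btL
  rw [bt_nB_append, bt_nB_append, bt_nB_rep]; rfl

theorem bt_lenL (r : ℕ) : (btL r).length = 2 * r + 3 := by
  simp [btL]

theorem bt_clusB (M : ℕ) : Clus M 1 [Slot.B] := by
  intro i hi _
  simp at hi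
  subst hi
  simp

theorem bt_clusL (r : ℕ) : Clus (2 * r + 2) 1 (btL r) := by
  show Clus (2 * r + 2) 1 ([Slot.B] ++ List.replicate (2 * r + 1) Slot.A ++ [Slot.B])
  intro i hi hne
  have hi' : i < 2 * r + 3 := by
    have h2 := hi
    simp at h2
    omega
  by_cases h0 : i = 0
  · subst h0; simp
  by_cases h1 : i = 2 * r + 2
  · subst h1; simp
  exfalso; apply hne
  rw [List.getElem_append_left (by simp; omega), List.getElem_append_right (by simp; omega)]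
  simp

/-- Application of the window theorem to a core given by a list of slots. -/
theorem bt_apply {q θ : ℝ} (h0 : 0 < q) (h1 : q < 1) (t0 : 0 < θ) (t1 : θ < 1) (r g d J : ℕ)
    (l : List Slot) (hl : nPsi l = 0) (hlB : nB l ≤ 2) (hlC : Clus (2 * r + 2) 1 l)
    (hJ : 1 ≤ J) (hd1 : d + 1 + 2 * J ≤ r) (y : ℝ)
    (hy : (1 + 16 * (1 : ℝ) ^ 2 * (2 / (q * θ * (1 - θ))) ^ 2) ^ 2 - 1 ≤ y)
    (hd : (d : ℝ) ≤ 2 * (1 - θ) ^ 2 * J * (g + 1))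
    (hz : 4 * y * Real.sqrt (((g : ℝ) + 1) / (2 * J * (1 - θ) ^ 2)) ≤ 1 / 2) :
    n1 (eS q θ ^ r * tower (eS q θ) (zS q) (2 * r + 1) (pval (eS q θ) (zS q - eS q θ) l) g *
        eS q θ ^ (r + 1) -
        eS q θ ^ (2 * r + 1 + (l.length + g * (4 * r + 4)))) ≤
      Real.sqrt (8 * y * Real.sqrt (((g : ℝ) + 1) / (2 * J * (1 - θ) ^ 2))) +
        4 * Real.exp (-((d : ℝ) ^ 2 / (4 * (1 - θ) ^ 2 * J * (g + 1)))) := by
  have hctx := Ctx_eS (θ := θ) h0 h1 t0 t1 1 le_rfl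
  rw [Nat.cast_one] at hctx
  generalize hx : 16 * (1 : ℝ) ^ 2 * (2 / (q * θ * (1 - θ))) ^ 2 = x at hctx hy
  have hx0 : 0 ≤ x := by rw [← hx]; positivity
  have hzz : eS q θ + (zS q - eS q θ) = zS q := by abel
  have hpB : pval (eS q θ) (zS q - eS q θ) [Slot.B] = zS q := by rw [bt_pvalB, hzz]
  have hnp := nn_pval hctx l hl
  have hT : n1 (pval (eS q θ) (zS q - eS q θ) l) ≤ 1 := by
    rw [n1_of_nn hnp.1, hnp.2]
  have hcore := core_one (d := d) hctx l 1 (2 * r + 2) 2 hl hlC (by omega) hlB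
  have key := window_many (P := 1) (J := J) (W := 2 * r + 1) (K := 0) hctx
    (H1_eS h0 h1 t0.le t1.le) (by linarith) (by linarith) [Slot.B] rfl rfl hT hcore y
    (by simpa using hy) (fun D => by
      unfold bump
      have : (1 + x) ^ 2 - 1 ≤ y := hy
      split_ifs <;> linarith) hJ (by omega) g r (r + 1) (by omega) (by omega)
    (by simpa using hd) (by simpa using hz)
  rw [hpB] at key
  have e1 : r + (r + 1) + (l.length + g * (2 * (2 * r + 1) + 2 * 1)) =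
      2 * r + 1 + (l.length + g * (4 * r + 4)) := by ring
  rw [e1] at key
  simpa using key

/-- The two cases together. -/
theorem bt_both {q θ : ℝ} (h0 : 0 < q) (h1 : q < 1) (t0 : 0 < θ) (t1 : θ < 1) (r g d J m : ℕ)
    (hm : m = 2 * g + 1 ∨ m = 2 * g + 2)
    (hJ : 1 ≤ J) (hd1 : d + 1 + 2 * J ≤ r) (y : ℝ)
    (hy : (1 + 16 * (1 : ℝ) ^ 2 * (2 / (q * θ * (1 - θ))) ^ 2) ^ 2 - 1 ≤ y)
    (hd : (d : ℝ) ≤ 2 * (1 - θ) ^ 2 * J * (g + 1))
    (hz : 4 * y * Real.sqrt (((g : ℝ) + 1) / (2 * J * (1 - θ) ^ 2)) ≤ 1 / 2) :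
    n1 (aS q θ r ^ m - eS q θ ^ (m * (2 * r + 2))) ≤
      Real.sqrt (8 * y * Real.sqrt (((g : ℝ) + 1) / (2 * J * (1 - θ) ^ 2))) +
        4 * Real.exp (-((d : ℝ) ^ 2 / (4 * (1 - θ) ^ 2 * J * (g + 1)))) := by
  have hzz : eS q θ + (zS q - eS q θ) = zS q := by abel
  rcases hm with hm | hm
  · have key := bt_apply h0 h1 t0 t1 r g d J [Slot.B] rfl (by simp [nB]) (bt_clusB _) hJ hd1 y hy
      hd hz
    rw [bt_pvalB, hzz, ← bt_odd] at key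
    have e1 : 2 * r + 1 + (List.length [Slot.B] + g * (4 * r + 4)) =
        (2 * g + 1) * (2 * r + 2) := by simp; ring
    rw [e1] at key
    rw [hm]; exact key
  · have key := bt_apply h0 h1 t0 t1 r g d J (btL r) (bt_nPsiL r) (bt_nBL r).le (bt_clusL r) hJ
      hd1 y hy hd hz
    rw [bt_pvalL, hzz, ← bt_even] at key
    have e1 : 2 * r + 1 + ((btL r).length + g * (4 * r + 4)) =
        (2 * g + 2) * (2 * r + 2) := by rw [bt_lenL]; ring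
    rw [e1] at key
    rw [hm]; exact key

theorem bt_exp_le {x : ℝ} (hx : 0 < x) : Real.exp (-x) ≤ 1 / x := by
  rw [Real.exp_neg, ← one_div]
  exact one_div_le_one_div_of_le hx (by linarith [Real.add_one_le_exp x])

/-- case `d = r / 4` -/
theorem bt_exp1 {η ε V r : ℝ} {d : ℕ} (hη : 0 < η) (hη3 : 128 * η ≤ ε / 2)
    (hr : 0 < r) (hd8 : r / 8 ≤ d) (hV : 0 < V) (hV1 : V ≤ η * r ^ 2 / 2) :
    4 * Real.exp (-((d : ℝ) ^ 2 / V)) ≤ ε / 2 := by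
  have hx : 1 / (32 * η) ≤ (d : ℝ) ^ 2 / V := by
    rw [div_le_div_iff₀ (by positivity) hV]
    have b2 : (r / 8) ^ 2 * (32 * η) ≤ (d : ℝ) ^ 2 * (32 * η) := by gcongr
    linarith
  calc 4 * Real.exp (-((d : ℝ) ^ 2 / V))
      ≤ 4 * Real.exp (-(1 / (32 * η))) := by gcongr
    _ ≤ 4 * (1 / (1 / (32 * η))) := by
        have := bt_exp_le (x := 1 / (32 * η)) (by positivity)
        linarith
    _ = 128 * η := by rw [one_div_one_div]; ring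
    _ ≤ ε / 2 := hη3

/-- case `d ≥ Z - 1` -/
theorem bt_exp2 {ε Z : ℝ} {d : ℕ} (hε : 0 < ε) (hZ : 1 + 8 / ε ≤ Z / 2)
    (hd : Z - 1 ≤ (d : ℝ)) :
    4 * Real.exp (-((d : ℝ) ^ 2 / (2 * Z))) ≤ ε / 2 := by
  have h8 : 0 < 8 / ε := by positivity
  have hZ0 : 0 < Z := by linarith
  have hx : Z / 2 - 1 ≤ (d : ℝ) ^ 2 / (2 * Z) := by
    rw [le_div_iff₀ (by positivity)]
    have hZ1 : 0 ≤ Z - 1 := by linarith
    have : (Z - 1) ^ 2 ≤ (d : ℝ) ^ 2 := by gcongr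
    nlinarith
  have hpos : 8 / ε ≤ Z / 2 - 1 := by linarith
  calc 4 * Real.exp (-((d : ℝ) ^ 2 / (2 * Z)))
      ≤ 4 * Real.exp (-(8 / ε)) := by
        have := hpos.trans hx
        gcongr
    _ ≤ 4 * (1 / (8 / ε)) := by
        have := bt_exp_le h8
        linarith
    _ = ε / 2 := by rw [one_div_div]; ring

/-- choice of the constants -/
theorem bt_const {l0 Y ε : ℝ} (hl0 : 0 < l0) (hY : 0 ≤ Y) (hε : 0 < ε) :
    ∃ s0 η : ℝ, 0 < s0 ∧ 8 * Y * s0 ≤ 1 ∧ 8 * Y * s0 ≤ (ε / 2) ^ 2 ∧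
      0 < η ∧ η ≤ 1 / 4 ∧ 8 * η ≤ s0 ^ 2 * l0 ^ 2 ∧ 128 * η ≤ ε / 2 := by
  obtain ⟨s0, hs0, hs1, hs2⟩ : ∃ s0 : ℝ, 0 < s0 ∧ 8 * Y * s0 ≤ 1 ∧ 8 * Y * s0 ≤ (ε / 2) ^ 2 := by
    refine ⟨min 1 ((ε / 2) ^ 2) / (8 * (Y + 1)), by positivity, ?_, ?_⟩
    · rw [mul_div_assoc', div_le_one (by positivity)]
      have h1 : min 1 ((ε / 2) ^ 2) ≤ 1 := min_le_left _ _
      nlinarith
    · rw [mul_div_assoc', div_le_iff₀ (by positivity)]
      have h1 : min 1 ((ε / 2) ^ 2) ≤ (ε / 2) ^ 2 := min_le_right _ _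
      have h2 : 0 ≤ (ε / 2) ^ 2 := by positivity
      nlinarith [mul_nonneg hY h2]
  refine ⟨s0, min (1 / 4) (min (s0 ^ 2 * l0 ^ 2 / 8) (ε / 256)), hs0, hs1, hs2, by positivity,
    min_le_left _ _, ?_, ?_⟩
  · have := (min_le_right (1 / 4 : ℝ) (min (s0 ^ 2 * l0 ^ 2 / 8) (ε / 256))).trans
      (min_le_left _ _)
    linarith
  · have := (min_le_right (1 / 4 : ℝ) (min (s0 ^ 2 * l0 ^ 2 / 8) (ε / 256))).trans
      (min_le_right _ _)
    linarith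

/-- the sqrt term -/
theorem bt_sq {l0 Y ε s0 η lam r g J : ℝ} (hl0 : 0 < l0) (hY : 0 ≤ Y) (hε : 0 < ε) (hs0 : 0 < s0)
    (hs1 : 8 * Y * s0 ≤ 1) (hs2 : 8 * Y * s0 ≤ (ε / 2) ^ 2)
    (hη2 : 8 * η ≤ s0 ^ 2 * l0 ^ 2) (hr : 0 < r) (hg1 : g + 1 ≤ η * r)
    (hlam : l0 ≤ lam) (hJl : r / 16 ≤ J) :
    4 * Y * Real.sqrt ((g + 1) / (2 * J * lam ^ 2)) ≤ 1 / 2 ∧
    Real.sqrt (8 * Y * Real.sqrt ((g + 1) / (2 * J * lam ^ 2))) ≤ ε / 2 := by
  have hJ0 : 0 < J := by linarith [show 0 < r / 16 by positivity]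
  have hlam0 : 0 < lam := hl0.trans_le hlam
  have hll : l0 ^ 2 ≤ lam ^ 2 := by gcongr
  have hfrac : (g + 1) / (2 * J * lam ^ 2) ≤ s0 ^ 2 := by
    rw [div_le_iff₀ (by positivity)]
    have a1 : r / 8 * l0 ^ 2 ≤ 2 * J * lam ^ 2 := by
      have : r / 8 ≤ 2 * J := by linarith
      gcongr
    have a2 : s0 ^ 2 * (r / 8 * l0 ^ 2) ≤ s0 ^ 2 * (2 * J * lam ^ 2) := by gcongr
    have a3 : 8 * η * r ≤ s0 ^ 2 * l0 ^ 2 * r := by gcongr
    linarith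
  have hsq : Real.sqrt ((g + 1) / (2 * J * lam ^ 2)) ≤ s0 := by
    rw [Real.sqrt_le_left hs0.le]; exact hfrac
  have hYs : Y * Real.sqrt ((g + 1) / (2 * J * lam ^ 2)) ≤ Y * s0 := by gcongr
  refine ⟨by linarith, ?_⟩
  rw [Real.sqrt_le_left (by positivity)]
  linarith

theorem bt_num {l0 Y ε : ℝ} (hl0 : 0 < l0) (hY : 0 ≤ Y) (hε : 0 < ε) :
    ∃ η : ℝ, 0 < η ∧ η ≤ 1 / 4 ∧ ∃ r0 : ℕ, ∀ r : ℕ, r0 ≤ r → ∀ g : ℕ,
      (2 * g + 1 : ℝ) ≤ η * r + 1 → ∀ lam : ℝ, l0 ≤ lam → lam ≤ 1 → ∃ d J : ℕ, 1 ≤ J ∧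
        d + 1 + 2 * J ≤ r ∧ (d : ℝ) ≤ 2 * lam ^ 2 * J * (g + 1) ∧
        4 * Y * Real.sqrt (((g : ℝ) + 1) / (2 * J * lam ^ 2)) ≤ 1 / 2 ∧
        Real.sqrt (8 * Y * Real.sqrt (((g : ℝ) + 1) / (2 * J * lam ^ 2))) +
          4 * Real.exp (-((d : ℝ) ^ 2 / (4 * lam ^ 2 * J * (g + 1)))) ≤ ε := by
  obtain ⟨s0, η, hs0, hs1, hs2, hη, hη1, hη2, hη3⟩ := bt_const hl0 hY hε
  obtain ⟨r0, hr0⟩ := exists_nat_ge (max 16 (max (2 / η) (16 * (1 + 8 / ε) / l0 ^ 2)))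
  refine ⟨η, hη, hη1, r0, ?_⟩
  intro r hr g hg lam hlam hlam1
  have hrr : (r0 : ℝ) ≤ r := by exact_mod_cast hr
  have hr16 : (16 : ℝ) ≤ r := (le_max_left _ _).trans (hr0.trans hrr)
  have hr2 : 2 / η ≤ r := ((le_max_left _ _).trans (le_max_right _ _)).trans (hr0.trans hrr)
  have hr3 : 16 * (1 + 8 / ε) / l0 ^ 2 ≤ r :=
    ((le_max_right _ _).trans (le_max_right _ _)).trans (hr0.trans hrr)
  have hrn : 16 ≤ r := by exact_mod_cast hr16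
  rw [div_le_iff₀ hη] at hr2
  rw [div_le_iff₀ (by positivity)] at hr3
  clear hr0 hrr hr
  have hg1 : (g : ℝ) + 1 ≤ η * r := by linarith
  have hlam0 : 0 < lam := hl0.trans_le hlam
  -- J
  obtain ⟨J, hJd⟩ : ∃ J : ℕ, J = r / 8 := ⟨_, rfl⟩
  have hJ1 : 1 ≤ J := by omega
  have hJu : (J : ℝ) ≤ r / 8 := by
    have : 8 * J ≤ r := by omega
    have : (8 * J : ℝ) ≤ r := by exact_mod_cast this
    linarith
  have hJl : (r : ℝ) / 16 ≤ J := by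
    have : r ≤ 16 * J := by omega
    have : (r : ℝ) ≤ 16 * J := by exact_mod_cast this
    linarith
  have hJ0 : (0 : ℝ) < J := by exact_mod_cast hJ1
  obtain ⟨hT1, hT2⟩ := bt_sq (g := (g : ℝ)) hl0 hY hε hs0 hs1 hs2 hη2 (by linarith) hg1 hlam hJl
  -- d
  obtain ⟨Z, hZ⟩ : ∃ Z : ℝ, Z = 2 * lam ^ 2 * J * (g + 1) := ⟨_, rfl⟩
  have hZ0 : 0 < Z := by rw [hZ]; positivity
  have h4Z : 4 * lam ^ 2 * J * (g + 1) = 2 * Z := by rw [hZ]; ring
  have hZl : 1 + 8 / ε ≤ Z / 2 := by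
    have hll : l0 ^ 2 ≤ lam ^ 2 := by gcongr
    have a1 : l0 ^ 2 * ((r : ℝ) / 16) ≤ lam ^ 2 * J := by gcongr
    have a2 : lam ^ 2 * J * 1 ≤ lam ^ 2 * J * (g + 1) := by
      have : (1 : ℝ) ≤ g + 1 := by
        have : (0 : ℝ) ≤ g := by positivity
        linarith
      gcongr
    have a3 : Z / 2 = lam ^ 2 * J * (g + 1) := by rw [hZ]; ring
    rw [a3]
    linarith
  have hZu : 2 * Z ≤ η * r ^ 2 / 2 := by
    have hll1 : lam ^ 2 ≤ 1 := by nlinarith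
    have b1 : 4 * lam ^ 2 * J * (g + 1) ≤ 4 * 1 * (r / 8) * (η * r) := by gcongr
    rw [← h4Z]
    linarith
  by_cases hcase : ((r / 4 : ℕ) : ℝ) ≤ Z
  · refine ⟨r / 4, J, hJ1, by omega, by rw [← hZ]; exact hcase, hT1, ?_⟩
    rw [h4Z]
    have hd8 : (r : ℝ) / 8 ≤ ((r / 4 : ℕ) : ℝ) := by
      have : r ≤ 8 * (r / 4) := by omega
      have : (r : ℝ) ≤ 8 * ((r / 4 : ℕ) : ℝ) := by exact_mod_cast this
      linarith
    have := bt_exp1 hη hη3 (by linarith) hd8 (by positivity) hZu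
    linarith
  · push Not at hcase
    have hfl : (⌊Z⌋₊ : ℝ) ≤ Z := Nat.floor_le hZ0.le
    have hfl2 : ⌊Z⌋₊ ≤ r / 4 := by
      have : (⌊Z⌋₊ : ℝ) ≤ ((r / 4 : ℕ) : ℝ) := hfl.trans hcase.le
      exact_mod_cast this
    refine ⟨⌊Z⌋₊, J, hJ1, by omega, by rw [← hZ]; exact hfl, hT1, ?_⟩
    rw [h4Z]
    have := bt_exp2 (d := ⌊Z⌋₊) hε hZl (by linarith [Nat.lt_floor_add_one Z])
    linarith

theorem bt_y {q t₀ t₁ θ : ℝ} (h0 : 0 < q) (ht0 : 0 < t₀) (ht1 : t₁ < 1) (h2 : t₀ ≤ θ)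
    (h3 : θ ≤ t₁) :
    (1 + 16 * (1 : ℝ) ^ 2 * (2 / (q * θ * (1 - θ))) ^ 2) ^ 2 - 1 ≤
      (1 + 16 * (1 : ℝ) ^ 2 * (2 / (q * t₀ * (1 - t₁))) ^ 2) ^ 2 - 1 := by
  have a1 : 0 < 1 - t₁ := by linarith
  have a2 : 1 - t₁ ≤ 1 - θ := by linarith
  have a3 : 0 < 1 - θ := by linarith
  have a4 : 0 < θ := by linarith
  gcongr

/-- `window_many` with `K = 0`, `P = 1`, `wl = [B]`, `W = 2r+1`, `lam = 1-θ`, `J ~ r/8`,
`d ~ r/4`, `n = g` with `g ≤ η r`; cores `[B]` (`m = 2g+1`) and `[B] A^(2r+1) [B]`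
(`m = 2g+2`). The constants are uniform for `θ` in `[t₀, t₁]`. -/
theorem win_base {q t₀ t₁ ε : ℝ} (h0 : 0 < q) (h1 : q < 1) (ht0 : 0 < t₀) (ht1 : t₁ < 1)
    (ht : t₀ ≤ t₁) (hε : 0 < ε) : ∃ η : ℝ, 0 < η ∧ η ≤ 1 / 4 ∧ ∃ r0 : ℕ, ∀ r : ℕ, r0 ≤ r →
    ∀ m : ℕ, 1 ≤ m → (m : ℝ) ≤ η * r + 1 → ∀ θ : ℝ, t₀ ≤ θ → θ ≤ t₁ →
      n1 (aS q θ r ^ m - eS q θ ^ (m * (2 * r + 2))) ≤ ε := by
  have hY : 0 ≤ (1 + 16 * (1 : ℝ) ^ 2 * (2 / (q * t₀ * (1 - t₁))) ^ 2) ^ 2 - 1 := by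
    have h2 : 0 ≤ 16 * (1 : ℝ) ^ 2 * (2 / (q * t₀ * (1 - t₁))) ^ 2 := by positivity
    nlinarith
  obtain ⟨η, hη, hη1, r0, H⟩ := bt_num (l0 := 1 - t₁) (by linarith) hY hε
  refine ⟨η, hη, hη1, r0, ?_⟩
  intro r hr m hm hmr θ hθ0 hθ1
  obtain ⟨g, hg⟩ : ∃ g : ℕ, g = (m - 1) / 2 := ⟨_, rfl⟩
  have hmg : m = 2 * g + 1 ∨ m = 2 * g + 2 := by omega
  have hg1 : (2 * g + 1 : ℝ) ≤ m := by
    have : 2 * g + 1 ≤ m := by omega
    exact_mod_cast this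
  obtain ⟨d, J, hJ, hdJ, hd, hz, hfin⟩ := H r hr g (hg1.trans hmr) (1 - θ) (by linarith)
    (by linarith)
  exact (bt_both h0 h1 (by linarith) (by linarith) r g d J m hmg hJ hdJ _
    (bt_y h0 ht0 ht1 hθ0 hθ1) hd hz).trans hfin

theorem bt_nn_aS {q θ : ℝ} (h0 : 0 < q) (h1 : q < 1) (t0 : 0 ≤ θ) (t1 : θ ≤ 1) (r : ℕ) :
    nn (aS q θ r) ∧ mass (aS q θ r) = 1 := by
  refine ⟨nn_mul (nn_mul (nn_pow (nn_eS h0 h1 t0 t1) _) (nn_zS h0 h1))
    (nn_pow (nn_eS h0 h1 t0 t1) _), ?_⟩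
  unfold aS
  rw [mass_mul, mass_mul, mass_pow, mass_pow, mass_eS h0 h1, mass_zS]
  simp

/-- Combination of the estimates into a coin. -/
theorem bt_coin {a b u : Alg} {m : ℕ} {κ κ' : ℝ} (ha : nn a) (hma : mass a = 1) (hb : nn b)
    (hmb : mass b = 1) (hu : nn u) (hmu : 3 / 4 ≤ mass u) (hub : ∀ w, u.coeff w ≤ b.coeff w)
    (hκ : 0 < κ) (hκ1 : κ ≤ 1) (hκκ : κ ≤ κ')
    (hua : ∀ w, κ' * u.coeff w ≤ (a ^ m).coeff w) (hcl : n1 (b - a ^ (m + 1)) ≤ 3 / 16) :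
    H1 a m (κ / 2) := by
  obtain ⟨μ, hμ, hμu, hμa, hmass⟩ := exists_min hu (nn_pow ha (m + 1))
  rw [mass_pow, hma, one_pow] at hmass
  have hbu : nn (b - u) := fun w => by
    simp only [MonoidAlgebra.coeff_sub, Finsupp.sub_apply]; linarith [hub w]
  have h1 : n1 (u - b) = 1 - mass u := by
    rw [n1_sub_comm, n1_of_nn hbu, mass_sub, hmb]
  have h2 := n1_triangle u b (a ^ (m + 1))
  have hμm : 1 / 2 ≤ mass μ := by linarith
  have H : H1 a m (κ * mass μ) := by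
    refine ⟨κ • μ, a ^ m - κ • μ, a ^ (m + 1) - κ • μ, nn_smul hκ.le hμ, ?_, ?_, by abel,
      by abel, mass_smul _ _⟩
    · intro w
      have e1 := hμ w
      have e2 := hμu w
      have e3 := hua w
      have e4 := hu w
      simp only [MonoidAlgebra.coeff_sub, Finsupp.sub_apply] at e2
      simp only [MonoidAlgebra.coeff_sub, Finsupp.sub_apply, MonoidAlgebra.coeff_smul,
        Finsupp.smul_apply, smul_eq_mul]
      have e5 : κ * μ.coeff w ≤ κ * u.coeff w := by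
        have : μ.coeff w ≤ u.coeff w := by linarith
        gcongr
      have e6 : κ * u.coeff w ≤ κ' * u.coeff w := by gcongr
      linarith
    · intro w
      have e1 := hμ w
      have e2 := hμa w
      simp only [MonoidAlgebra.coeff_sub, Finsupp.sub_apply] at e2
      simp only [MonoidAlgebra.coeff_sub, Finsupp.sub_apply, MonoidAlgebra.coeff_smul,
        Finsupp.smul_apply, smul_eq_mul]
      have e5 : κ * μ.coeff w ≤ 1 * μ.coeff w := by gcongr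
      linarith
  refine H1_mono H (by positivity) ?_
  have : κ * (1 / 2) ≤ κ * mass μ := by gcongr
  linarith

/-- the exponent in the tilt is bounded -/
theorem bt_kappa {θ η : ℝ} {r m : ℕ} (t0 : 0 < θ) (t1 : θ < 1) (hη : 0 < η) (hm : 1 ≤ m)
    (hr : 1 ≤ r) (hrm : η * r / 2 ≤ m) :
    Real.exp (-(1 / (1 - θ) * (θ * (6 / η) + 2 * Real.sqrt (6 / η)))) ≤
      Real.exp (-(1 / (1 - θ) * (θ * (2 * r + 1) / m + 2 * Real.sqrt ((2 * r + 1) / m)))) := by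
  have hm0 : (0 : ℝ) < m := by exact_mod_cast hm
  have hr1 : (1 : ℝ) ≤ r := by exact_mod_cast hr
  have hq : (2 * (r : ℝ) + 1) / m ≤ 6 / η := by
    rw [div_le_div_iff₀ hm0 hη]
    have : (2 * (r : ℝ) + 1) * η ≤ 3 * r * η := by gcongr; linarith
    linarith
  have h1 : 0 < 1 - θ := by linarith
  have h2 : θ * (2 * (r : ℝ) + 1) / m = θ * ((2 * r + 1) / m) := by ring
  rw [h2]
  gcongr

/-- Base coins. `m ~ η r`, `θ = 1 - q^2`, `θ₁ = θ(m+1)/m`: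
`a_θ₁^m ≈ e_θ₁^(m(2r+2)) ≈ e_θ^((m+1)(2r+2)) ≈ a_θ^(m+1)` within `1/16` each; `tilt` compares
`a_θ^m` with `a_θ₁^m`. -/
theorem base_two {q : ℝ} (h0 : 0 < q) (h1 : q < 1) : ∃ lam0 : ℝ, 0 < lam0 ∧ ∃ r0 : ℕ,
    ∀ r : ℕ, r0 ≤ r → H1 (PX q (wordAB r (r + 1))) r lam0 := by
  obtain ⟨θ, hθ⟩ : ∃ θ : ℝ, θ = 1 - q ^ 2 := ⟨_, rfl⟩
  have t0 : 0 < θ := by rw [hθ]; nlinarith
  have t1 : θ < 1 := by rw [hθ]; nlinarith
  obtain ⟨η, hη, hη1, r1, H⟩ := win_base (t₀ := θ) (t₁ := (1 + θ) / 2) (ε := 1 / 16) h0 h1 t0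
    (by linarith) (by linarith) (by norm_num)
  obtain ⟨m0, Hthin⟩ := thin (θ := θ) h0 h1 t0 t1 (1 / 16) (by norm_num)
  obtain ⟨κ, hκ⟩ : ∃ κ : ℝ, κ = Real.exp (-(1 / (1 - θ) * (θ * (6 / η) +
    2 * Real.sqrt (6 / η)))) := ⟨_, rfl⟩
  have hκ0 : 0 < κ := by rw [hκ]; positivity
  have hκ1 : κ ≤ 1 := by
    rw [hκ]
    apply Real.exp_le_one_iff.2
    have : 0 < 1 - θ := by linarith
    have : 0 ≤ 1 / (1 - θ) * (θ * (6 / η) + 2 * Real.sqrt (6 / η)) := by positivity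
    linarith
  obtain ⟨r2, hr2⟩ := exists_nat_ge (max (r1 : ℝ) (2 * (m0 + 1 + 2 * θ / (1 - θ)) / η))
  refine ⟨κ / 2, by positivity, r2, ?_⟩
  intro r hr
  have hrr : (r2 : ℝ) ≤ r := by exact_mod_cast hr
  have hr1 : r1 ≤ r := by exact_mod_cast (le_max_left _ _).trans (hr2.trans hrr)
  have hr3 : 2 * (m0 + 1 + 2 * θ / (1 - θ)) / η ≤ r :=
    (le_max_right _ _).trans (hr2.trans hrr)
  rw [div_le_iff₀ hη] at hr3
  clear hr2 hrr hr
  have hθθ : 0 < 1 - θ := by linarith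
  have hfr : 0 < 2 * θ / (1 - θ) := by positivity
  have hr0 : 1 ≤ r := by
    by_contra hcon
    have : r = 0 := by omega
    subst this
    have : (0 : ℝ) ≤ m0 := by positivity
    simp at hr3
    linarith
  obtain ⟨m, hm⟩ : ∃ m : ℕ, m = ⌊η * r⌋₊ := ⟨_, rfl⟩
  have hm1 : (m : ℝ) ≤ η * r := by rw [hm]; exact Nat.floor_le (by positivity)
  have hm2 : η * r - 1 < m := by
    rw [hm]; have := Nat.lt_floor_add_one (η * r); linarith
  have hm0' : (0 : ℝ) ≤ m0 := by positivity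
  have hmhalf : η * r / 2 ≤ m := by linarith
  have hmm0 : m0 ≤ m := by
    have : (m0 : ℝ) ≤ m := by linarith
    exact_mod_cast this
  have hm1' : 1 ≤ m := by
    have : (1 : ℝ) ≤ m := by linarith
    exact_mod_cast this
  have hmpos : (0 : ℝ) < m := by exact_mod_cast hm1'
  have hmr : m ≤ r := by
    have h5 : (r : ℝ) ≥ 0 := by positivity
    have : (m : ℝ) ≤ r := by nlinarith
    exact_mod_cast this
  -- the tilted parameter
  have hθ1 : θ * (m + 1) / m ≤ (1 + θ) / 2 := by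
    rw [div_le_iff₀ hmpos]
    have h6 : 2 * θ / (1 - θ) ≤ m := by linarith
    rw [div_le_iff₀ hθθ] at h6
    linarith
  have hθ2 : θ ≤ θ * (m + 1) / m := by
    rw [le_div_iff₀ hmpos]
    nlinarith
  have hθ3 : θ * (m + 1) / m < 1 := by linarith
  obtain ⟨u, hu, hmu, hub, hua⟩ := tilt h0 h1 t0 r m hm1' hθ3
  have hb := bt_nn_aS (θ := θ * (m + 1) / m) h0 h1 (by linarith) hθ3.le r
  have hA := bt_nn_aS (θ := θ) h0 h1 t0.le t1.le r
  have c1 := H r hr1 m hm1' (by linarith) (θ * (m + 1) / m) hθ2 hθ1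
  have c2 := Hthin m hmm0 (2 * r + 2) (by omega)
  have c3 := H r hr1 (m + 1) (by omega) (by push_cast; linarith) θ le_rfl (by linarith)
  have hclose : n1 (aS q (θ * (m + 1) / m) r ^ m - aS q θ r ^ (m + 1)) ≤ 3 / 16 := by
    have d1 := n1_triangle (aS q (θ * (m + 1) / m) r ^ m)
      (eS q (θ * (m + 1) / m) ^ (m * (2 * r + 2))) (aS q θ r ^ (m + 1))
    have d2 := n1_triangle (eS q (θ * (m + 1) / m) ^ (m * (2 * r + 2)))
      (eS q θ ^ ((m + 1) * (2 * r + 2))) (aS q θ r ^ (m + 1))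
    rw [n1_sub_comm (eS q θ ^ ((m + 1) * (2 * r + 2)))] at d2
    linarith
  have hk := bt_kappa (r := r) (m := m) t0 t1 hη hm1' hr0 hmhalf
  rw [← hκ] at hk
  have fin := bt_coin hA.1 hA.2 (nn_pow hb.1 m) (by rw [mass_pow, hb.2, one_pow]) hu hmu hub
    hκ0 hκ1 hk hua hclose
  rw [← aS_eq h0 h1, ← hθ]
  exact H1_mono_K hA.1 hA.2 fin hmr

end Vale.Agent.P321
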