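import Vale.Agent.P321.Defs

/-!
P321: basic lemmas on `Alg`.
-/

namespace Vale.Agent.P321

open scoped BigOperators
open Finset

noncomputable section

variable {f g q a b L R : Alg}

@[simp] lemma pt_coeff (ψ : Wd → ℝ) (q : Alg) (w : Wd) :
    (pt ψ q).coeff w = ψ w * q.coeff w := rfl

lemma alg_ext (h : ∀ w, f.coeff w = g.coeff w) : f = g := by
  ext w; exact h w

/-! ### sums over a large finite set -/

lemma mass_eq_sum {s : Finset Wd} (hs : f.coeff.support ⊆ s) :
    mass f = ∑ w ∈ s, f.coeff w := by
  unfold mass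
  exact Finsupp.sum_of_support_subset _ hs _ (by simp)

lemma n1_eq_sum {s : Finset Wd} (hs : f.coeff.support ⊆ s) :
    n1 f = ∑ w ∈ s, |f.coeff w| := by
  unfold n1
  exact Finsupp.sum_of_support_subset _ hs _ (by simp)

/-! ### nn -/

lemma nn_zero : nn (0 : Alg) := fun w => by simp

lemma nn_single (w : Wd) {r : ℝ} (hr : 0 ≤ r) : nn (MonoidAlgebra.single w r) := by
  classical
  intro v
  rw [MonoidAlgebra.coeff_single, Finsupp.single_apply]
  split_ifs <;> simp [hr]

lemma nn_one : nn (1 : Alg) := by
  rw [MonoidAlgebra.one_def]; exact nn_single _ zero_le_one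

lemma nn_add (hf : nn f) (hg : nn g) : nn (f + g) := fun w => by
  have := hf w; have := hg w
  simp only [MonoidAlgebra.coeff_add, Finsupp.add_apply]; linarith

lemma nn_smul {r : ℝ} (hr : 0 ≤ r) (hf : nn f) : nn (r • f) := fun w => by
  simp only [MonoidAlgebra.coeff_smul, Finsupp.smul_apply, smul_eq_mul]
  exact mul_nonneg hr (hf w)

lemma nn_sum {ι : Type*} (s : Finset ι) (F : ι → Alg) (h : ∀ i ∈ s, nn (F i)) :
    nn (∑ i ∈ s, F i) := by
  classical
  induction s using Finset.induction_on with
  | empty => simpa using nn_zero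
  | insert i s hi ih =>
    rw [Finset.sum_insert hi]
    exact nn_add (h i (Finset.mem_insert_self i s))
      (ih fun j hj => h j (Finset.mem_insert_of_mem hj))

lemma nn_mul (hf : nn f) (hg : nn g) : nn (f * g) := by
  classical
  intro w
  rw [MonoidAlgebra.coeff_mul]
  refine Finset.sum_nonneg fun u _ => Finset.sum_nonneg fun v _ => ?_
  dsimp only
  split_ifs
  · exact mul_nonneg (hf u) (hg v)
  · exact le_rfl

lemma nn_pow (hf : nn f) (n : ℕ) : nn (f ^ n) := by
  induction n with
  | zero => simpa using nn_one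
  | succ n ih => rw [pow_succ]; exact nn_mul ih hf

lemma nn_list_prod (l : List Alg) (h : ∀ x ∈ l, nn x) : nn l.prod := by
  induction l with
  | nil => simpa using nn_one
  | cons x l ih =>
    rw [List.prod_cons]
    exact nn_mul (h x (by simp)) (ih fun y hy => h y (by simp [hy]))

/-! ### mass -/

@[simp] lemma mass_zero : mass (0 : Alg) = 0 := by simp [mass]

@[simp] lemma mass_single (w : Wd) (r : ℝ) : mass (MonoidAlgebra.single w r) = r := by
  simp [mass]

@[simp] lemma mass_one : mass (1 : Alg) = 1 := by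
  rw [MonoidAlgebra.one_def]; simp

lemma mass_add (f g : Alg) : mass (f + g) = mass f + mass g := by
  unfold mass
  rw [MonoidAlgebra.coeff_add]
  exact Finsupp.sum_add_index' (by simp) (by simp)

lemma mass_smul (r : ℝ) (f : Alg) : mass (r • f) = r * mass f := by
  classical
  have hs : (r • f).coeff.support ⊆ f.coeff.support := by
    intro w hw
    rw [Finsupp.mem_support_iff] at hw ⊢
    intro h0; apply hw
    simp [h0]
  rw [mass_eq_sum hs, mass_eq_sum (f := f) subset_rfl, Finset.mul_sum]
  simp

lemma mass_neg (f : Alg) : mass (-f) = - mass f := by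
  have := mass_smul (-1) f
  simpa using this

lemma mass_sub (f g : Alg) : mass (f - g) = mass f - mass g := by
  rw [sub_eq_add_neg, mass_add, mass_neg]; ring

lemma mass_sum {ι : Type*} (s : Finset ι) (F : ι → Alg) :
    mass (∑ i ∈ s, F i) = ∑ i ∈ s, mass (F i) := by
  classical
  induction s using Finset.induction_on with
  | empty => simp
  | insert i s hi ih => rw [Finset.sum_insert hi, Finset.sum_insert hi, mass_add, ih]

lemma mass_mul (f g : Alg) : mass (f * g) = mass f * mass g := by
  induction f using MonoidAlgebra.induction_linear with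
  | zero => simp
  | add f₁ f₂ h₁ h₂ => rw [add_mul, mass_add, h₁, h₂, mass_add]; ring
  | single u r =>
    induction g using MonoidAlgebra.induction_linear with
    | zero => simp
    | add g₁ g₂ h₁ h₂ => rw [mul_add, mass_add, h₁, h₂, mass_add]; ring
    | single v s => rw [MonoidAlgebra.single_mul_single]; simp

lemma mass_pow (f : Alg) (n : ℕ) : mass (f ^ n) = mass f ^ n := by
  induction n with
  | zero => simp
  | succ n ih => rw [pow_succ, pow_succ, mass_mul, ih]

lemma mass_nonneg (hf : nn f) : 0 ≤ mass f :=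
  Finset.sum_nonneg fun w _ => hf w

lemma mass_list_prod (l : List Alg) : mass l.prod = (l.map mass).prod := by
  induction l with
  | nil => simp
  | cons x l ih => rw [List.prod_cons, mass_mul, ih, List.map_cons, List.prod_cons]

/-! ### n1 -/

lemma n1_nonneg (f : Alg) : 0 ≤ n1 f := Finset.sum_nonneg fun w _ => abs_nonneg _

@[simp] lemma n1_zero : n1 (0 : Alg) = 0 := by simp [n1]

@[simp] lemma n1_single (w : Wd) (r : ℝ) : n1 (MonoidAlgebra.single w r) = |r| := by
  simp [n1]

@[simp] lemma n1_one : n1 (1 : Alg) = 1 := by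
  rw [MonoidAlgebra.one_def]; simp

lemma n1_add_le (f g : Alg) : n1 (f + g) ≤ n1 f + n1 g := by
  classical
  have h1 : (f + g).coeff.support ⊆ f.coeff.support ∪ g.coeff.support := by
    rw [MonoidAlgebra.coeff_add]; exact Finsupp.support_add
  rw [n1_eq_sum h1, n1_eq_sum (f := f) (s := f.coeff.support ∪ g.coeff.support)
    Finset.subset_union_left, n1_eq_sum (f := g) (s := f.coeff.support ∪ g.coeff.support)
    Finset.subset_union_right, ← Finset.sum_add_distrib]
  exact Finset.sum_le_sum fun w _ => by
    simpa using abs_add_le (f.coeff w) (g.coeff w)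

lemma n1_smul (r : ℝ) (f : Alg) : n1 (r • f) = |r| * n1 f := by
  classical
  have hs : (r • f).coeff.support ⊆ f.coeff.support := by
    intro w hw
    rw [Finsupp.mem_support_iff] at hw ⊢
    intro h0; apply hw
    simp [h0]
  rw [n1_eq_sum hs, n1_eq_sum (f := f) subset_rfl, Finset.mul_sum]
  simp [abs_mul]

lemma n1_neg (f : Alg) : n1 (-f) = n1 f := by
  have := n1_smul (-1) f
  simpa using this

lemma n1_sub_le (f g : Alg) : n1 (f - g) ≤ n1 f + n1 g := by
  rw [sub_eq_add_neg]; exact (n1_add_le _ _).trans (by rw [n1_neg])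

lemma n1_sub_comm (f g : Alg) : n1 (f - g) = n1 (g - f) := by
  rw [← n1_neg, neg_sub]

lemma n1_triangle (f g k : Alg) : n1 (f - k) ≤ n1 (f - g) + n1 (g - k) := by
  have : f - k = (f - g) + (g - k) := by abel
  rw [this]; exact n1_add_le _ _

lemma n1_sum_le {ι : Type*} (s : Finset ι) (F : ι → Alg) :
    n1 (∑ i ∈ s, F i) ≤ ∑ i ∈ s, n1 (F i) := by
  classical
  induction s using Finset.induction_on with
  | empty => simp
  | insert i s hi ih =>
    rw [Finset.sum_insert hi, Finset.sum_insert hi]
    exact (n1_add_le _ _).trans (by linarith)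

lemma n1_eq_sum_single (f : Alg) : f = ∑ w ∈ f.coeff.support,
    MonoidAlgebra.single w (f.coeff w) := by
  have := MonoidAlgebra.sum_coeff_single f
  exact this.symm

lemma n1_mul_le (f g : Alg) : n1 (f * g) ≤ n1 f * n1 g := by
  classical
  have h : f * g = ∑ u ∈ f.coeff.support, ∑ v ∈ g.coeff.support,
      MonoidAlgebra.single (u * v) (f.coeff u * g.coeff v) := by
    conv_lhs => rw [n1_eq_sum_single f, n1_eq_sum_single g]
    rw [Finset.sum_mul_sum]
    simp [MonoidAlgebra.single_mul_single]
  rw [h]
  refine (n1_sum_le _ _).trans ?_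
  have h2 : ∀ u ∈ f.coeff.support, n1 (∑ v ∈ g.coeff.support,
      MonoidAlgebra.single (u * v) (f.coeff u * g.coeff v)) ≤ |f.coeff u| * n1 g := by
    intro u _
    refine (n1_sum_le _ _).trans ?_
    rw [n1_eq_sum (f := g) subset_rfl, Finset.mul_sum]
    exact Finset.sum_le_sum fun v _ => by simp [abs_mul]
  refine (Finset.sum_le_sum h2).trans ?_
  rw [← Finset.sum_mul, n1_eq_sum (f := f) subset_rfl]

lemma n1_of_nn (hf : nn f) : n1 f = mass f := by
  unfold n1 mass
  exact Finset.sum_congr rfl fun w _ => abs_of_nonneg (hf w)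

lemma abs_mass_le (f : Alg) : |mass f| ≤ n1 f :=
  Finset.abs_sum_le_sum_abs _ _

lemma n1_pow_nn (hf : nn f) (hm : mass f = 1) (n : ℕ) : n1 (f ^ n) = 1 := by
  rw [n1_of_nn (nn_pow hf n), mass_pow, hm, one_pow]

lemma n1_eq_zero_iff : n1 f = 0 ↔ f = 0 := by
  constructor
  · intro h
    apply alg_ext
    intro w
    by_cases hw : w ∈ f.coeff.support
    · have := (Finset.sum_eq_zero_iff_of_nonneg (fun w _ => abs_nonneg (f.coeff w))).1 h w hw
      simpa using this
    · rw [Finsupp.notMem_support_iff] at hw; simp [hw]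
  · rintro rfl; simp

lemma abs_coeff_le_n1 (f : Alg) (w : Wd) : |f.coeff w| ≤ n1 f := by
  classical
  by_cases hw : w ∈ f.coeff.support
  · exact Finset.single_le_sum (f := fun w => |f.coeff w|) (fun v _ => abs_nonneg _) hw
  · rw [Finsupp.notMem_support_iff] at hw
    rw [hw, abs_zero]; exact n1_nonneg f

/-- monotonicity of mass -/
lemma mass_mono (h : ∀ w, f.coeff w ≤ g.coeff w) : mass f ≤ mass g := by
  have : nn (g - f) := fun w => by
    simp only [MonoidAlgebra.coeff_sub, Finsupp.sub_apply]; linarith [h w]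
  have := mass_nonneg this
  rw [mass_sub] at this; linarith

/-- monotonicity of `n1` under pointwise domination -/
lemma n1_le_of_abs_le (h : ∀ w, |f.coeff w| ≤ g.coeff w) : n1 f ≤ mass g := by
  classical
  have h1 : f.coeff.support ⊆ f.coeff.support ∪ g.coeff.support := Finset.subset_union_left
  have h2 : g.coeff.support ⊆ f.coeff.support ∪ g.coeff.support := Finset.subset_union_right
  rw [n1_eq_sum h1, mass_eq_sum h2]
  exact Finset.sum_le_sum fun w _ => h w

lemma n1_le_of_Dom {s : ℝ} (h : Dom s f q) : n1 f ≤ s * mass q := by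
  rw [← mass_smul]
  exact n1_le_of_abs_le fun w => by simpa using h w

lemma n1_mul_left_le (hL : nn L) (hm : mass L ≤ 1) (f : Alg) : n1 (L * f) ≤ n1 f := by
  refine (n1_mul_le _ _).trans ?_
  rw [n1_of_nn hL]
  nlinarith [n1_nonneg f, mass_nonneg hL]

lemma n1_mul_right_le (hR : nn R) (hm : mass R ≤ 1) (f : Alg) : n1 (f * R) ≤ n1 f := by
  refine (n1_mul_le _ _).trans ?_
  rw [n1_of_nn hR]
  nlinarith [n1_nonneg f, mass_nonneg hR]

end

end Vale.Agent.P321
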