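import Vale.Agent.P321.Basic

namespace Vale.Agent.P321

open Finset

variable {h : ℕ} {f g q q' f₁ f₂ q₁ q₂ L R : Alg} {B B' B₁ B₂ : ℝ}

open Classical in
private lemma bd_coeff_sum_single {κ : Type*} (s : Finset κ) (φ : κ → Wd) (r : κ → ℝ) (w : Wd) :
    (∑ k ∈ s, MonoidAlgebra.single (φ k) (r k) : Alg).coeff w =
      ∑ k ∈ s, if φ k = w then r k else 0 := by
  rw [MonoidAlgebra.coeff_sum, Finsupp.finsetSum_apply]
  refine Finset.sum_congr rfl fun k _ => ?_
  rw [MonoidAlgebra.coeff_single, Finsupp.single_apply]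

/-- Representation criterion (perspective/Jensen inequality for a push-forward): with
`f = ∑ r ψ [φ]`, `q = ∑ r [φ]`. Group by the value of `φ`, and use
`(∑ r ψ)^(2h) ≤ (∑ r)^(2h-1) ∑ r ψ^(2h)` (`Real.pow_arith_mean_le_arith_mean_pow_of_even`). -/
theorem Bd_of_rep {κ : Type*} (s : Finset κ) (φ : κ → Wd) (r ψ : κ → ℝ) (hr : ∀ k ∈ s, 0 ≤ r k)
    (hf : f = ∑ k ∈ s, MonoidAlgebra.single (φ k) (r k * ψ k))
    (hq : q = ∑ k ∈ s, MonoidAlgebra.single (φ k) (r k))
    (hB : ∑ k ∈ s, r k * ψ k ^ (2 * h) ≤ B) : Bd h f q B := by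
  classical
  have hfc : ∀ w, f.coeff w = ∑ k ∈ s with φ k = w, r k * ψ k := fun w => by
    rw [hf, bd_coeff_sum_single, Finset.sum_filter]
  have hqc : ∀ w, q.coeff w = ∑ k ∈ s with φ k = w, r k := fun w => by
    rw [hq, bd_coeff_sum_single, Finset.sum_filter]
  have hmem : ∀ w, ∀ k ∈ s.filter (fun k => φ k = w), 0 ≤ r k := fun w k hk =>
    hr k (Finset.mem_filter.1 hk).1
  refine ⟨fun w => f.coeff w / q.coeff w, fun w => ?_, ?_⟩
  · by_cases h0 : q.coeff w = 0
    · have hz : ∀ k ∈ s.filter (fun k => φ k = w), r k = 0 := by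
        rw [hqc] at h0
        exact (Finset.sum_eq_zero_iff_of_nonneg (hmem w)).1 h0
      rw [h0, mul_zero, hfc]
      exact Finset.sum_eq_zero fun k hk => by rw [hz k hk, zero_mul]
    · field_simp
  · refine le_trans ?_ hB
    have key : ∀ w, q.coeff w * (f.coeff w / q.coeff w) ^ (2 * h) ≤
        ∑ k ∈ s with φ k = w, r k * ψ k ^ (2 * h) := by
      intro w
      by_cases h0 : q.coeff w = 0
      · rw [h0, zero_mul]
        exact Finset.sum_nonneg fun k hk => mul_nonneg (hmem w k hk)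
          ((even_two_mul h).pow_nonneg _)
      · have hpos : 0 < q.coeff w := lt_of_le_of_ne (by
          rw [hqc]; exact Finset.sum_nonneg (hmem w)) (Ne.symm h0)
        have hJ := Real.pow_arith_mean_le_arith_mean_pow_of_even
          (s.filter (fun k => φ k = w)) (fun k => r k / q.coeff w) ψ
          (fun k hk => div_nonneg (hmem w k hk) hpos.le)
          (by rw [← Finset.sum_div, ← hqc, div_self h0]) (even_two_mul h)
        have e1 : ∑ k ∈ s with φ k = w, r k / q.coeff w * ψ k = f.coeff w / q.coeff w := by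
          rw [hfc w, Finset.sum_div]
          exact Finset.sum_congr rfl fun k _ => by ring
        have e2 : ∑ k ∈ s with φ k = w, r k / q.coeff w * ψ k ^ (2 * h) =
            (∑ k ∈ s with φ k = w, r k * ψ k ^ (2 * h)) / q.coeff w := by
          rw [Finset.sum_div]
          exact Finset.sum_congr rfl fun k _ => by ring
        rw [e1, e2, le_div_iff₀ hpos] at hJ
        linarith
    unfold Finsupp.sum
    refine (Finset.sum_le_sum fun w _ => key w).trans ?_
    have : ∑ w ∈ q.coeff.support, ∑ k ∈ s with φ k = w, r k * ψ k ^ (2 * h) =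
        ∑ k ∈ s with φ k ∈ q.coeff.support, r k * ψ k ^ (2 * h) := by
      rw [Finset.sum_filter]
      simp_rw [Finset.sum_filter]
      rw [Finset.sum_comm]
      refine Finset.sum_congr rfl fun k _ => ?_
      rw [Finset.sum_ite_eq]
    rw [this]
    exact Finset.sum_le_sum_of_subset_of_nonneg (Finset.filter_subset _ _) fun k hk _ =>
      mul_nonneg (hr k hk) ((even_two_mul h).pow_nonneg _)

/-- A `Bd` gives a representation on the support of `q`. -/
private lemma bd_rep (H : Bd h f q B) : ∃ ψ : Wd → ℝ,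
    f = ∑ w ∈ q.coeff.support, MonoidAlgebra.single w (q.coeff w * ψ w) ∧
    ∑ w ∈ q.coeff.support, q.coeff w * ψ w ^ (2 * h) ≤ B := by
  classical
  obtain ⟨ψ, h1, h2⟩ := H
  refine ⟨ψ, ?_, h2⟩
  apply alg_ext
  intro w
  have := bd_coeff_sum_single q.coeff.support id (fun w => q.coeff w * ψ w) w
  simp only [id] at this
  rw [this, h1 w, Finset.sum_ite_eq']
  split_ifs with hw
  · ring
  · rw [Finsupp.notMem_support_iff] at hw
    rw [hw, mul_zero]

theorem Bd_le (H : Bd h f q B) (hBB : B ≤ B') : Bd h f q B' := by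
  obtain ⟨ψ, h1, h2⟩ := H
  exact ⟨ψ, h1, h2.trans hBB⟩

theorem Bd_nonneg (hq : nn q) (H : Bd h f q B) : 0 ≤ B := by
  obtain ⟨ψ, h1, h2⟩ := H
  refine le_trans ?_ h2
  exact Finset.sum_nonneg fun w _ => mul_nonneg (hq w) ((even_two_mul h).pow_nonneg _)

theorem Bd_add (hq₁ : nn q₁) (hq₂ : nn q₂) (H₁ : Bd h f₁ q₁ B₁) (H₂ : Bd h f₂ q₂ B₂) :
    Bd h (f₁ + f₂) (q₁ + q₂) (B₁ + B₂) := by
  obtain ⟨ψ₁, a1, b1⟩ := bd_rep H₁
  obtain ⟨ψ₂, a2, b2⟩ := bd_rep H₂
  refine Bd_of_rep (q₁.coeff.support.disjSum q₂.coeff.support) (Sum.elim id id)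
    (Sum.elim q₁.coeff q₂.coeff) (Sum.elim ψ₁ ψ₂) ?_ ?_ ?_ ?_
  · rintro (w | w) _
    · exact hq₁ w
    · exact hq₂ w
  · rw [Finset.sum_disjSum]
    simp only [Sum.elim_inl, Sum.elim_inr, id]
    rw [← a1, ← a2]
  · rw [Finset.sum_disjSum]
    simp only [Sum.elim_inl, Sum.elim_inr, id]
    rw [← n1_eq_sum_single q₁, ← n1_eq_sum_single q₂]
  · rw [Finset.sum_disjSum]
    simp only [Sum.elim_inl, Sum.elim_inr]
    exact add_le_add b1 b2

theorem Bd_mul_left (hL : nn L) (hq : nn q) (H : Bd h f q B) :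
    Bd h (L * f) (L * q) (mass L * B) := by
  obtain ⟨ψ, a1, b1⟩ := bd_rep H
  refine Bd_of_rep (L.coeff.support ×ˢ q.coeff.support) (fun p => p.1 * p.2)
    (fun p => L.coeff p.1 * q.coeff p.2) (fun p => ψ p.2) ?_ ?_ ?_ ?_
  · rintro ⟨u, v⟩ _
    exact mul_nonneg (hL u) (hq v)
  · conv_lhs => rw [n1_eq_sum_single L, a1]
    rw [Finset.sum_mul_sum, Finset.sum_product]
    refine Finset.sum_congr rfl fun u _ => Finset.sum_congr rfl fun v _ => ?_
    rw [MonoidAlgebra.single_mul_single, mul_assoc]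
  · conv_lhs => rw [n1_eq_sum_single L, n1_eq_sum_single q]
    rw [Finset.sum_mul_sum, Finset.sum_product]
    refine Finset.sum_congr rfl fun u _ => Finset.sum_congr rfl fun v _ => ?_
    rw [MonoidAlgebra.single_mul_single]
  · rw [Finset.sum_product]
    have : ∀ u ∈ L.coeff.support, ∑ v ∈ q.coeff.support,
        L.coeff u * q.coeff v * ψ v ^ (2 * h) ≤ L.coeff u * B := by
      intro u _
      have e : ∑ v ∈ q.coeff.support, L.coeff u * q.coeff v * ψ v ^ (2 * h) =
          L.coeff u * ∑ v ∈ q.coeff.support, q.coeff v * ψ v ^ (2 * h) := by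
        rw [Finset.mul_sum]
        exact Finset.sum_congr rfl fun v _ => by ring
      rw [e]
      exact mul_le_mul_of_nonneg_left b1 (hL u)
    refine (Finset.sum_le_sum this).trans ?_
    rw [← Finset.sum_mul, mass_eq_sum (f := L) subset_rfl]

theorem Bd_mul_right (hR : nn R) (hq : nn q) (H : Bd h f q B) :
    Bd h (f * R) (q * R) (B * mass R) := by
  obtain ⟨ψ, a1, b1⟩ := bd_rep H
  refine Bd_of_rep (q.coeff.support ×ˢ R.coeff.support) (fun p => p.1 * p.2)
    (fun p => q.coeff p.1 * R.coeff p.2) (fun p => ψ p.1) ?_ ?_ ?_ ?_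
  · rintro ⟨u, v⟩ _
    exact mul_nonneg (hq u) (hR v)
  · conv_lhs => rw [n1_eq_sum_single R, a1]
    rw [Finset.sum_mul_sum, Finset.sum_product]
    refine Finset.sum_congr rfl fun u _ => Finset.sum_congr rfl fun v _ => ?_
    rw [MonoidAlgebra.single_mul_single]
    congr 1
    ring
  · conv_lhs => rw [n1_eq_sum_single R, n1_eq_sum_single q]
    rw [Finset.sum_mul_sum, Finset.sum_product]
    refine Finset.sum_congr rfl fun u _ => Finset.sum_congr rfl fun v _ => ?_
    rw [MonoidAlgebra.single_mul_single]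
  · rw [Finset.sum_product]
    have e : ∀ u ∈ q.coeff.support, ∑ v ∈ R.coeff.support,
        q.coeff u * R.coeff v * ψ u ^ (2 * h) = q.coeff u * ψ u ^ (2 * h) * mass R := by
      intro u _
      rw [mass_eq_sum (f := R) subset_rfl, Finset.mul_sum]
      exact Finset.sum_congr rfl fun v _ => by ring
    rw [Finset.sum_congr rfl e, ← Finset.sum_mul]
    exact mul_le_mul_of_nonneg_right b1 (mass_nonneg hR)

theorem Bd_smul (c : ℝ) (H : Bd h f q B) : Bd h (c • f) q (c ^ (2 * h) * B) := by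
  obtain ⟨ψ, h1, h2⟩ := H
  refine ⟨fun w => c * ψ w, fun w => ?_, ?_⟩
  · simp only [MonoidAlgebra.coeff_smul, Finsupp.smul_apply, smul_eq_mul]
    rw [h1 w]; ring
  · have : (q.coeff.sum fun w r => r * (c * ψ w) ^ (2 * h)) =
        c ^ (2 * h) * q.coeff.sum fun w r => r * ψ w ^ (2 * h) := by
      unfold Finsupp.sum
      rw [Finset.mul_sum]
      refine Finset.sum_congr rfl fun w _ => ?_
      simp only
      rw [mul_pow]; ring
    rw [this]
    exact mul_le_mul_of_nonneg_left h2 ((even_two_mul h).pow_nonneg _)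

theorem Bd_smul_ref {c : ℝ} (hc : 0 ≤ c) (H : Bd h f q B) : Bd h (c • f) (c • q) (c * B) := by
  obtain ⟨ψ, h1, h2⟩ := H
  refine ⟨ψ, fun w => ?_, ?_⟩
  · simp only [MonoidAlgebra.coeff_smul, Finsupp.smul_apply, smul_eq_mul]
    rw [h1 w]; ring
  · have hs : (c • q).coeff.support ⊆ q.coeff.support := by
      intro w hw
      rw [Finsupp.mem_support_iff] at hw ⊢
      intro h0; apply hw
      simp [h0]
    rw [Finsupp.sum_of_support_subset _ hs _ (by simp)]
    have : ∑ w ∈ q.coeff.support, (c • q).coeff w * ψ w ^ (2 * h) =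
        c * q.coeff.sum fun w r => r * ψ w ^ (2 * h) := by
      unfold Finsupp.sum
      rw [Finset.mul_sum]
      refine Finset.sum_congr rfl fun w _ => ?_
      simp only [MonoidAlgebra.coeff_smul, Finsupp.smul_apply, smul_eq_mul]
      ring
    rw [this]
    exact mul_le_mul_of_nonneg_left h2 hc

private lemma bd_zero (hh : 1 ≤ h) (q : Alg) : Bd h 0 q 0 := by
  refine ⟨fun _ => 0, fun w => by simp, ?_⟩
  have : 2 * h ≠ 0 := by omega
  unfold Finsupp.sum
  simp [this]

theorem Bd_ref_mono (hh : 1 ≤ h) (hq : nn q) (hqq : ∀ w, q.coeff w ≤ q'.coeff w)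
    (H : Bd h f q B) : Bd h f q' B := by
  have hd : nn (q' - q) := fun w => by
    simp only [MonoidAlgebra.coeff_sub, Finsupp.sub_apply]; linarith [hqq w]
  have := Bd_add hq hd H (bd_zero hh (q' - q))
  simpa using this

theorem Bd_self (c : ℝ) (q : Alg) : Bd h (c • q) q (c ^ (2 * h) * mass q) := by
  refine ⟨fun _ => c, fun w => by simp, ?_⟩
  unfold mass Finsupp.sum
  rw [Finset.mul_sum]
  exact le_of_eq (Finset.sum_congr rfl fun w _ => by ring)

theorem Bd_of_Dom {s : ℝ} (hq : nn q) (hs : 0 ≤ s) (H : Dom s f q) :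
    Bd h f q (s ^ (2 * h) * mass q) := by
  refine ⟨fun w => f.coeff w / q.coeff w, fun w => ?_, ?_⟩
  · by_cases h0 : q.coeff w = 0
    · have := H w
      rw [h0, mul_zero] at this
      rw [h0, mul_zero]
      exact abs_nonpos_iff.1 this
    · field_simp
  · unfold mass Finsupp.sum
    rw [Finset.mul_sum]
    refine Finset.sum_le_sum fun w hw => ?_
    have h0 : q.coeff w ≠ 0 := Finsupp.mem_support_iff.1 hw
    have hpos : 0 < q.coeff w := lt_of_le_of_ne (hq w) (Ne.symm h0)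
    have h1 : |f.coeff w / q.coeff w| ≤ s := by
      rw [abs_div, abs_of_pos hpos, div_le_iff₀ hpos]
      exact H w
    have h2 : (f.coeff w / q.coeff w) ^ (2 * h) ≤ s ^ (2 * h) := by
      rw [← (even_two_mul h).pow_abs]
      exact pow_le_pow_left₀ (abs_nonneg _) h1 _
    simp only
    rw [mul_comm]
    exact mul_le_mul_of_nonneg_right h2 hpos.le

/-- `n1 f ≤ ∑ q |ψ| ≤ (∑ q ψ^(2h))^(1/2h)` for `mass q = 1`. -/
theorem Bd_n1 {β : ℝ} (hh : 1 ≤ h) (hq : nn q) (hm : mass q = 1) (hβ : 0 ≤ β)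
    (H : Bd h f q (β ^ h)) : n1 f ≤ Real.sqrt β := by
  obtain ⟨ψ, h1, h2⟩ := H
  have hs : f.coeff.support ⊆ q.coeff.support := by
    intro w hw
    rw [Finsupp.mem_support_iff] at hw ⊢
    intro h0; apply hw
    rw [h1 w, h0, mul_zero]
  have e1 : n1 f = ∑ w ∈ q.coeff.support, q.coeff w * |ψ w| := by
    rw [n1_eq_sum hs]
    refine Finset.sum_congr rfl fun w _ => ?_
    rw [h1 w, abs_mul, abs_of_nonneg (hq w), mul_comm]
  have hJ := Real.pow_arith_mean_le_arith_mean_pow q.coeff.support q.coeff (fun w => |ψ w|)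
    (fun w _ => hq w) hm (fun w _ => abs_nonneg _) (2 * h)
  have e2 : ∑ w ∈ q.coeff.support, q.coeff w * |ψ w| ^ (2 * h) ≤ β ^ h := by
    refine le_trans (le_of_eq ?_) h2
    unfold Finsupp.sum
    exact Finset.sum_congr rfl fun w _ => by rw [(even_two_mul h).pow_abs]
  rw [← e1] at hJ
  have h3 : n1 f ^ (2 * h) ≤ Real.sqrt β ^ (2 * h) := by
    rw [pow_mul (Real.sqrt β), Real.sq_sqrt hβ]
    exact hJ.trans e2
  exact (pow_le_pow_iff_left₀ (n1_nonneg f) (Real.sqrt_nonneg β) (by omega)).1 h3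

/-- Truncation of `f = ψ q` at `|ψ| ≤ s`. -/
theorem Bd_trunc {β s : ℝ} (hh : 1 ≤ h) (hq : nn q) (hβ : 0 ≤ β) (hs : 0 < s)
    (H : Bd h f q (β ^ h)) :
    ∃ f', Dom s f' q ∧ n1 (f - f') ≤ β ^ h / s ^ (2 * h - 1) := by
  classical
  obtain ⟨ψ, h1, h2⟩ := H
  refine ⟨pt (fun w => if |ψ w| ≤ s then ψ w else 0) q, fun w => ?_, ?_⟩
  · rw [pt_coeff, abs_mul, abs_of_nonneg (hq w)]
    refine mul_le_mul_of_nonneg_right ?_ (hq w)
    split_ifs with h3
    · exact h3
    · simpa using hs.le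
  · have hs' : (f - pt (fun w => if |ψ w| ≤ s then ψ w else 0) q).coeff.support ⊆
        q.coeff.support := by
      intro w hw
      rw [Finsupp.mem_support_iff] at hw ⊢
      intro h0; apply hw
      simp [h1 w, h0]
    rw [n1_eq_sum hs', le_div_iff₀ (pow_pos hs _)]
    refine le_trans ?_ h2
    unfold Finsupp.sum
    rw [Finset.sum_mul]
    refine Finset.sum_le_sum fun w _ => ?_
    simp only [MonoidAlgebra.coeff_sub, Finsupp.sub_apply, pt_coeff]
    rw [h1 w]
    have hev : 0 ≤ ψ w ^ (2 * h) := (even_two_mul h).pow_nonneg _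
    split_ifs with h3
    · rw [sub_self, abs_zero, zero_mul]
      exact mul_nonneg (hq w) hev
    · rw [zero_mul, sub_zero, abs_mul, abs_of_nonneg (hq w)]
      push Not at h3
      have h4 : |ψ w| * s ^ (2 * h - 1) ≤ ψ w ^ (2 * h) := by
        rw [← (even_two_mul h).pow_abs]
        have h5 : |ψ w| ^ (2 * h) = |ψ w| * |ψ w| ^ (2 * h - 1) := by
          rw [← pow_succ']
          congr 1
          omega
        rw [h5]
        exact mul_le_mul_of_nonneg_left (pow_le_pow_left₀ hs.le h3.le _) (abs_nonneg _)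
      calc |ψ w| * q.coeff w * s ^ (2 * h - 1) = q.coeff w * (|ψ w| * s ^ (2 * h - 1)) := by ring
        _ ≤ q.coeff w * ψ w ^ (2 * h) := mul_le_mul_of_nonneg_left h4 (hq w)

/-- Power mean: a sum of `N` terms. -/
theorem Bd_sum {ι : Type*} (s : Finset ι) (F : ι → Alg) {β : ℝ} (hβ : 0 ≤ β) (hh : 1 ≤ h)
    (hq : nn q) (N : ℕ) (hN : s.card ≤ N) (H : ∀ i ∈ s, Bd h (F i) q (β ^ h)) :
    Bd h (∑ i ∈ s, F i) q (((N : ℝ) ^ 2 * β) ^ h) := by
  classical
  choose! ψ h1 h2 using H
  refine ⟨fun w => ∑ i ∈ s, ψ i w, fun w => ?_, ?_⟩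
  · rw [MonoidAlgebra.coeff_sum, Finsupp.finsetSum_apply, Finset.sum_mul]
    exact Finset.sum_congr rfl fun i hi => h1 i hi w
  · have key : ∀ w, (∑ i ∈ s, ψ i w) ^ (2 * h) ≤
        (s.card : ℝ) ^ (2 * h - 1) * ∑ i ∈ s, ψ i w ^ (2 * h) := by
      intro w
      have a1 : (∑ i ∈ s, ψ i w) ^ (2 * h) ≤ (∑ i ∈ s, |ψ i w|) ^ (2 * h) := by
        rw [← (even_two_mul h).pow_abs]
        exact pow_le_pow_left₀ (abs_nonneg _) (Finset.abs_sum_le_sum_abs _ _) _
      have a2 := pow_sum_le_card_mul_sum_pow (s := s) (f := fun i => |ψ i w|)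
        (fun i _ => abs_nonneg _) (2 * h - 1)
      have e : 2 * h - 1 + 1 = 2 * h := by omega
      rw [e] at a2
      refine a1.trans (a2.trans (le_of_eq ?_))
      congr 1
      exact Finset.sum_congr rfl fun i _ => by rw [(even_two_mul h).pow_abs]
    have step : (q.coeff.sum fun w r => r * (∑ i ∈ s, ψ i w) ^ (2 * h)) ≤
        (s.card : ℝ) ^ (2 * h - 1) * ∑ i ∈ s, q.coeff.sum fun w r => r * ψ i w ^ (2 * h) := by
      unfold Finsupp.sum
      rw [Finset.sum_comm, Finset.mul_sum]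
      refine Finset.sum_le_sum fun w _ => ?_
      refine (mul_le_mul_of_nonneg_left (key w) (hq w)).trans (le_of_eq ?_)
      rw [← Finset.mul_sum]
      ring
    refine step.trans ?_
    have s2 : ∑ i ∈ s, (q.coeff.sum fun w r => r * ψ i w ^ (2 * h)) ≤ s.card * β ^ h := by
      refine (Finset.sum_le_sum fun i hi => h2 i hi).trans (le_of_eq ?_)
      rw [Finset.sum_const, nsmul_eq_mul]
    refine (mul_le_mul_of_nonneg_left s2 (by positivity)).trans ?_
    have e : (s.card : ℝ) ^ (2 * h - 1) * (s.card * β ^ h) = (s.card : ℝ) ^ (2 * h) * β ^ h := by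
      rw [← mul_assoc, ← pow_succ]
      congr 2
      omega
    rw [e, mul_pow, ← pow_mul]
    refine mul_le_mul_of_nonneg_right ?_ (pow_nonneg hβ _)
    exact pow_le_pow_left₀ (by positivity) (by exact_mod_cast hN) _

end Vale.Agent.P321
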