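import Vale.Agent.P321.Basic

namespace Vale.Agent.P321

open Finset Polynomial

/-! ### central binomial bounds -/

theorem bp_central (j : ℕ) : ((Nat.centralBinom j : ℝ) / 4 ^ j) ^ 2 * (2 * j + 1) ≤ 1 := by
  induction j with
  | zero => simp
  | succ j ih =>
    have h1 : ((j : ℝ) + 1) * (Nat.centralBinom (j + 1) : ℝ) =
        2 * (2 * j + 1) * Nat.centralBinom j := by
      exact_mod_cast Nat.succ_mul_centralBinom_succ j
    have h2 : (Nat.centralBinom (j + 1) : ℝ) / 4 ^ (j + 1) =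
        (Nat.centralBinom j : ℝ) / 4 ^ j * ((2 * j + 1) / (2 * j + 2)) := by
      have h3 : (Nat.centralBinom (j + 1) : ℝ) =
          2 * (2 * j + 1) * Nat.centralBinom j / (j + 1) := by
        rw [eq_div_iff (by positivity)]; linarith
      rw [h3, pow_succ]
      field_simp
      ring
    rw [h2, mul_pow]
    have h4 : ((2 * (j : ℝ) + 1) / (2 * j + 2)) ^ 2 * (2 * (j + 1 : ℕ) + 1) ≤ 2 * j + 1 := by
      push_cast
      rw [div_pow, div_mul_eq_mul_div, div_le_iff₀ (by positivity)]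
      nlinarith [show (0 : ℝ) ≤ j by positivity]
    calc ((Nat.centralBinom j : ℝ) / 4 ^ j) ^ 2 * ((2 * (j : ℝ) + 1) / (2 * j + 2)) ^ 2 *
          (2 * (j + 1 : ℕ) + 1)
        = ((Nat.centralBinom j : ℝ) / 4 ^ j) ^ 2 *
          (((2 * (j : ℝ) + 1) / (2 * j + 2)) ^ 2 * (2 * (j + 1 : ℕ) + 1)) := by ring
      _ ≤ ((Nat.centralBinom j : ℝ) / 4 ^ j) ^ 2 * (2 * j + 1) := by gcongr
      _ ≤ 1 := ih

theorem bp_central_le (j : ℕ) :
    (Nat.centralBinom j : ℝ) / 4 ^ j ≤ 1 / Real.sqrt (2 * (j : ℝ) + 1) := by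
  have h := bp_central j
  have h0 : (0 : ℝ) < 2 * j + 1 := by positivity
  rw [le_div_iff₀ (Real.sqrt_pos.2 h0)]
  have h1 : ((Nat.centralBinom j : ℝ) / 4 ^ j * Real.sqrt (2 * (j : ℝ) + 1)) ^ 2 ≤ 1 ^ 2 := by
    rw [mul_pow, Real.sq_sqrt h0.le, one_pow]; exact h
  exact (abs_le.1 (abs_le_of_sq_le_sq h1 (by norm_num))).2

theorem bp_central_le' (j : ℕ) :
    (Nat.centralBinom j : ℝ) / 4 ^ j ≤ 1 / Real.sqrt ((j : ℝ) + 1) := by
  refine (bp_central_le j).trans ?_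
  have : (j : ℝ) + 1 ≤ 2 * j + 1 := by
    have : (0 : ℝ) ≤ j := by positivity
    linarith
  gcongr

theorem bp_half (j : ℕ) : ((j.choose (j / 2) : ℝ)) / 2 ^ j ≤ 1 / Real.sqrt ((j : ℝ) + 1) := by
  rcases Nat.even_or_odd' j with ⟨m, hm | hm⟩
  · have e1 : j / 2 = m := by omega
    rw [e1, hm]
    have e2 : ((2 * m).choose m : ℝ) / 2 ^ (2 * m) = (Nat.centralBinom m : ℝ) / 4 ^ m := by
      rw [pow_mul, Nat.centralBinom]; norm_num
    rw [e2]
    refine (bp_central_le m).trans ?_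
    push_cast; exact le_rfl
  · have e1 : j / 2 = m := by omega
    rw [e1, hm]
    have e2 : Nat.centralBinom (m + 1) = 2 * (2 * m + 1).choose m := by
      rw [Nat.centralBinom, show 2 * (m + 1) = 2 * m + 1 + 1 by ring, Nat.choose_succ_succ' ,
        Nat.choose_symm_half]
      ring
    have e3 : ((2 * m + 1).choose m : ℝ) / 2 ^ (2 * m + 1) =
        (Nat.centralBinom (m + 1) : ℝ) / 4 ^ (m + 1) := by
      rw [e2]
      push_cast
      rw [show (4 : ℝ) ^ (m + 1) = 2 ^ (2 * m + 1) * 2 by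
        rw [← pow_succ, show (4 : ℝ) = 2 ^ 2 by norm_num, ← pow_mul]; ring_nf]
      field_simp
    rw [e3]
    refine (bp_central_le (m + 1)).trans ?_
    push_cast
    have : (2 * (m : ℝ) + 1 + 1) ≤ 2 * (m + 1) + 1 := by linarith
    gcongr

/-! ### norms of polynomials -/

theorem l1p_eq (γ : ℝ[X]) {n : ℕ} (hn : γ.natDegree ≤ n) :
    l1p γ = ∑ t ∈ range (n + 1), |γ.coeff t| := by
  unfold l1p
  exact Polynomial.sum_over_range' γ (by simp) (n + 1) (by omega)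

theorem l2p_eq (γ : ℝ[X]) {n : ℕ} (hn : γ.natDegree ≤ n) :
    l2p γ = ∑ t ∈ range (n + 1), γ.coeff t ^ 2 := by
  unfold l2p
  exact Polynomial.sum_over_range' γ (by simp) (n + 1) (by omega)

theorem l1p_nonneg (γ : ℝ[X]) : 0 ≤ l1p γ := by
  rw [l1p_eq γ le_rfl]
  exact Finset.sum_nonneg fun _ _ => abs_nonneg _

theorem bp_add_le (γ δ : ℝ[X]) : l1p (γ + δ) ≤ l1p γ + l1p δ := by
  have h1 : (γ + δ).natDegree ≤ max γ.natDegree δ.natDegree := natDegree_add_le _ _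
  rw [l1p_eq _ h1, l1p_eq γ (le_max_left γ.natDegree δ.natDegree),
    l1p_eq δ (le_max_right γ.natDegree δ.natDegree), ← Finset.sum_add_distrib]
  exact Finset.sum_le_sum fun t _ => by
    rw [coeff_add]; exact abs_add_le _ _

@[simp] theorem bp_zero : l1p 0 = 0 := by simp [l1p]

theorem bp_sum_le {ι : Type*} (s : Finset ι) (F : ι → ℝ[X]) :
    l1p (∑ i ∈ s, F i) ≤ ∑ i ∈ s, l1p (F i) := by
  classical
  induction s using Finset.induction_on with
  | empty => simp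
  | insert i s hi ih =>
    rw [Finset.sum_insert hi, Finset.sum_insert hi]
    exact (bp_add_le _ _).trans (by linarith)

theorem bp_C_mul (c : ℝ) (γ : ℝ[X]) : l1p (C c * γ) = |c| * l1p γ := by
  have h1 : (C c * γ).natDegree ≤ γ.natDegree := natDegree_C_mul_le _ _
  rw [l1p_eq _ h1, l1p_eq γ le_rfl, Finset.mul_sum]
  exact Finset.sum_congr rfl fun t _ => by rw [coeff_C_mul, abs_mul]

theorem bp_mul_X (γ : ℝ[X]) : l1p (γ * X) = l1p γ := by
  have h1 : (γ * X).natDegree ≤ γ.natDegree + 1 := by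
    refine natDegree_mul_le.trans ?_
    simp
  rw [l1p_eq _ h1, l1p_eq γ le_rfl, Finset.sum_range_succ']
  simp

theorem bp_mul_X_pow (γ : ℝ[X]) (i : ℕ) : l1p (γ * X ^ i) = l1p γ := by
  induction i with
  | zero => simp
  | succ i ih => rw [pow_succ, ← mul_assoc, bp_mul_X, ih]

theorem l1p_mul_le (γ δ : ℝ[X]) : l1p (γ * δ) ≤ l1p γ * l1p δ := by
  have h : γ * δ = ∑ i ∈ range (γ.natDegree + 1), C (γ.coeff i) * (δ * X ^ i) := by
    conv_lhs => rw [Polynomial.as_sum_range_C_mul_X_pow γ]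
    rw [Finset.sum_mul]
    exact Finset.sum_congr rfl fun i _ => by ring
  rw [h, l1p_eq γ le_rfl, Finset.sum_mul]
  refine (bp_sum_le _ _).trans (Finset.sum_le_sum fun i _ => ?_)
  rw [bp_C_mul, bp_mul_X_pow]

theorem bp_pow_le (γ : ℝ[X]) {c : ℝ} (hc : l1p γ ≤ c) (n : ℕ) : l1p (γ ^ n) ≤ c ^ n := by
  have hc0 : 0 ≤ c := (l1p_nonneg γ).trans hc
  induction n with
  | zero =>
    have : l1p (1 : ℝ[X]) = 1 := by
      rw [l1p_eq (1 : ℝ[X]) (n := 0) (by simp)]; simp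
    simp [this]
  | succ n ih =>
    rw [pow_succ, pow_succ]
    exact (l1p_mul_le _ _).trans (mul_le_mul ih hc (l1p_nonneg _) (by positivity))

/-! ### powers of `hX` -/

theorem bp_hX_pow (j : ℕ) : hX ^ j = C (1 / 2 ^ j) * (1 + X) ^ j := by
  unfold hX
  rw [mul_pow, ← C_pow]
  congr 2
  rw [div_pow, one_pow]

theorem bp_hX_coeff (j t : ℕ) : (hX ^ j).coeff t = (j.choose t : ℝ) / 2 ^ j := by
  rw [bp_hX_pow, coeff_C_mul, add_comm, coeff_X_add_one_pow]
  ring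

theorem bp_hX_natDegree (j : ℕ) : (hX ^ j).natDegree ≤ j := by
  rw [natDegree_le_iff_coeff_eq_zero]
  intro N hN
  rw [bp_hX_coeff, Nat.choose_eq_zero_of_lt hN]
  simp

theorem bp_l1_hX : l1p hX ≤ 1 := by
  have h := bp_hX_natDegree 1
  rw [pow_one] at h
  rw [l1p_eq _ h]
  have h0 := bp_hX_coeff 1 0
  have h1 := bp_hX_coeff 1 1
  rw [pow_one] at h0 h1
  rw [Finset.sum_range_succ, Finset.sum_range_succ, Finset.sum_range_zero, h0, h1]
  norm_num

theorem bp_D_natDegree (j : ℕ) : ((X - 1) * hX ^ j : ℝ[X]).natDegree ≤ j + 1 := by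
  refine natDegree_mul_le.trans ?_
  have h1 : (X - 1 : ℝ[X]).natDegree ≤ 1 := by
    refine (natDegree_sub_le _ _).trans ?_
    simp
  have h2 := bp_hX_natDegree j
  omega

theorem bp_D_coeff_zero (j : ℕ) : ((X - 1) * hX ^ j : ℝ[X]).coeff 0 = -(1 / 2 ^ j) := by
  rw [sub_mul, one_mul, coeff_sub, coeff_X_mul_zero, bp_hX_coeff]
  simp

theorem bp_D_coeff_succ (j t : ℕ) : ((X - 1) * hX ^ j : ℝ[X]).coeff (t + 1) =
    ((j.choose t : ℝ) - j.choose (t + 1)) / 2 ^ j := by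
  rw [sub_mul, one_mul, coeff_sub, coeff_X_mul, bp_hX_coeff, bp_hX_coeff]
  ring

/-- total variation of a unimodal sequence -/
theorem bp_unimodal (f : ℕ → ℝ) (h n : ℕ) (hn : h ≤ n) (h1 : ∀ t, t < h → f t ≤ f (t + 1))
    (h2 : ∀ t, h ≤ t → f (t + 1) ≤ f t) :
    ∑ t ∈ range n, |f t - f (t + 1)| = 2 * f h - f 0 - f n := by
  have key : ∀ m, m ≤ h → ∑ t ∈ range m, |f t - f (t + 1)| = f m - f 0 := by
    intro m hm
    induction m with
    | zero => simp
    | succ m ih =>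
      rw [Finset.sum_range_succ, ih (by omega), abs_of_nonpos (by linarith [h1 m (by omega)])]
      ring
  induction n, hn using Nat.le_induction with
  | base => rw [key h le_rfl]; ring
  | succ m hm ih =>
    rw [Finset.sum_range_succ, ih, abs_of_nonneg (by linarith [h2 m hm])]
    ring

/-- The `l1` norm of `(X-1)((1+X)/2)^j` is `2 C(j, j/2)/2^j`. -/
theorem l1_diff (j : ℕ) : l1p ((X - 1) * hX ^ j) ≤ 2 / Real.sqrt ((j : ℝ) + 1) := by
  have h1 : ∀ t, t < j / 2 → (j.choose t : ℝ) ≤ j.choose (t + 1) := fun t ht => by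
    exact_mod_cast Nat.choose_le_succ_of_lt_half_left ht
  have h2 : ∀ t, j / 2 ≤ t → (j.choose (t + 1) : ℝ) ≤ j.choose t := fun t ht => by
    have e := Nat.choose_succ_right_eq j t
    have e2 : j.choose t * (j - t) ≤ j.choose t * (t + 1) := Nat.mul_le_mul_left _ (by omega)
    rw [← e] at e2
    exact_mod_cast Nat.le_of_mul_le_mul_right e2 (by omega)
  have key := bp_unimodal (fun t => (j.choose t : ℝ)) (j / 2) (j + 1) (by omega) h1 h2
  rw [l1p_eq _ (bp_D_natDegree j), Finset.sum_range_succ', bp_D_coeff_zero]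
  have h3 : ∑ t ∈ range (j + 1), |((X - 1) * hX ^ j : ℝ[X]).coeff (t + 1)| =
      (2 * (j.choose (j / 2) : ℝ) - 1) / 2 ^ j := by
    have h4 : ∀ t ∈ range (j + 1), |((X - 1) * hX ^ j : ℝ[X]).coeff (t + 1)| =
        |(j.choose t : ℝ) - j.choose (t + 1)| / 2 ^ j := fun t _ => by
      rw [bp_D_coeff_succ, abs_div, abs_of_pos (show (0 : ℝ) < 2 ^ j by positivity)]
    rw [Finset.sum_congr rfl h4, ← Finset.sum_div, key]
    simp
  rw [h3, abs_neg, abs_of_pos (by positivity)]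
  have h5 := bp_half j
  have h6 : (2 * (j.choose (j / 2) : ℝ) - 1) / 2 ^ j + 1 / 2 ^ j =
      2 * ((j.choose (j / 2) : ℝ) / 2 ^ j) := by ring
  rw [h6]
  calc 2 * ((j.choose (j / 2) : ℝ) / 2 ^ j) ≤ 2 * (1 / Real.sqrt ((j : ℝ) + 1)) := by gcongr
    _ = _ := by ring

/-- coefficient `j+1` of `((X-1)(1+X)^j)^2` -/
theorem bp_sq_coeff (j : ℕ) :
    (((X - 1) * (1 + X) ^ j) ^ 2 : ℝ[X]).coeff (j + 1) =
      2 * ((2 * j).choose (j + 1) : ℝ) - 2 * (2 * j).choose j := by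
  have e : (((X - 1) * (1 + X) ^ j) ^ 2 : ℝ[X]) =
      (X + 1) ^ (2 * j) * X * X - 2 * ((X + 1) ^ (2 * j) * X) + (X + 1) ^ (2 * j) := by
    rw [mul_pow, ← pow_mul, mul_comm j 2, add_comm (1 : ℝ[X]) X]; ring
  rw [e]
  cases j with
  | zero =>
    simp [coeff_one, coeff_X]
  | succ j =>
    have h2 : (2 : ℝ[X]) * ((X + 1) ^ (2 * (j + 1)) * X) =
        C 2 * ((X + 1) ^ (2 * (j + 1)) * X) := by
      rw [show (C 2 : ℝ[X]) = 2 from rfl]
    rw [coeff_add, coeff_sub, h2, coeff_C_mul, coeff_mul_X, coeff_mul_X, coeff_mul_X,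
      coeff_X_add_one_pow, coeff_X_add_one_pow, coeff_X_add_one_pow]
    have h3 : (2 * (j + 1)).choose j = (2 * (j + 1)).choose (j + 1 + 1) := by
      apply Nat.choose_symm_of_eq_add
      ring
    rw [h3]
    ring

theorem bp_D_antisymm (j t : ℕ) (ht : t ≤ j + 1) :
    ((X - 1) * (1 + X) ^ j : ℝ[X]).coeff (j + 1 - t) =
      -((X - 1) * (1 + X) ^ j : ℝ[X]).coeff t := by
  have e : ((X - 1) * (1 + X) ^ j : ℝ[X]) = (X + 1) ^ j * X - (X + 1) ^ j := by ring
  rw [e, coeff_sub, coeff_sub, coeff_X_add_one_pow, coeff_X_add_one_pow]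
  rcases t with _ | t
  · simp [coeff_X_add_one_pow]
  · rw [coeff_mul_X, coeff_X_add_one_pow]
    have h1 : j + 1 - (t + 1) = j - t := by omega
    rw [h1, Nat.choose_symm (by omega)]
    by_cases h2 : t = j
    · subst h2
      simp
    · obtain ⟨s, hs⟩ : ∃ s, j - t = s + 1 := ⟨j - t - 1, by omega⟩
      rw [hs, coeff_mul_X, coeff_X_add_one_pow]
      have h3 : j.choose s = j.choose (t + 1) := by
        apply Nat.choose_symm_of_eq_add
        omega
      rw [h3]; ring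

theorem bp_l2_eq (j : ℕ) : ∑ t ∈ range (j + 2), ((X - 1) * (1 + X) ^ j : ℝ[X]).coeff t ^ 2 =
    2 * ((2 * j).choose j : ℝ) / (j + 1) := by
  have h1 : ∑ t ∈ range (j + 2), ((X - 1) * (1 + X) ^ j : ℝ[X]).coeff t ^ 2 =
      -(((X - 1) * (1 + X) ^ j) ^ 2 : ℝ[X]).coeff (j + 1) := by
    rw [pow_two ((X - 1) * (1 + X) ^ j : ℝ[X]), coeff_mul,
      Finset.Nat.sum_antidiagonal_eq_sum_range_succ_mk, ← Finset.sum_neg_distrib]
    refine Finset.sum_congr rfl fun t ht => ?_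
    rw [Finset.mem_range] at ht
    rw [bp_D_antisymm j t (by omega)]
    ring
  rw [h1, bp_sq_coeff]
  have h2 : ((2 * j).choose (j + 1) : ℝ) * (j + 1) = (2 * j).choose j * j := by
    have := Nat.choose_succ_right_eq (2 * j) j
    rw [show 2 * j - j = j by omega] at this
    exact_mod_cast this
  rw [eq_div_iff (by positivity)]
  linarith

/-- The squared `l2` norm of `(X-1)((1+X)/2)^j` is `2 C(2j,j)/((j+1) 4^j)`. -/
theorem l2_diff (j : ℕ) : l2p ((X - 1) * hX ^ j) ≤ 2 / (((j : ℝ) + 1) * Real.sqrt ((j : ℝ) + 1)) := by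
  rw [l2p_eq _ (bp_D_natDegree j)]
  have h1 : ∀ t ∈ range (j + 1 + 1), ((X - 1) * hX ^ j : ℝ[X]).coeff t ^ 2 =
      ((X - 1) * (1 + X) ^ j : ℝ[X]).coeff t ^ 2 / 4 ^ j := fun t _ => by
    have e : ((X - 1) * hX ^ j : ℝ[X]) = C (1 / 2 ^ j) * ((X - 1) * (1 + X) ^ j) := by
      rw [bp_hX_pow]; ring
    rw [e, coeff_C_mul, mul_pow, div_pow, one_pow, ← pow_mul, mul_comm j 2, pow_mul]
    norm_num
    ring
  rw [Finset.sum_congr rfl h1, ← Finset.sum_div, bp_l2_eq]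
  have h2 := bp_central_le' j
  have h3 : 2 * ((2 * j).choose j : ℝ) / (j + 1) / 4 ^ j =
      2 / (j + 1) * ((Nat.centralBinom j : ℝ) / 4 ^ j) := by
    rw [Nat.centralBinom]; field_simp
  rw [h3]
  have h4 : 2 / (((j : ℝ) + 1) * Real.sqrt ((j : ℝ) + 1)) =
      2 / (j + 1) * (1 / Real.sqrt ((j : ℝ) + 1)) := by
    rw [div_mul_div_comm, mul_one]
  rw [h4]
  gcongr

/-! ### Thue-Morse -/

theorem bp_tm_even (a : ℕ) : tm (2 * a) = tm a := by
  unfold tm
  rcases Nat.eq_zero_or_pos a with h | h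
  · subst h; simp
  · have := Nat.digits_add 2 (by norm_num) 0 a (by norm_num) (Or.inr h.ne')
    rw [zero_add] at this
    rw [this]; simp

theorem bp_tm_odd (a : ℕ) : tm (2 * a + 1) = -tm a := by
  unfold tm
  have := Nat.digits_add 2 (by norm_num) 1 a (by norm_num) (Or.inl one_ne_zero)
  rw [add_comm (2 * a) 1, this, List.sum_cons]
  rcases Nat.mod_two_eq_zero_or_one (Nat.digits 2 a).sum with h | h
  · have h2 : (1 + (Nat.digits 2 a).sum) % 2 = 1 := by omega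
    rw [h, h2]; norm_num
  · have h2 : (1 + (Nat.digits 2 a).sum) % 2 = 0 := by omega
    rw [h, h2]; norm_num

theorem bp_tmP_succ (m : ℕ) : tmP (m + 1) = expand ℝ 2 (tmP m) * (1 - X) := by
  unfold tmP
  rw [Finset.prod_range_succ']
  congr 1
  · rw [map_prod]
    refine Finset.prod_congr rfl fun i _ => ?_
    simp only [map_sub, map_one, map_pow, expand_X]
    rw [← pow_mul, pow_succ, mul_comm]
  · simp

theorem tmP_coeff (m i : ℕ) : (tmP m).coeff i = if i < 2 ^ m then tm i else 0 := by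
  induction m generalizing i with
  | zero =>
    unfold tmP
    simp only [Finset.range_zero, Finset.prod_empty, coeff_one, pow_zero, Nat.lt_one_iff]
    by_cases h : i = 0
    · subst h; simp [tm]
    · simp [h, Ne.symm h]
  | succ m ih =>
    rw [bp_tmP_succ, mul_sub, mul_one, coeff_sub]
    rcases Nat.even_or_odd' i with ⟨a, ha | ha⟩
    · have h1 : (expand ℝ 2 (tmP m)).coeff (2 * a) = (tmP m).coeff a := by
        rw [mul_comm, coeff_expand_mul (by norm_num)]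
      have h2 : (expand ℝ 2 (tmP m) * X).coeff (2 * a) = 0 := by
        rcases a with _ | a
        · simp
        · rw [show 2 * (a + 1) = 2 * a + 1 + 1 by ring, coeff_mul_X,
            coeff_expand (by norm_num), if_neg (by omega)]
      rw [ha, h1, h2, ih, sub_zero, bp_tm_even]
      have : (2 * a < 2 ^ (m + 1)) ↔ (a < 2 ^ m) := by rw [pow_succ]; omega
      simp [this]
    · have h1 : (expand ℝ 2 (tmP m)).coeff (2 * a + 1) = 0 := by
        rw [coeff_expand (by norm_num), if_neg (by omega)]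
      have h2 : (expand ℝ 2 (tmP m) * X).coeff (2 * a + 1) = (tmP m).coeff a := by
        rw [coeff_mul_X, mul_comm, coeff_expand_mul (by norm_num)]
      rw [ha, h1, h2, ih, zero_sub, bp_tm_odd]
      have : (2 * a + 1 < 2 ^ (m + 1)) ↔ (a < 2 ^ m) := by rw [pow_succ]; omega
      by_cases h : a < 2 ^ m
      · simp [this, h]
      · simp [this, h]

theorem tmP_natDegree (m : ℕ) : (tmP m).natDegree ≤ 2 ^ m - 1 := by
  rw [natDegree_le_iff_coeff_eq_zero]
  intro N hN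
  rw [tmP_coeff, if_neg (by omega)]

/-- `tmP n = (1-X)^n R` -/
theorem bp_tmP_dvd (n : ℕ) : ∃ R : ℝ[X], tmP n = (1 - X) ^ n * R := by
  have h : (1 - X : ℝ[X]) ^ n ∣ tmP n := by
    unfold tmP
    have h1 : (1 - X : ℝ[X]) ^ n = ∏ _i ∈ range n, (1 - X : ℝ[X]) := by simp
    rw [h1]
    refine Finset.prod_dvd_prod_of_dvd _ _ fun i _ => ?_
    have := sub_dvd_pow_sub_pow (1 : ℝ[X]) X (2 ^ i)
    rwa [one_pow] at this
  obtain ⟨R, hR⟩ := h
  exact ⟨R, hR⟩

theorem bp_hX_le (j : ℕ) : l1p (hX ^ j) ≤ 1 := by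
  have := bp_pow_le hX bp_l1_hX j
  simpa using this

theorem bp_E_le (a : ℕ) : l1p ((1 - X) * hX ^ a) ≤ 2 / Real.sqrt ((a : ℝ) + 1) := by
  have e : ((1 - X) * hX ^ a : ℝ[X]) = C (-1) * ((X - 1) * hX ^ a) := by
    rw [show (C (-1) : ℝ[X]) = -1 by simp]; ring
  rw [e, bp_C_mul]
  have := l1_diff a
  simpa using this

/-- `tmP (2k) = (1-X)^(2k) R`, and `(1-X)^(2k) ((1+X)/2)^j` splits into `2k` factors
`(1-X)((1+X)/2)^(j/(2k))` each of `l1` norm `≤ 2/sqrt(j/(2k)+1)`. -/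
theorem l1_tm (k : ℕ) : ∃ C : ℝ, 0 < C ∧ ∀ j : ℕ,
    l1p (tmP (2 * k) * hX ^ j) ≤ C / ((j : ℝ) + 1) ^ k := by
  rcases Nat.eq_zero_or_pos k with hk | hk
  · subst hk
    refine ⟨1, one_pos, fun j => ?_⟩
    have : tmP (2 * 0) = 1 := by simp [tmP]
    rw [this, one_mul]
    simpa using bp_hX_le j
  obtain ⟨R, hR⟩ := bp_tmP_dvd (2 * k)
  have hk0 : (0 : ℝ) < k := by exact_mod_cast hk
  refine ⟨(l1p R + 1) * (8 * k) ^ k, by have := l1p_nonneg R; positivity, fun j => ?_⟩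
  obtain ⟨a, ha⟩ : ∃ a, a = j / (2 * k) := ⟨_, rfl⟩
  obtain ⟨b, hb⟩ : ∃ b, b = j % (2 * k) := ⟨_, rfl⟩
  have hj : j = a * (2 * k) + b := by
    rw [ha, hb]; exact (Nat.div_add_mod' j (2 * k)).symm
  have hb2 : b < 2 * k := by rw [hb]; exact Nat.mod_lt _ (by omega)
  have h1 : tmP (2 * k) * hX ^ j = R * (((1 - X) * hX ^ a) ^ (2 * k) * hX ^ b) := by
    rw [hR, mul_pow, ← pow_mul, hj, pow_add]; ring
  have h2 : l1p (((1 - X) * hX ^ a) ^ (2 * k) * hX ^ b) ≤
      (2 / Real.sqrt ((a : ℝ) + 1)) ^ (2 * k) := by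
    have e1 := bp_pow_le _ (bp_E_le a) (2 * k)
    have e2 := bp_hX_le b
    calc l1p (((1 - X) * hX ^ a) ^ (2 * k) * hX ^ b)
        ≤ l1p (((1 - X) * hX ^ a) ^ (2 * k)) * l1p (hX ^ b) := l1p_mul_le _ _
      _ ≤ (2 / Real.sqrt ((a : ℝ) + 1)) ^ (2 * k) * 1 :=
          mul_le_mul e1 e2 (l1p_nonneg _) (by positivity)
      _ = _ := mul_one _
  have h3 : (2 / Real.sqrt ((a : ℝ) + 1)) ^ (2 * k) = (4 / ((a : ℝ) + 1)) ^ k := by
    rw [pow_mul, div_pow, Real.sq_sqrt (by positivity)]; norm_num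
  have h4 : (4 / ((a : ℝ) + 1)) ^ k ≤ (8 * k) ^ k / ((j : ℝ) + 1) ^ k := by
    rw [← div_pow]
    have h5 : (j : ℝ) + 1 ≤ 2 * k * (a + 1) := by
      have : j + 1 ≤ 2 * k * (a + 1) := by
        rw [hj]; nlinarith
      exact_mod_cast this
    have h6 : 4 / ((a : ℝ) + 1) ≤ 8 * k / ((j : ℝ) + 1) := by
      rw [div_le_div_iff₀ (by positivity) (by positivity)]
      linarith
    gcongr
  rw [h1]
  calc l1p (R * (((1 - X) * hX ^ a) ^ (2 * k) * hX ^ b))
      ≤ l1p R * l1p (((1 - X) * hX ^ a) ^ (2 * k) * hX ^ b) := l1p_mul_le _ _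
    _ ≤ (l1p R + 1) * ((8 * k) ^ k / ((j : ℝ) + 1) ^ k) := by
        refine mul_le_mul (by linarith) ?_ (l1p_nonneg _) (by have := l1p_nonneg R; positivity)
        rw [h3] at h2
        exact h2.trans h4
    _ = _ := by ring

end Vale.Agent.P321
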