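import Vale.Agent.P321.Basic
import Vale.Agent.P321.BinomPoly

namespace Vale.Agent.P321

open Finset Polynomial

theorem bw_nonneg {H : ℕ} {t : ℝ} (h0 : 0 ≤ t) (h1 : t ≤ 1) (j : ℕ) : 0 ≤ bw H t j := by
  unfold bw
  have : 0 ≤ 1 - t := by linarith
  positivity

theorem bw_sum (H : ℕ) (t : ℝ) : ∑ j ∈ range (H + 1), bw H t j = 1 := by
  have h := add_pow t (1 - t) H
  have e : t + (1 - t) = 1 := by ring
  rw [e, one_pow] at h
  rw [h]
  exact Finset.sum_congr rfl fun j _ => by unfold bw; ring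

theorem bi_bw_top (H : ℕ) (t : ℝ) : bw H t (H + 1) = 0 := by
  unfold bw; simp

theorem bi_bw_succ (H : ℕ) (t : ℝ) (j : ℕ) (hj : j ≤ H) :
    bw (H + 1) t (j + 1) = t * bw H t j + (1 - t) * bw H t (j + 1) := by
  unfold bw
  have e1 : H + 1 - (j + 1) = H - j := by omega
  rw [e1, Nat.choose_succ_succ', Nat.cast_add, pow_succ]
  rcases Nat.lt_or_ge j H with h | h
  · have e2 : H - j = (H - (j + 1)) + 1 := by omega
    rw [e2, pow_succ (1 - t)]
    ring
  · have e3 : j = H := le_antisymm hj h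
    subst e3
    simp
    ring

theorem bi_bw_zero (H : ℕ) (t : ℝ) : bw (H + 1) t 0 = (1 - t) * bw H t 0 := by
  unfold bw
  simp [pow_succ]; ring

/-- recursion used in the coin arguments: for every `F`,
`∑_j bw (H+1) t j F j = t ∑_j bw H t j F (j+1) + (1-t) ∑_j bw H t j F j`. -/
theorem bw_rec (H : ℕ) (t : ℝ) (F : ℕ → ℝ) :
    ∑ j ∈ range (H + 2), bw (H + 1) t j * F j =
      t * ∑ j ∈ range (H + 1), bw H t j * F (j + 1) +
      (1 - t) * ∑ j ∈ range (H + 1), bw H t j * F j := by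
  have h2 : ∑ j ∈ range (H + 1), bw H t j * F j = ∑ j ∈ range (H + 2), bw H t j * F j := by
    rw [Finset.sum_range_succ _ (H + 1), bi_bw_top]; ring
  rw [h2, Finset.sum_range_succ' _ (H + 1), Finset.sum_range_succ' (fun j => bw H t j * F j) (H + 1),
    bi_bw_zero, mul_add, ← add_assoc, Finset.mul_sum, Finset.mul_sum, ← Finset.sum_add_distrib]
  congr 1
  · refine Finset.sum_congr rfl fun j hj => ?_
    rw [bi_bw_succ H t j (by have := Finset.mem_range.1 hj; omega)]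
    ring
  · ring

theorem bi_step (H : ℕ) {t : ℝ} (h0 : 0 < t) (j : ℕ) :
    bw H t j / ((j : ℝ) + 1) = bw (H + 1) t (j + 1) / (t * ((H : ℝ) + 1)) := by
  unfold bw
  have e1 : H + 1 - (j + 1) = H - j := by omega
  rw [e1]
  have e2 : ((H : ℝ) + 1) * (H.choose j : ℝ) = ((H + 1).choose (j + 1) : ℝ) * ((j : ℝ) + 1) := by
    exact_mod_cast Nat.add_one_mul_choose_eq H j
  have hj : (0 : ℝ) < (j : ℝ) + 1 := by positivity
  have hH : (0 : ℝ) < (H : ℝ) + 1 := by positivity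
  rw [div_eq_div_iff hj.ne' (by positivity)]
  rw [pow_succ]
  linear_combination (t * t ^ j * (1 - t) ^ (H - j)) * e2

theorem bi_inv_asc (r : ℕ) {t : ℝ} (h0 : 0 < t) (h1 : t ≤ 1) (H : ℕ) :
    ∑ j ∈ range (H + 1), bw H t j / ((j + 1).ascFactorial r : ℝ) ≤
      1 / (t * ((H : ℝ) + 1)) ^ r := by
  induction r generalizing H with
  | zero => simp [bw_sum]
  | succ r ih =>
    have e1 : ∀ j : ℕ, ((j + 1).ascFactorial (r + 1) : ℝ) =
        ((j : ℝ) + 1) * ((j + 1 + 1).ascFactorial r : ℝ) := by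
      intro j
      have h2 := Nat.succ_ascFactorial (j + 1) r
      have h3 : (j + 1).ascFactorial (r + 1) = (j + 1) * (j + 1 + 1).ascFactorial r := by
        rw [Nat.ascFactorial_succ]; exact h2.symm
      rw [h3]; push_cast; ring
    have hH : (0 : ℝ) < t * ((H : ℝ) + 1) := by positivity
    have e2 : ∑ j ∈ range (H + 1), bw H t j / ((j + 1).ascFactorial (r + 1) : ℝ) =
        (1 / (t * ((H : ℝ) + 1))) *
          ∑ j ∈ range (H + 1), bw (H + 1) t (j + 1) / ((j + 1 + 1).ascFactorial r : ℝ) := by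
      rw [Finset.mul_sum]
      refine Finset.sum_congr rfl fun j _ => ?_
      rw [e1 j, ← div_div, bi_step H h0 j]
      ring
    have e3 : ∑ j ∈ range (H + 1), bw (H + 1) t (j + 1) / ((j + 1 + 1).ascFactorial r : ℝ) ≤
        ∑ j ∈ range (H + 1 + 1), bw (H + 1) t j / ((j + 1).ascFactorial r : ℝ) := by
      rw [Finset.sum_range_succ' _ (H + 1)]
      have : 0 ≤ bw (H + 1) t 0 / ((0 + 1).ascFactorial r : ℝ) :=
        div_nonneg (bw_nonneg h0.le h1 0) (Nat.cast_nonneg _)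
      linarith
    rw [e2]
    have e4 := ih (H + 1)
    have hpos : 0 ≤ 1 / (t * ((H : ℝ) + 1)) := by positivity
    have e5 : 1 / (t * (((H + 1 : ℕ) : ℝ) + 1)) ^ r ≤ 1 / (t * ((H : ℝ) + 1)) ^ r := by
      apply one_div_le_one_div_of_le (pow_pos hH r)
      refine pow_le_pow_left₀ hH.le ?_ r
      push_cast
      nlinarith
    calc (1 / (t * ((H : ℝ) + 1))) *
          ∑ j ∈ range (H + 1), bw (H + 1) t (j + 1) / ((j + 1 + 1).ascFactorial r : ℝ)
        ≤ (1 / (t * ((H : ℝ) + 1))) * (1 / (t * ((H : ℝ) + 1)) ^ r) :=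
          mul_le_mul_of_nonneg_left ((e3.trans e4).trans e5) hpos
      _ = 1 / (t * ((H : ℝ) + 1)) ^ (r + 1) := by
          rw [pow_succ]; field_simp

theorem bi_asc_le (j r : ℕ) : (j + 1).ascFactorial r ≤ r.factorial * (j + 1) ^ r := by
  induction r with
  | zero => simp
  | succ r ih =>
    rw [Nat.ascFactorial_succ, Nat.factorial_succ, pow_succ]
    have h1 : j + 1 + r ≤ (r + 1) * (j + 1) := by nlinarith
    calc (j + 1 + r) * (j + 1).ascFactorial r
        ≤ ((r + 1) * (j + 1)) * (r.factorial * (j + 1) ^ r) := Nat.mul_le_mul h1 ih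
      _ = (r + 1) * r.factorial * ((j + 1) ^ r * (j + 1)) := by ring

/-- inverse moments: `(j+1)^r r! ≥ (j+1)...(j+r)` and
`E 1/((j+1)...(j+r)) ≤ 1/((H+1)...(H+r) t^r)`. -/
theorem inv_moment (H r : ℕ) {t : ℝ} (h0 : 0 < t) (h1 : t ≤ 1) :
    ∑ j ∈ range (H + 1), bw H t j * (1 / ((j : ℝ) + 1) ^ r) ≤
      (r.factorial : ℝ) / (t * ((H : ℝ) + 1)) ^ r := by
  have h2 := bi_inv_asc r h0 h1 H
  have h3 : ∑ j ∈ range (H + 1), bw H t j * (1 / ((j : ℝ) + 1) ^ r) ≤
      (r.factorial : ℝ) * ∑ j ∈ range (H + 1), bw H t j / ((j + 1).ascFactorial r : ℝ) := by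
    rw [Finset.mul_sum]
    refine Finset.sum_le_sum fun j _ => ?_
    have hb := bw_nonneg (H := H) h0.le h1 j
    have hasc : (0 : ℝ) < ((j + 1).ascFactorial r : ℝ) := by
      exact_mod_cast Nat.ascFactorial_pos j r
    have hle : ((j + 1).ascFactorial r : ℝ) ≤ (r.factorial : ℝ) * ((j : ℝ) + 1) ^ r := by
      exact_mod_cast bi_asc_le j r
    have h4 : 1 / ((j : ℝ) + 1) ^ r ≤ (r.factorial : ℝ) / ((j + 1).ascFactorial r : ℝ) := by
      rw [div_le_div_iff₀ (by positivity) hasc]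
      linarith
    calc bw H t j * (1 / ((j : ℝ) + 1) ^ r)
        ≤ bw H t j * ((r.factorial : ℝ) / ((j + 1).ascFactorial r : ℝ)) :=
          mul_le_mul_of_nonneg_left h4 hb
      _ = (r.factorial : ℝ) * (bw H t j / ((j + 1).ascFactorial r : ℝ)) := by ring
  refine h3.trans ?_
  have h5 := mul_le_mul_of_nonneg_left h2 (Nat.cast_nonneg (α := ℝ) r.factorial)
  refine h5.trans (le_of_eq ?_)
  ring

/-- Jensen version. -/
theorem inv_sqrt_moment (H : ℕ) {t : ℝ} (h0 : 0 < t) (h1 : t ≤ 1) :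
    ∑ j ∈ range (H + 1), bw H t j * (1 / Real.sqrt ((j : ℝ) + 1)) ≤
      1 / Real.sqrt (t * ((H : ℝ) + 1)) := by
  have h2 := inv_moment H 1 h0 h1
  have h3 : (∑ j ∈ range (H + 1), bw H t j * (1 / Real.sqrt ((j : ℝ) + 1))) ^ 2 ≤
      (∑ j ∈ range (H + 1), bw H t j) *
        (∑ j ∈ range (H + 1), bw H t j * (1 / ((j : ℝ) + 1) ^ 1)) := by
    refine Finset.sum_sq_le_sum_mul_sum_of_sq_le_mul _ (fun j _ => bw_nonneg h0.le h1 j)
      (fun j _ => mul_nonneg (bw_nonneg h0.le h1 j) (by positivity)) (fun j _ => le_of_eq ?_)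
    have : (0 : ℝ) ≤ (j : ℝ) + 1 := by positivity
    rw [mul_pow, div_pow, Real.sq_sqrt this]
    ring
  rw [bw_sum, one_mul] at h3
  have h4 : (∑ j ∈ range (H + 1), bw H t j * (1 / Real.sqrt ((j : ℝ) + 1))) ^ 2 ≤
      (1 / Real.sqrt (t * ((H : ℝ) + 1))) ^ 2 := by
    refine h3.trans (h2.trans (le_of_eq ?_))
    have : (0 : ℝ) ≤ t * ((H : ℝ) + 1) := by positivity
    rw [div_pow, Real.sq_sqrt this]
    simp
  exact (abs_le.1 (abs_le_of_sq_le_sq h4 (by positivity))).2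

/-- `C(2j,j)/4^j ≤ 1/sqrt(j+1)` -/
theorem centralBinom_le (j : ℕ) :
    ((Nat.centralBinom j : ℝ)) / 4 ^ j ≤ 1 / Real.sqrt ((j : ℝ) + 1) :=
  bp_central_le' j

theorem choose_half_le (j i : ℕ) :
    ((j.choose i : ℝ)) / 2 ^ j ≤ 1 / Real.sqrt ((j : ℝ) + 1) := by
  refine le_trans ?_ (bp_half j)
  have : ((j.choose i : ℕ) : ℝ) ≤ (j.choose (j / 2) : ℝ) := by
    exact_mod_cast Nat.choose_le_middle i j
  gcongr

end Vale.Agent.P321
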