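import Mathlib

/-!
P321: superpolynomial lower bound for worst-case trace reconstruction.
Common definitions.
-/

namespace Vale.Agent.P321

noncomputable section

/-- Words in the alphabet `Bool`. -/
abbrev Wd := FreeMonoid Bool

/-- Finitely supported signed measures on words, with convolution. -/
abbrev Alg := MonoidAlgebra ℝ Wd

/-- All coefficients are nonnegative. -/
def nn (f : Alg) : Prop := ∀ w, 0 ≤ f.coeff w

/-- Total mass. -/
def mass (f : Alg) : ℝ := f.coeff.sum fun _ r => r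

/-- The `l1` norm. -/
def n1 (f : Alg) : ℝ := f.coeff.sum fun _ r => |r|

/-- The element with coefficients `ψ w * q w`. -/
def pt (ψ : Wd → ℝ) (q : Alg) : Alg :=
  MonoidAlgebra.ofCoeff
    (Finsupp.onFinset q.coeff.support (fun w => ψ w * q.coeff w) (by
      intro w hw
      rw [Finsupp.mem_support_iff]
      intro h0
      exact hw (by rw [h0, mul_zero])))

/-- Pointwise domination `|f| ≤ s q`. -/
def Dom (s : ℝ) (f q : Alg) : Prop := ∀ w, |f.coeff w| ≤ s * q.coeff w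

/-- `f = ψ q` pointwise and `∑ q ψ^(2h) ≤ B`. -/
def Bd (h : ℕ) (f q : Alg) (B : ℝ) : Prop :=
  ∃ ψ : Wd → ℝ, (∀ w, f.coeff w = ψ w * q.coeff w) ∧
    q.coeff.sum (fun w r => r * ψ w ^ (2 * h)) ≤ B

/-- `a^K` and `a^(K+1)` share a common part of mass `lam`. -/
def H1 (a : Alg) (K : ℕ) (lam : ℝ) : Prop :=
  ∃ μ ν₀ ν₁ : Alg, nn μ ∧ nn ν₀ ∧ nn ν₁ ∧ a ^ K = μ + ν₀ ∧ a ^ (K + 1) = μ + ν₁ ∧
    mass μ = lam

/-- Gram bound: for all `θ ≥ 0` and real `t`, the combination `∑ θ_k Y_{i k} + t q` satisfies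
`Bd` with `(∑∑ θθB + 2 t ∑ θ c + t²)^h`. -/
def GB (h : ℕ) {ι : Type} (c : ι → ℝ) (Y : ι → Alg) (q : Alg) (B : ι → ι → ℝ) : Prop :=
  nn q ∧ (∀ i, 0 ≤ c i) ∧ (∀ i j, c i * c j ≤ B i j) ∧
  ∀ (κ : Type) [Fintype κ] (i : κ → ι) (θ : κ → ℝ) (t : ℝ), (∀ k, 0 ≤ θ k) →
    Bd h (∑ k, θ k • Y (i k) + t • q) q
      (mass q * (∑ k, ∑ l, θ k * θ l * B (i k) (i l) + 2 * t * ∑ k, θ k * c (i k) + t ^ 2) ^ h)

/-- Slot types: the reference, the perturbed slot, the pure perturbation. -/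
inductive Slot : Type
  | A : Slot
  | B : Slot
  | Psi : Slot

/-- value of a slot. -/
def Slot.val (a f : Alg) : Slot → Alg
  | Slot.A => a
  | Slot.B => a + f
  | Slot.Psi => f

/-- coefficient of `a`. -/
def Slot.al : Slot → ℝ
  | Slot.A => 1
  | Slot.B => 1
  | Slot.Psi => 0

/-- coefficient of `f`. -/
def Slot.be : Slot → ℝ
  | Slot.A => 0
  | Slot.B => 1
  | Slot.Psi => 1

/-- product of a list of slots. -/
def pval (a f : Alg) (l : List Slot) : Alg := (l.map (Slot.val a f)).prod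

/-- Gram product of two lists of slots. -/
def gram (x : ℝ) (l l' : List Slot) : ℝ :=
  (List.zipWith (fun s t => s.al * t.al + x * (s.be * t.be)) l l').prod

/-- product of the `al` coefficients: `0` if there is a `Psi`, else `1`. -/
def alp (l : List Slot) : ℝ := (l.map Slot.al).prod

/-- The family of shifts of `T` in the sea of `a`. -/
def Fam (a T : Alg) (p s : ℕ) (D : ℤ) : Alg :=
  a ^ ((p : ℤ) - D).toNat * T * a ^ ((s : ℤ) + D).toNat

/-- The family `Fam a T p s` is within `e D` in `n1` of a family with Gram bound `b (D - D')`. -/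
def Hyp (h : ℕ) (c : ℝ) (a T : Alg) (N p0 : ℕ) (b e : ℤ → ℝ) : Prop :=
  ∀ p s : ℕ, p0 ≤ p → p0 ≤ s → ∃ Y : ℤ → Alg,
    GB h (fun _ => c) Y (a ^ (p + s + N)) (fun D D' => b (D - D')) ∧
    ∀ D, n1 (Fam a T p s D - Y D) ≤ e D

/-- One lazy smoothing step. -/
def opQ (b : ℤ → ℝ) : ℤ → ℝ := fun D => b (D - 1) / 4 + b D / 2 + b (D + 1) / 4

/-- Smoothing step which happens with weight `t`. -/
def opR (t : ℝ) (b : ℤ → ℝ) : ℤ → ℝ := fun D => t * opQ b D + (1 - t) * b D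

/-- The bump `1 + y 1_{|D| < P}`. -/
def bump (y : ℝ) (P : ℕ) : ℤ → ℝ := fun D => 1 + if |D| < (P : ℤ) then y else 0

/-- The law of a trace of the word `x` (deletion probability `q`). -/
def PX (q : ℝ) (x : List Bool) : Alg :=
  (x.map fun b => q • (1 : Alg) + (1 - q) • MonoidAlgebra.single (FreeMonoid.of b) 1).prod

/-- Thue-Morse sign of `i`. -/
def tm (i : ℕ) : ℝ := if (Nat.digits 2 i).sum % 2 = 0 then 1 else -1

/-! ### Binomials and polynomials -/

/-- Binomial weight. -/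
def bw (H : ℕ) (t : ℝ) (j : ℕ) : ℝ := (H.choose j : ℝ) * t ^ j * (1 - t) ^ (H - j)

/-- `l1` norm of a polynomial. -/
def l1p (γ : Polynomial ℝ) : ℝ := γ.sum fun _ c => |c|

/-- squared `l2` norm of a polynomial. -/
def l2p (γ : Polynomial ℝ) : ℝ := γ.sum fun _ c => c ^ 2

/-- `(1 + X) / 2` -/
def hX : Polynomial ℝ := Polynomial.C (1 / 2) * (1 + Polynomial.X)

/-- Thue-Morse polynomial. -/
def tmP (m : ℕ) : Polynomial ℝ := ∏ i ∈ Finset.range m, (1 - Polynomial.X ^ (2 ^ i))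

/-- The combination `∑ t ≤ n, γ_t a^(p+t) c a^(s+n-t)`. -/
def FP (a c : Alg) (γ : Polynomial ℝ) (n p s : ℕ) : Alg :=
  ∑ t ∈ Finset.range (n + 1), γ.coeff t • (a ^ (p + t) * c * a ^ (s + (n - t)))

/-! ### The standing assumptions on the pair `a`, `f` -/

/-- Standing assumptions. -/
structure Ctx (h : ℕ) (a f : Alg) (σ x : ℝ) : Prop where
  hh : 1 ≤ h
  nna : nn a
  ma : mass a = 1
  nnb : nn (a + f)
  s0 : 0 ≤ σ
  dom : Dom σ f a
  mf : mass f = 0
  hx : 16 * (h : ℝ) ^ 2 * σ ^ 2 ≤ x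

/-! ### The tower -/

/-- `T ↦ w a^W T a^W w`, iterated `n` times. -/
def tower (a w : Alg) (W : ℕ) (T : Alg) : ℕ → Alg
  | 0 => T
  | n + 1 => w * a ^ W * tower a w W T n * a ^ W * w

/-- number of `Psi` slots -/
def nPsi : List Slot → ℕ
  | [] => 0
  | Slot.Psi :: l => nPsi l + 1
  | Slot.A :: l => nPsi l
  | Slot.B :: l => nPsi l

/-- number of `B` slots -/
def nB : List Slot → ℕ
  | [] => 0
  | Slot.B :: l => nB l + 1
  | Slot.A :: l => nB l
  | Slot.Psi :: l => nB l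

/-- All slots other than `A` are at positions congruent to `0, …, P-1` mod `M`. -/
def Clus (M P : ℕ) (l : List Slot) : Prop :=
  ∀ i (hi : i < l.length), l[i] ≠ Slot.A → i % M < P

/-! ### Thue-Morse products -/

/-- Thue-Morse product: `a` at sign `+1`, `b` at sign `-1`. -/
def prodTM (k : ℕ) (a b : Alg) : Alg :=
  ((List.range (4 ^ k)).map fun i => if tm i = 1 then a else b).prod

/-- The word of level one: `a^G τ(a,b) a^G`. Note `up k G a a b` is the `A`-word and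
`up k G a b a` is the `B`-word. -/
def up (k G : ℕ) (s a b : Alg) : Alg := s ^ G * prodTM k a b * s ^ G

/-- Slot list with `B` at sign `-1`. -/
def wT (k : ℕ) : List Slot := (List.range (4 ^ k)).map fun i => if tm i = 1 then Slot.A else Slot.B

/-- Slot list with `B` at sign `+1`. -/
def wC (k : ℕ) : List Slot := (List.range (4 ^ k)).map fun i => if tm i = 1 then Slot.B else Slot.A

/-- Algebraic state. -/
def ASt (L v w T : ℕ) (a b : Alg) : Prop :=
  nn a ∧ mass a = 1 ∧ nn b ∧ mass b = 1 ∧ H1 a (L ^ v) (1 / L) ∧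
  ∃ (f : Alg) (σ : ℝ), 0 ≤ σ ∧ σ ^ 2 * (L : ℝ) ^ w ≤ 1 ∧ Dom σ f a ∧ mass f = 0 ∧
    n1 (b - a - f) * (L : ℝ) ^ T ≤ 1

/-- State on words. -/
def St (q : ℝ) (L v w u T : ℕ) (A B : List Bool) : Prop :=
  A ≠ B ∧ A.length = B.length ∧ A.length ≤ L ^ u ∧ ASt L v w T (PX q A) (PX q B)

end

end Vale.Agent.P321
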