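import Vale.Agent.P321.Peel

namespace Vale.Agent.P321

open Finset

/-- the at-least-two-body part of `pval a f (wC k) - pval a f (wT k)` -/
noncomputable def Rem (k : ℕ) (a f : Alg) : Alg :=
  pval a f (wC k) - pval a f (wT k) -
    ∑ i ∈ range (4 ^ k), tm i • (a ^ i * f * a ^ (4 ^ k - 1 - i))

theorem tm_values (i : ℕ) : tm i = 1 ∨ tm i = -1 := by
  unfold tm
  split_ifs
  · exact Or.inl rfl
  · exact Or.inr rfl

private lemma ex_tm_even (n : ℕ) : tm (2 * n) = tm n := by
  rcases Nat.eq_zero_or_pos n with rfl | hn
  · simp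
  · unfold tm
    rw [Nat.digits_def' (by norm_num) (show 0 < 2 * n by omega)]
    have e1 : 2 * n % 2 = 0 := by omega
    have e2 : 2 * n / 2 = n := by omega
    rw [e1, e2, List.sum_cons, zero_add]

private lemma ex_tm_odd (n : ℕ) : tm (2 * n + 1) = - tm n := by
  unfold tm
  rw [Nat.digits_def' (by norm_num) (show 0 < 2 * n + 1 by omega)]
  have e1 : (2 * n + 1) % 2 = 1 := by omega
  have e2 : (2 * n + 1) / 2 = n := by omega
  rw [e1, e2, List.sum_cons]
  rcases Nat.mod_two_eq_zero_or_one (Nat.digits 2 n).sum with h | h
  · have h' : (1 + (Nat.digits 2 n).sum) % 2 = 1 := by omega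
    rw [h, h']; norm_num
  · have h' : (1 + (Nat.digits 2 n).sum) % 2 = 0 := by omega
    rw [h, h']; norm_num

theorem tm_sum (k : ℕ) (hk : 1 ≤ k) : ∑ i ∈ range (4 ^ k), tm i = 0 := by
  have key : ∀ n : ℕ, ∑ i ∈ range (2 * n), tm i = 0 := by
    intro n
    induction n with
    | zero => simp
    | succ n ih =>
      rw [show 2 * (n + 1) = 2 * n + 1 + 1 by ring, Finset.sum_range_succ,
        Finset.sum_range_succ, ih, ex_tm_even, ex_tm_odd]
      ring
  obtain ⟨j, rfl⟩ : ∃ j, k = j + 1 := ⟨k - 1, by omega⟩
  rw [show 4 ^ (j + 1) = 2 * (2 * 4 ^ j) by ring]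
  exact key _

theorem prodTM_eq_pval (k : ℕ) (a f : Alg) : prodTM k a (a + f) = pval a f (wT k) := by
  unfold prodTM pval wT
  rw [List.map_map]
  congr 1
  apply List.map_congr_left
  intro i _
  simp only [Function.comp]
  split_ifs <;> rfl

theorem prodTM_eq_pval' (k : ℕ) (a f : Alg) : prodTM k (a + f) a = pval a f (wC k) := by
  unfold prodTM pval wC
  rw [List.map_map]
  congr 1
  apply List.map_congr_left
  intro i _
  simp only [Function.comp]
  split_ifs <;> rfl

theorem wT_length (k : ℕ) : (wT k).length = 4 ^ k := by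
  simp [wT]

theorem wC_length (k : ℕ) : (wC k).length = 4 ^ k := by
  simp [wC]

private lemma ex_nPsi_of_ne (l : List Slot) (h : ∀ s ∈ l, s ≠ Slot.Psi) : nPsi l = 0 := by
  induction l with
  | nil => rfl
  | cons s l ih =>
    have ih' := ih fun t ht => h t (by simp [ht])
    cases s with
    | A => exact ih'
    | B => exact ih'
    | Psi => exact absurd rfl (h Slot.Psi (by simp))

theorem nPsi_wT (k : ℕ) : nPsi (wT k) = 0 := by
  apply ex_nPsi_of_ne
  intro s hs
  unfold wT at hs
  rw [List.mem_map] at hs
  obtain ⟨i, _, rfl⟩ := hs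
  split_ifs <;> simp

theorem nPsi_wC (k : ℕ) : nPsi (wC k) = 0 := by
  apply ex_nPsi_of_ne
  intro s hs
  unfold wC at hs
  rw [List.mem_map] at hs
  obtain ⟨i, _, rfl⟩ := hs
  split_ifs <;> simp

theorem nB_le_length (l : List Slot) : nB l ≤ l.length := by
  induction l with
  | nil => simp [nB]
  | cons s l ih => cases s <;> simp only [nB, List.length_cons] <;> omega

/-! ### counting lemmas -/

private lemma ex_nPsi_append (l l' : List Slot) : nPsi (l ++ l') = nPsi l + nPsi l' := by
  induction l with
  | nil => simp [nPsi]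
  | cons s l ih => cases s <;> simp only [List.cons_append, nPsi, ih] <;> omega

private lemma ex_nB_append (l l' : List Slot) : nB (l ++ l') = nB l + nB l' := by
  induction l with
  | nil => simp [nB]
  | cons s l ih => cases s <;> simp only [List.cons_append, nB, ih] <;> omega

private lemma ex_nPsi_replicate (n : ℕ) : nPsi (List.replicate n Slot.A) = 0 := by
  induction n with
  | zero => rfl
  | succ n ih => rw [List.replicate_succ]; exact ih

private lemma ex_nB_replicate (n : ℕ) : nB (List.replicate n Slot.A) = 0 := by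
  induction n with
  | zero => rfl
  | succ n ih => rw [List.replicate_succ]; exact ih

/-! ### one-body and many-body lists -/

/-- one-body lists -/
private def exOne : List Slot → List (List Slot)
  | [] => []
  | Slot.A :: l => (exOne l).map (Slot.A :: ·)
  | Slot.Psi :: l => (exOne l).map (Slot.A :: ·)
  | Slot.B :: l => (exOne l).map (Slot.A :: ·) ++ [Slot.Psi :: List.replicate l.length Slot.A]

/-- at-least-two-body lists -/
private def exTwo : List Slot → List (List Slot)
  | [] => []
  | Slot.A :: l => (exTwo l).map (Slot.A :: ·)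
  | Slot.Psi :: _ => []
  | Slot.B :: l => (exTwo l).map (Slot.A :: ·) ++
      ((exTwo l).map (Slot.Psi :: ·) ++ (exOne l).map (Slot.Psi :: ·))

private lemma ex_one_mem (l : List Slot) : ∀ l' ∈ exOne l,
    l'.length = l.length ∧ nPsi l' = 1 ∧ nB l' = 0 := by
  induction l with
  | nil => intro l' h; simp [exOne] at h
  | cons s l ih =>
    have hA : ∀ l' ∈ (exOne l).map (Slot.A :: ·),
        l'.length = l.length + 1 ∧ nPsi l' = 1 ∧ nB l' = 0 := by
      intro l' h
      rw [List.mem_map] at h
      obtain ⟨m, hm, rfl⟩ := h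
      obtain ⟨h1, h2, h3⟩ := ih m hm
      exact ⟨by simp [h1], by simpa [nPsi] using h2, by simpa [nB] using h3⟩
    intro l' h
    cases s with
    | A => exact hA l' h
    | Psi => exact hA l' h
    | B =>
      rcases List.mem_append.1 h with h | h
      · exact hA l' h
      · rw [List.mem_singleton] at h
        subst h
        exact ⟨by simp, by simp [nPsi, ex_nPsi_replicate], by simp [nB, ex_nB_replicate]⟩

private lemma ex_two_mem (l : List Slot) : ∀ l' ∈ exTwo l,
    l'.length = l.length ∧ 2 ≤ nPsi l' ∧ nB l' = 0 := by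
  induction l with
  | nil => intro l' h; simp [exTwo] at h
  | cons s l ih =>
    have hA : ∀ l' ∈ (exTwo l).map (Slot.A :: ·),
        l'.length = l.length + 1 ∧ 2 ≤ nPsi l' ∧ nB l' = 0 := by
      intro l' h
      rw [List.mem_map] at h
      obtain ⟨m, hm, rfl⟩ := h
      obtain ⟨h1, h2, h3⟩ := ih m hm
      exact ⟨by simp [h1], by simpa [nPsi] using h2, by simpa [nB] using h3⟩
    intro l' h
    cases s with
    | A => exact hA l' h
    | Psi => simp [exTwo] at h
    | B =>
      rcases List.mem_append.1 h with h | h
      · exact hA l' h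
      · rcases List.mem_append.1 h with h | h
        · rw [List.mem_map] at h
          obtain ⟨m, hm, rfl⟩ := h
          obtain ⟨h1, h2, h3⟩ := ih m hm
          refine ⟨by simp [h1], ?_, by simpa [nB] using h3⟩
          simp only [nPsi]; omega
        · rw [List.mem_map] at h
          obtain ⟨m, hm, rfl⟩ := h
          obtain ⟨h1, h2, h3⟩ := ex_one_mem l m hm
          refine ⟨by simp [h1], ?_, by simpa [nB] using h3⟩
          simp only [nPsi]; omega

private lemma ex_one_length (l : List Slot) : (exOne l).length = nB l := by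
  induction l with
  | nil => rfl
  | cons s l ih => cases s <;> simp [exOne, nB, ih]

private lemma ex_two_length (l : List Slot) : (exTwo l).length + 1 + nB l ≤ 2 ^ nB l := by
  induction l with
  | nil => simp [exTwo, nB]
  | cons s l ih =>
    cases s with
    | A => simpa [exTwo, nB] using ih
    | Psi =>
      simp only [exTwo, nB, List.length_nil]
      have := Nat.lt_two_pow_self (n := nB l)
      omega
    | B =>
      simp only [exTwo, nB, List.length_append, List.length_map, ex_one_length]
      rw [pow_succ]
      omega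

private lemma ex_pval_cons (a f : Alg) (s : Slot) (l : List Slot) :
    pval a f (s :: l) = s.val a f * pval a f l := by
  unfold pval
  rw [List.map_cons, List.prod_cons]

private lemma ex_sum_map_cons (a f : Alg) (s : Slot) (C : List (List Slot)) :
    ((C.map (s :: ·)).map (pval a f)).sum = s.val a f * (C.map (pval a f)).sum := by
  induction C with
  | nil => simp
  | cons l C ih =>
    rw [List.map_cons, List.map_cons, List.sum_cons, ih, List.map_cons, List.sum_cons, mul_add,
      ex_pval_cons]

private lemma ex_split (a f : Alg) (l : List Slot) (hl : nPsi l = 0) :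
    pval a f l = a ^ l.length + ((exOne l).map (pval a f)).sum +
      ((exTwo l).map (pval a f)).sum := by
  induction l with
  | nil => simp [pval, exOne, exTwo]
  | cons s l ih =>
    cases s with
    | A =>
      have ih' := ih hl
      rw [ex_pval_cons, ih']
      simp only [exOne, exTwo, ex_sum_map_cons, List.length_cons, Slot.val]
      rw [pow_succ']
      noncomm_ring
    | Psi => simp [nPsi] at hl
    | B =>
      have ih' := ih hl
      rw [ex_pval_cons, ih']
      simp only [exOne, exTwo, List.map_append, List.sum_append, ex_sum_map_cons,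
        List.length_cons, Slot.val, List.map_cons, List.map_nil, List.sum_cons, List.sum_nil,
        ex_pval_cons, pval_replicate_A]
      rw [pow_succ']
      noncomm_ring

private lemma ex_one_sum (a f : Alg) (l : List Slot) (hl : nPsi l = 0) :
    ((exOne l).map (pval a f)).sum =
      ∑ i ∈ range l.length, (l.getD i Slot.A).be • (a ^ i * f * a ^ (l.length - 1 - i)) := by
  induction l with
  | nil => simp [exOne]
  | cons s l ih =>
    have key : ∀ (hl : nPsi l = 0), s.val a f = s.val a f → ∑ i ∈ range (s :: l).length,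
        ((s :: l).getD i Slot.A).be • (a ^ i * f * a ^ ((s :: l).length - 1 - i)) =
        a * ((exOne l).map (pval a f)).sum + s.be • (f * a ^ l.length) := by
      intro hl _
      rw [ih hl, List.length_cons, Finset.sum_range_succ', Finset.mul_sum]
      congr 1
      · refine Finset.sum_congr rfl fun i hi => ?_
        rw [Finset.mem_range] at hi
        rw [List.getD_cons_succ, pow_succ', mul_smul_comm,
          show l.length + 1 - 1 - (i + 1) = l.length - 1 - i by omega]
        simp only [mul_assoc]
      · simp
    cases s with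
    | A =>
      rw [key hl rfl]
      simp only [exOne, ex_sum_map_cons, Slot.val, Slot.be, zero_smul, add_zero]
    | Psi => simp [nPsi] at hl
    | B =>
      rw [key hl rfl]
      simp only [exOne, List.map_append, List.sum_append, ex_sum_map_cons, Slot.val, Slot.be,
        one_smul, List.map_cons, List.map_nil, List.sum_cons, List.sum_nil, add_zero,
        ex_pval_cons, pval_replicate_A]

/-! ### combinations -/

/-- combination of slot lists -/
private noncomputable def cmb (a f : Alg) (C : List (ℝ × List Slot)) : Alg :=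
  (C.map fun p => p.1 • pval a f p.2).sum

private lemma ex_toFin (C : List (ℝ × List Slot)) (P : List Slot → Prop)
    (hP : ∀ p ∈ C, |p.1| ≤ 1 ∧ P p.2) :
    ∃ (ε : Fin C.length → ℝ) (l : Fin C.length → List Slot),
      (∀ i, |ε i| ≤ 1 ∧ P (l i)) ∧ ∀ a f : Alg, cmb a f C = ∑ i, ε i • pval a f (l i) := by
  refine ⟨fun i => (C[i.1]).1, fun i => (C[i.1]).2, fun i => hP _ (List.getElem_mem _), ?_⟩
  intro a f
  unfold cmb
  exact (Fin.sum_univ_fun_getElem C fun p => p.1 • pval a f p.2).symm

/-- the combination which represents `Rem k` -/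
private noncomputable def exRC (k : ℕ) : List (ℝ × List Slot) :=
  (exTwo (wC k)).map (fun l => ((1 : ℝ), l)) ++ (exTwo (wT k)).map (fun l => ((-1 : ℝ), l))

private lemma ex_RC_mem (k : ℕ) : ∀ p ∈ exRC k,
    |p.1| ≤ 1 ∧ (p.2.length = 4 ^ k ∧ 2 ≤ nPsi p.2 ∧ nB p.2 = 0) := by
  intro p hp
  rcases List.mem_append.1 hp with h | h
  · rw [List.mem_map] at h
    obtain ⟨l, hl, rfl⟩ := h
    have := ex_two_mem _ l hl
    rw [wC_length] at this
    exact ⟨by simp, this⟩
  · rw [List.mem_map] at h
    obtain ⟨l, hl, rfl⟩ := h
    have := ex_two_mem _ l hl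
    rw [wT_length] at this
    exact ⟨by simp, this⟩

private lemma ex_RC_length (k : ℕ) : (exRC k).length ≤ 2 ^ (4 ^ k + 1) := by
  unfold exRC
  rw [List.length_append, List.length_map, List.length_map]
  have h1 := ex_two_length (wC k)
  have h2 := ex_two_length (wT k)
  have h3 : 2 ^ nB (wC k) ≤ 2 ^ 4 ^ k := by
    have := nB_le_length (wC k)
    rw [wC_length] at this
    exact Nat.pow_le_pow_right (by norm_num) this
  have h4 : 2 ^ nB (wT k) ≤ 2 ^ 4 ^ k := by
    have := nB_le_length (wT k)
    rw [wT_length] at this
    exact Nat.pow_le_pow_right (by norm_num) this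
  rw [pow_succ 2 (4 ^ k)]
  omega

private lemma ex_cmb_const (a f : Alg) (c : ℝ) (C : List (List Slot)) :
    cmb a f (C.map fun l => (c, l)) = c • (C.map (pval a f)).sum := by
  unfold cmb
  induction C with
  | nil => simp
  | cons l C ih =>
    rw [List.map_cons, List.map_cons, List.sum_cons, ih, List.map_cons, List.sum_cons, smul_add]

private lemma ex_cmb_append (a f : Alg) (C C' : List (ℝ × List Slot)) :
    cmb a f (C ++ C') = cmb a f C + cmb a f C' := by
  unfold cmb
  rw [List.map_append, List.sum_append]

private lemma ex_wT_getD (k i : ℕ) (hi : i < 4 ^ k) :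
    (wT k).getD i Slot.A = if tm i = 1 then Slot.A else Slot.B := by
  have h : i < (wT k).length := by rw [wT_length]; exact hi
  rw [List.getD_eq_getElem _ _ h]
  simp [wT]

private lemma ex_wC_getD (k i : ℕ) (hi : i < 4 ^ k) :
    (wC k).getD i Slot.A = if tm i = 1 then Slot.B else Slot.A := by
  have h : i < (wC k).length := by rw [wC_length]; exact hi
  rw [List.getD_eq_getElem _ _ h]
  simp [wC]

private lemma ex_Rem_eq (k : ℕ) (a f : Alg) : Rem k a f = cmb a f (exRC k) := by
  unfold exRC
  rw [ex_cmb_append, ex_cmb_const, ex_cmb_const]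
  unfold Rem
  rw [ex_split a f (wC k) (nPsi_wC k), ex_split a f (wT k) (nPsi_wT k),
    ex_one_sum a f (wC k) (nPsi_wC k), ex_one_sum a f (wT k) (nPsi_wT k), wC_length, wT_length]
  have e : ∑ i ∈ range (4 ^ k), tm i • (a ^ i * f * a ^ (4 ^ k - 1 - i)) =
      ∑ i ∈ range (4 ^ k), ((wC k).getD i Slot.A).be • (a ^ i * f * a ^ (4 ^ k - 1 - i)) -
      ∑ i ∈ range (4 ^ k), ((wT k).getD i Slot.A).be • (a ^ i * f * a ^ (4 ^ k - 1 - i)) := by
    rw [← Finset.sum_sub_distrib]
    refine Finset.sum_congr rfl fun i hi => ?_
    rw [Finset.mem_range] at hi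
    rw [ex_wT_getD k i hi, ex_wC_getD k i hi, ← sub_smul]
    congr 1
    rcases tm_values i with h | h
    · rw [h]; simp [Slot.be]
    · rw [h]; norm_num [Slot.be]
  rw [e]
  simp only [one_smul, neg_smul]
  abel

/-- Expansion of the at-least-two-body part in slot lists. -/
theorem expand_Rem (k : ℕ) : ∃ (n : ℕ) (ε : Fin n → ℝ) (l : Fin n → List Slot),
    n ≤ 2 ^ (4 ^ k + 1) ∧
    (∀ i, |ε i| ≤ 1 ∧ (l i).length = 4 ^ k ∧ 2 ≤ nPsi (l i) ∧ nB (l i) = 0) ∧
    ∀ a f : Alg, Rem k a f = ∑ i, ε i • pval a f (l i) := by
  obtain ⟨ε, l, h1, h2⟩ := ex_toFin (exRC k)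
    (fun l => l.length = 4 ^ k ∧ 2 ≤ nPsi l ∧ nB l = 0) (ex_RC_mem k)
  exact ⟨_, ε, l, ex_RC_length k, h1, fun a f => by rw [ex_Rem_eq, h2]⟩

/-! ### blocks -/

/-- blocks separated by `A^(2G)` -/
private def exCore (G : ℕ) : List Slot → List (List Slot) → List Slot
  | w, [] => w
  | w, w' :: ws => w ++ (List.replicate (2 * G) Slot.A ++ exCore G w' ws)

private lemma ex_core_length {P : ℕ} (G : ℕ) (w : List Slot) (ws : List (List Slot))
    (hw : w.length = P) (hws : ∀ v ∈ ws, v.length = P) :
    (exCore G w ws).length = P * (ws.length + 1) + ws.length * (2 * G) := by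
  induction ws generalizing w with
  | nil => simp [exCore, hw]
  | cons w' ws ih =>
    have := ih w' (hws w' (by simp)) fun v hv => hws v (by simp [hv])
    simp only [exCore, List.length_append, List.length_replicate, List.length_cons, this, hw]
    ring

private lemma ex_core_nPsi (G : ℕ) (w : List Slot) (ws : List (List Slot)) :
    nPsi (exCore G w ws) = nPsi w + (ws.map nPsi).sum := by
  induction ws generalizing w with
  | nil => simp [exCore]
  | cons w' ws ih =>
    simp only [exCore, ex_nPsi_append, ex_nPsi_replicate, ih w', List.map_cons, List.sum_cons]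
    omega

private lemma ex_core_nB (G : ℕ) (w : List Slot) (ws : List (List Slot)) :
    nB (exCore G w ws) = nB w + (ws.map nB).sum := by
  induction ws generalizing w with
  | nil => simp [exCore]
  | cons w' ws ih =>
    simp only [exCore, ex_nB_append, ex_nB_replicate, ih w', List.map_cons, List.sum_cons]
    omega

private lemma ex_core_pval (G : ℕ) (a f : Alg) (w : List Slot) (ws : List (List Slot)) :
    ((w :: ws).map fun v => a ^ G * pval a f v * a ^ G).prod =
      a ^ G * pval a f (exCore G w ws) * a ^ G := by
  induction ws generalizing w with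
  | nil => simp [exCore]
  | cons w' ws ih =>
    rw [List.map_cons, List.prod_cons, ih w']
    simp only [exCore, pval_append, pval_replicate_A]
    rw [two_mul, pow_add]
    simp only [mul_assoc]

private lemma ex_Clus_block {P : ℕ} (G : ℕ) (w l' : List Slot) (hw : w.length = P) (hP : 0 < P)
    (h : Clus (2 * G + P) P l') :
    Clus (2 * G + P) P (w ++ (List.replicate (2 * G) Slot.A ++ l')) := by
  intro i hi hne
  rcases lt_or_ge i P with h1 | h1
  · rw [Nat.mod_eq_of_lt (by omega)]; exact h1
  · have e1 : i - w.length < (List.replicate (2 * G) Slot.A ++ l').length := by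
      rw [List.length_append] at hi; omega
    have e2 : (w ++ (List.replicate (2 * G) Slot.A ++ l'))[i] =
        (List.replicate (2 * G) Slot.A ++ l')[i - w.length] :=
      List.getElem_append_right (by omega)
    rw [e2] at hne
    rcases lt_or_ge (i - w.length) (2 * G) with h2 | h2
    · exfalso
      apply hne
      rw [List.getElem_append_left (by rw [List.length_replicate]; exact h2)]
      exact List.getElem_replicate _
    · have e3 : (List.replicate (2 * G) Slot.A ++ l')[i - w.length] =
          l'[i - w.length - (List.replicate (2 * G) Slot.A).length]'(by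
            rw [List.length_append] at e1; rw [List.length_replicate] at *; omega) :=
        List.getElem_append_right (by rw [List.length_replicate]; exact h2)
      rw [e3] at hne
      have h3 := h _ _ hne
      rw [List.length_replicate, hw] at h3
      have e4 : i - P - 2 * G = i - (2 * G + P) := by omega
      rw [e4] at h3
      rw [Nat.mod_eq_sub_mod (by omega)]
      exact h3

private lemma ex_Clus_small {P M : ℕ} (w : List Slot) (hw : w.length = P) (hM : P ≤ M) :
    Clus M P w := by
  intro i hi _
  rw [Nat.mod_eq_of_lt (by omega)]; omega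

private lemma ex_core_Clus {P : ℕ} (G : ℕ) (hP : 0 < P) (w : List Slot) (ws : List (List Slot))
    (hw : w.length = P) (hws : ∀ v ∈ ws, v.length = P) :
    Clus (2 * G + P) P (exCore G w ws) := by
  induction ws generalizing w with
  | nil => exact ex_Clus_small w hw (by omega)
  | cons w' ws ih =>
    exact ex_Clus_block G w _ hw hP (ih w' (hws w' (by simp)) fun v hv => hws v (by simp [hv]))

/-- expansion of a slot list over the second level in blocks -/
private noncomputable def exBlk (k : ℕ) : List Slot → List (ℝ × List (List Slot))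
  | [] => [(1, [])]
  | Slot.A :: l => (exBlk k l).map fun r => (r.1, wT k :: r.2)
  | Slot.B :: _ => []
  | Slot.Psi :: l => (exRC k).flatMap fun p => (exBlk k l).map fun r => (p.1 * r.1, p.2 :: r.2)

private lemma ex_blk_mem (k : ℕ) (l : List Slot) : ∀ r ∈ exBlk k l,
    |r.1| ≤ 1 ∧ r.2.length = l.length ∧ (∀ v ∈ r.2, v.length = 4 ^ k) ∧
      2 * nPsi l ≤ (r.2.map nPsi).sum ∧ (r.2.map nB).sum ≤ l.length * 4 ^ k := by
  induction l with
  | nil =>
    intro r hr
    simp only [exBlk, List.mem_singleton] at hr
    subst hr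
    simp [nPsi]
  | cons s l ih =>
    intro r hr
    cases s with
    | A =>
      simp only [exBlk, List.mem_map] at hr
      obtain ⟨r', hr', rfl⟩ := hr
      obtain ⟨h1, h2, h3, h4, h5⟩ := ih r' hr'
      refine ⟨h1, by simp [h2], ?_, ?_, ?_⟩
      · intro v hv
        rcases List.mem_cons.1 hv with rfl | hv
        · exact wT_length k
        · exact h3 v hv
      · simp only [nPsi, List.map_cons, List.sum_cons, nPsi_wT]
        omega
      · simp only [List.map_cons, List.sum_cons, List.length_cons]
        have := nB_le_length (wT k)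
        rw [wT_length] at this
        rw [add_mul, one_mul]
        omega
    | B => simp [exBlk] at hr
    | Psi =>
      simp only [exBlk, List.mem_flatMap, List.mem_map] at hr
      obtain ⟨p, hp, r', hr', rfl⟩ := hr
      obtain ⟨h1, h2, h3, h4, h5⟩ := ih r' hr'
      obtain ⟨g1, g2, g3, g4⟩ := ex_RC_mem k p hp
      refine ⟨?_, by simp [h2], ?_, ?_, ?_⟩
      · simp only [abs_mul]
        exact mul_le_one₀ g1 (abs_nonneg _) h1
      · intro v hv
        rcases List.mem_cons.1 hv with rfl | hv
        · exact g2
        · exact h3 v hv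
      · simp only [nPsi, List.map_cons, List.sum_cons]
        omega
      · simp only [List.map_cons, List.sum_cons, List.length_cons, g4]
        rw [add_mul, one_mul]
        omega

private lemma ex_flatMap_length {α β : Type*} (C : List α) (g : α → List β) (n : ℕ)
    (h : ∀ p ∈ C, (g p).length ≤ n) : (C.flatMap g).length ≤ C.length * n := by
  induction C with
  | nil => simp
  | cons p C ih =>
    rw [List.flatMap_cons, List.length_append, List.length_cons, add_mul, one_mul]
    have h1 := h p (by simp)
    have h2 := ih fun q hq => h q (by simp [hq])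
    omega

private lemma ex_blk_length (k : ℕ) (l : List Slot) :
    (exBlk k l).length ≤ ((exRC k).length + 1) ^ l.length := by
  induction l with
  | nil => simp [exBlk]
  | cons s l ih =>
    rw [List.length_cons, pow_succ']
    have h0 : (exBlk k l).length ≤ ((exRC k).length + 1) * ((exRC k).length + 1) ^ l.length := by
      refine ih.trans ?_
      exact Nat.le_mul_of_pos_left _ (by omega)
    cases s with
    | A => simpa [exBlk] using h0
    | B => simp [exBlk]
    | Psi =>
      simp only [exBlk]
      refine (ex_flatMap_length _ _ (((exRC k).length + 1) ^ l.length)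
        (fun p _ => by rw [List.length_map]; exact ih)).trans ?_
      exact Nat.mul_le_mul_right _ (by omega)

private lemma ex_flatMap_sum {α β : Type*} (C : List α) (g : α → List β) (F : β → Alg) :
    ((C.flatMap g).map F).sum = (C.map fun p => ((g p).map F).sum).sum := by
  induction C with
  | nil => simp
  | cons p C ih =>
    rw [List.flatMap_cons, List.map_append, List.sum_append, ih, List.map_cons, List.sum_cons]

private lemma ex_sum_mul {α : Type*} (C : List α) (F : α → Alg) (z : Alg) :
    (C.map F).sum * z = (C.map fun p => F p * z).sum := by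
  induction C with
  | nil => simp
  | cons p C ih => rw [List.map_cons, List.sum_cons, add_mul, ih, List.map_cons, List.sum_cons]

private lemma ex_mul_sum {α : Type*} (C : List α) (F : α → Alg) (z : Alg) :
    z * (C.map F).sum = (C.map fun p => z * F p).sum := by
  induction C with
  | nil => simp
  | cons p C ih => rw [List.map_cons, List.sum_cons, mul_add, ih, List.map_cons, List.sum_cons]

private lemma ex_blk_eq (k G : ℕ) (a f : Alg) (l : List Slot) (hl : nB l = 0) :
    pval (a ^ G * pval a f (wT k) * a ^ G) (a ^ G * Rem k a f * a ^ G) l =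
      ((exBlk k l).map fun r => r.1 •
        (r.2.map fun v => a ^ G * pval a f v * a ^ G).prod).sum := by
  induction l with
  | nil => simp [exBlk, pval]
  | cons s l ih =>
    cases s with
    | A =>
      rw [ex_pval_cons, ih hl]
      simp only [exBlk, Slot.val, List.map_map]
      rw [ex_mul_sum]
      congr 1
      apply List.map_congr_left
      intro r _
      simp only [Function.comp, List.map_cons, List.prod_cons, mul_smul_comm]
    | B => simp [nB] at hl
    | Psi =>
      rw [ex_pval_cons, ih hl, ex_Rem_eq]
      simp only [exBlk, Slot.val]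
      rw [ex_flatMap_sum]
      unfold cmb
      have e : ∀ S : Alg, a ^ G * (List.map (fun p => p.1 • pval a f p.2) (exRC k)).sum * a ^ G *
          S = (List.map (fun p => a ^ G * (p.1 • pval a f p.2) * a ^ G * S) (exRC k)).sum := by
        intro S
        rw [ex_mul_sum, ex_sum_mul, ex_sum_mul]
      rw [e]
      congr 1
      apply List.map_congr_left
      intro p _
      rw [ex_mul_sum, List.map_map]
      congr 1
      apply List.map_congr_left
      intro r _
      simp only [Function.comp, List.map_cons, List.prod_cons, mul_smul_comm, smul_mul_assoc,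
        smul_smul]
      rw [mul_comm r.1 p.1]

/-- from a nonempty list of blocks to the core list -/
private def exJoin (G : ℕ) : List (List Slot) → List Slot
  | [] => []
  | w :: ws => exCore G w ws

/-- Second level expansion: `a1 = a^G (pval wT) a^G`, `f1 = a^G (Rem k a f) a^G`. The
at-least-two-body part in `f1` is a combination of slot lists with at least four `Psi`s. -/
theorem expand_core (k : ℕ) : ∃ Nk : ℕ, ∀ G : ℕ, ∃ (n : ℕ) (ε : Fin n → ℝ)
    (l : Fin n → List Slot), n ≤ Nk ∧
    (∀ i, |ε i| ≤ 1 ∧ (l i).length = 4 ^ k * 4 ^ k + (4 ^ k - 1) * (2 * G) ∧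
      4 ≤ nPsi (l i) ∧ nB (l i) ≤ 4 ^ k * 4 ^ k ∧ Clus (2 * G + 4 ^ k) (4 ^ k) (l i)) ∧
    ∀ a f : Alg, Rem k (a ^ G * pval a f (wT k) * a ^ G) (a ^ G * Rem k a f * a ^ G) =
      a ^ G * (∑ i, ε i • pval a f (l i)) * a ^ G := by
  refine ⟨(exRC k).length * ((exRC k).length + 1) ^ 4 ^ k, fun G => ?_⟩
  have hpos : 0 < 4 ^ k := pow_pos (by norm_num) k
  set C2 : List (ℝ × List Slot) := (exRC k).flatMap fun p =>
    (exBlk k p.2).map fun r => (p.1 * r.1, exJoin G r.2) with hC2
  have hmem : ∀ p ∈ C2, |p.1| ≤ 1 ∧ (p.2.length = 4 ^ k * 4 ^ k + (4 ^ k - 1) * (2 * G) ∧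
      4 ≤ nPsi p.2 ∧ nB p.2 ≤ 4 ^ k * 4 ^ k ∧ Clus (2 * G + 4 ^ k) (4 ^ k) p.2) := by
    intro p hp
    simp only [hC2, List.mem_flatMap, List.mem_map] at hp
    obtain ⟨p, hp, r, hr, rfl⟩ := hp
    obtain ⟨g1, g2, g3, g4⟩ := ex_RC_mem k p hp
    obtain ⟨h1, h2, h3, h4, h5⟩ := ex_blk_mem k p.2 r hr
    rw [g2] at h2 h5
    refine ⟨?_, ?_⟩
    · simp only [abs_mul]
      exact mul_le_one₀ g1 (abs_nonneg _) h1
    · obtain ⟨c, ws⟩ := r
      simp only at h1 h2 h3 h4 h5 ⊢
      cases ws with
      | nil => simp only [List.length_nil] at h2; omega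
      | cons w ws =>
        simp only [exJoin]
        simp only [List.length_cons] at h2
        simp only [List.map_cons, List.sum_cons] at h4 h5
        have hw : w.length = 4 ^ k := h3 w (by simp)
        have hws : ∀ v ∈ ws, v.length = 4 ^ k := fun v hv => h3 v (by simp [hv])
        refine ⟨?_, ?_, ?_, ex_core_Clus G hpos w ws hw hws⟩
        · rw [ex_core_length G w ws hw hws, h2]
          have : ws.length = 4 ^ k - 1 := by omega
          rw [this]
        · rw [ex_core_nPsi]; omega
        · rw [ex_core_nB]; exact h5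
  obtain ⟨ε, l, e1, e2⟩ := ex_toFin C2 (fun l => l.length = 4 ^ k * 4 ^ k +
    (4 ^ k - 1) * (2 * G) ∧ 4 ≤ nPsi l ∧ nB l ≤ 4 ^ k * 4 ^ k ∧
    Clus (2 * G + 4 ^ k) (4 ^ k) l) hmem
  refine ⟨_, ε, l, ?_, e1, fun a f => ?_⟩
  · refine ex_flatMap_length _ _ _ fun p hp => ?_
    rw [List.length_map]
    have := ex_blk_length k p.2
    rw [(ex_RC_mem k p hp).2.1] at this
    exact this
  · rw [← e2, ex_Rem_eq]
    unfold cmb
    rw [hC2, ex_flatMap_sum, ex_mul_sum, ex_sum_mul]
    congr 1
    apply List.map_congr_left
    intro p hp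
    rw [ex_blk_eq k G a f p.2 (ex_RC_mem k p hp).2.2.2, List.map_map, ex_mul_sum, ex_sum_mul,
      List.smul_sum, List.map_map]
    congr 1
    apply List.map_congr_left
    intro r hr
    have h2 := (ex_blk_mem k p.2 r hr).2.1
    rw [(ex_RC_mem k p hp).2.1] at h2
    obtain ⟨c, ws⟩ := r
    simp only [Function.comp] at h2 ⊢
    cases ws with
    | nil => simp only [List.length_nil] at h2; omega
    | cons w ws =>
      simp only [exJoin]
      rw [ex_core_pval]
      simp only [mul_smul_comm, smul_mul_assoc, smul_smul]

/-- The middle part of the second level word is one slot list without `Psi`: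
`prodTM k a1 b1` with `a1 = a^G (pval wT) a^G`, `b1 = a^G (pval wC) a^G`. -/
theorem core_list (k G : ℕ) : ∃ l : List Slot,
    l.length = 4 ^ k * 4 ^ k + (4 ^ k - 1) * (2 * G) ∧ nPsi l = 0 ∧ nB l ≤ 4 ^ k * 4 ^ k ∧
    Clus (2 * G + 4 ^ k) (4 ^ k) l ∧
    ∀ a f : Alg, prodTM k (a ^ G * pval a f (wT k) * a ^ G) (a ^ G * pval a f (wC k) * a ^ G) =
      a ^ G * pval a f l * a ^ G := by
  have hpos : 0 < 4 ^ k := pow_pos (by norm_num) k
  obtain ⟨ws0, hws0⟩ : ∃ ws0 : List (List Slot), ws0 =
    (List.range (4 ^ k)).map fun i => if tm i = 1 then wT k else wC k := ⟨_, rfl⟩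
  have hlen : ws0.length = 4 ^ k := by rw [hws0]; simp
  have hmem : ∀ v ∈ ws0, v.length = 4 ^ k ∧ nPsi v = 0 := by
    intro v hv
    rw [hws0, List.mem_map] at hv
    obtain ⟨i, _, rfl⟩ := hv
    split_ifs
    · exact ⟨wT_length k, nPsi_wT k⟩
    · exact ⟨wC_length k, nPsi_wC k⟩
  have hprod : ∀ a f : Alg,
      prodTM k (a ^ G * pval a f (wT k) * a ^ G) (a ^ G * pval a f (wC k) * a ^ G) =
      (ws0.map fun v => a ^ G * pval a f v * a ^ G).prod := by
    intro a f
    rw [hws0, List.map_map]
    unfold prodTM
    congr 1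
    apply List.map_congr_left
    intro i _
    simp only [Function.comp]
    split_ifs <;> rfl
  cases ws0 with
  | nil => simp only [List.length_nil] at hlen; omega
  | cons w ws =>
    have hw : w.length = 4 ^ k := (hmem w (by simp)).1
    have hws : ∀ v ∈ ws, v.length = 4 ^ k := fun v hv => (hmem v (by simp [hv])).1
    simp only [List.length_cons] at hlen
    have hsumPsi : (ws.map nPsi).sum = 0 := by
      apply List.sum_eq_zero
      intro y hy
      rw [List.mem_map] at hy
      obtain ⟨v, hv, rfl⟩ := hy
      exact (hmem v (by simp [hv])).2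
    have hl : (exCore G w ws).length = 4 ^ k * 4 ^ k + (4 ^ k - 1) * (2 * G) := by
      rw [ex_core_length G w ws hw hws, hlen]
      have : ws.length = 4 ^ k - 1 := by omega
      rw [this]
    refine ⟨exCore G w ws, hl, ?_, ?_, ex_core_Clus G hpos w ws hw hws, fun a f => ?_⟩
    · rw [ex_core_nPsi, hsumPsi, (hmem w (by simp)).2]
    · rw [ex_core_nB]
      have key : ∀ us : List (List Slot), (∀ v ∈ us, v.length = 4 ^ k) →
          (us.map nB).sum ≤ us.length * 4 ^ k := by
        intro us
        induction us with
        | nil => simp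
        | cons u us ih =>
          intro h
          have h1 := ih fun v hv => h v (by simp [hv])
          have h2 := nB_le_length u
          rw [h u (by simp)] at h2
          rw [List.map_cons, List.sum_cons, List.length_cons, add_mul, one_mul]
          omega
      have h1 := key ws hws
      have h2 := nB_le_length w
      rw [hw] at h2
      calc nB w + (ws.map nB).sum ≤ 4 ^ k + ws.length * 4 ^ k := by omega
        _ = (ws.length + 1) * 4 ^ k := by ring
        _ = 4 ^ k * 4 ^ k := by rw [hlen]
    · rw [hprod, ex_core_pval]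

/-- The lists used for powers of `a1`: `w` and `w A^(2G) w`. -/
theorem Clus_wT (k M : ℕ) (hM : 4 ^ k ≤ M) : Clus M (4 ^ k) (wT k) :=
  ex_Clus_small _ (wT_length k) hM

theorem Clus_wT_two (k G : ℕ) : Clus (2 * G + 4 ^ k) (4 ^ k)
    (wT k ++ List.replicate (2 * G) Slot.A ++ wT k) := by
  have hpos : 0 < 4 ^ k := pow_pos (by norm_num) k
  rw [List.append_assoc]
  exact ex_Clus_block G _ _ (wT_length k) hpos (ex_Clus_small _ (wT_length k) (by omega))

end Vale.Agent.P321
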