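import Vale.Agent.P321.Slots

namespace Vale.Agent.P321

open Finset

variable {h : ℕ} {ι : Type} {c : ι → ℝ} {Y Y₁ Y₂ : ι → Alg} {q q₁ q₂ : Alg}
  {B B₁ B₂ : ι → ι → ℝ} {a f L R : Alg} {σ x : ℝ}

/-- The quadratic form of a `GB` bound is at least `(∑ θ c + t)^2`. -/
theorem GB_form_ge {κ : Type} [Fintype κ] (hB : ∀ i j, c i * c j ≤ B i j)
    (i : κ → ι) (θ : κ → ℝ) (t : ℝ) (hθ : ∀ k, 0 ≤ θ k) :
    (∑ k, θ k * c (i k) + t) ^ 2 ≤
      ∑ k, ∑ l, θ k * θ l * B (i k) (i l) + 2 * t * ∑ k, θ k * c (i k) + t ^ 2 := by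
  have h1 : (∑ k, θ k * c (i k)) ^ 2 ≤ ∑ k, ∑ l, θ k * θ l * B (i k) (i l) := by
    rw [sq, Finset.sum_mul_sum]
    refine Finset.sum_le_sum fun k _ => Finset.sum_le_sum fun l _ => ?_
    have h2 : 0 ≤ θ k * θ l := mul_nonneg (hθ k) (hθ l)
    calc θ k * c (i k) * (θ l * c (i l)) = θ k * θ l * (c (i k) * c (i l)) := by ring
      _ ≤ θ k * θ l * B (i k) (i l) := mul_le_mul_of_nonneg_left (hB _ _) h2
  nlinarith [h1]

/-- The quadratic form of a `GB` bound is nonnegative: it is at least `(∑ θ c + t)^2`. -/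
theorem GB_form_nonneg {κ : Type} [Fintype κ] (hc : ∀ i, 0 ≤ c i) (hB : ∀ i j, c i * c j ≤ B i j)
    (i : κ → ι) (θ : κ → ℝ) (t : ℝ) (hθ : ∀ k, 0 ≤ θ k) :
    0 ≤ ∑ k, ∑ l, θ k * θ l * B (i k) (i l) + 2 * t * ∑ k, θ k * c (i k) + t ^ 2 := by
  have _ := hc
  exact (sq_nonneg _).trans (GB_form_ge hB i θ t hθ)

/-- `Y i = c i • q`. -/
theorem GB_const (hh : 1 ≤ h) (hq : nn q) (hc : ∀ i, 0 ≤ c i) (hB : ∀ i j, c i * c j ≤ B i j) :
    GB h c (fun i => c i • q) q B := by
  have _ := hh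
  refine ⟨hq, hc, hB, fun κ _ i θ t hθ => ?_⟩
  have e1 : ∑ k, θ k • (c (i k) • q) + t • q = (∑ k, θ k * c (i k) + t) • q := by
    rw [add_smul, Finset.sum_smul]
    congr 1
    exact Finset.sum_congr rfl fun k _ => by rw [smul_smul]
  rw [e1]
  refine Bd_le (Bd_self _ q) ?_
  rw [mul_comm]
  refine mul_le_mul_of_nonneg_left ?_ (mass_nonneg hq)
  rw [pow_mul]
  exact pow_le_pow_left₀ (sq_nonneg _) (GB_form_ge hB i θ t hθ) h

/-- Base case: `Y = 1`, `q = 1`. -/
theorem GB_one (hh : 1 ≤ h) : GB h (fun _ : ι => (1 : ℝ)) (fun _ => (1 : Alg)) 1 (fun _ _ => 1) := by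
  have := GB_const (c := fun _ : ι => (1 : ℝ)) (B := fun _ _ => 1) hh nn_one
    (fun _ => zero_le_one) (fun _ _ => by norm_num)
  simpa using this

theorem GB_mono (H : GB h c Y q B₁) (hB : ∀ i j, B₁ i j ≤ B₂ i j) : GB h c Y q B₂ := by
  obtain ⟨hq, hc, h1, H⟩ := H
  refine ⟨hq, hc, fun i j => (h1 i j).trans (hB i j), fun κ _ i θ t hθ => ?_⟩
  refine Bd_le (H κ i θ t hθ) ?_
  refine mul_le_mul_of_nonneg_left ?_ (mass_nonneg hq)
  refine pow_le_pow_left₀ (GB_form_nonneg hc h1 i θ t hθ) ?_ h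
  have : ∑ k, ∑ l, θ k * θ l * B₁ (i k) (i l) ≤ ∑ k, ∑ l, θ k * θ l * B₂ (i k) (i l) :=
    Finset.sum_le_sum fun k _ => Finset.sum_le_sum fun l _ =>
      mul_le_mul_of_nonneg_left (hB _ _) (mul_nonneg (hθ k) (hθ l))
  linarith

theorem GB_comp {ι' : Type} (φ : ι' → ι) (H : GB h c Y q B) :
    GB h (fun i => c (φ i)) (fun i => Y (φ i)) q (fun i j => B (φ i) (φ j)) := by
  obtain ⟨hq, hc, h1, H⟩ := H
  exact ⟨hq, fun i => hc _, fun i j => h1 _ _, fun κ _ i θ t hθ => H κ (fun k => φ (i k)) θ t hθ⟩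

/-- Replace `Y i` by `c i • q` outside of `S`; the Gram bound there only needs `≥ c i c j`. -/
theorem GB_replace (S : ι → Prop) [DecidablePred S] (H : GB h c Y q B)
    (hB : ∀ i j, S i → S j → B i j ≤ B₁ i j) (hc : ∀ i j, c i * c j ≤ B₁ i j) :
    GB h c (fun i => if S i then Y i else c i • q) q B₁ := by
  obtain ⟨hq, hc0, h1, H⟩ := H
  refine ⟨hq, hc0, hc, fun κ _ i θ t hθ => ?_⟩
  set θ' : κ → ℝ := fun k => if S (i k) then θ k else 0 with hθ'
  set u : κ → ℝ := fun k => if S (i k) then 0 else θ k * c (i k) with hu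
  have hθ0 : ∀ k, 0 ≤ θ' k := by
    intro k; simp only [hθ']; split_ifs
    · exact hθ k
    · exact le_rfl
  have e1 : ∑ k, θ k • (if S (i k) then Y (i k) else c (i k) • q) + t • q =
      ∑ k, θ' k • Y (i k) + (t + ∑ k, u k) • q := by
    rw [add_smul, Finset.sum_smul]
    have : ∑ k, θ k • (if S (i k) then Y (i k) else c (i k) • q) =
        ∑ k, θ' k • Y (i k) + ∑ k, u k • q := by
      rw [← Finset.sum_add_distrib]
      refine Finset.sum_congr rfl fun k _ => ?_
      simp only [hθ', hu]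
      split_ifs
      · simp
      · simp [smul_smul]
    rw [this]; abel
  rw [e1]
  refine Bd_le (H κ i θ' _ hθ0) ?_
  refine mul_le_mul_of_nonneg_left ?_ (mass_nonneg hq)
  refine pow_le_pow_left₀ (GB_form_nonneg hc0 h1 i θ' _ hθ0) ?_ h
  -- comparison of the forms
  set v : κ → ℝ := fun k => θ' k * c (i k) with hv
  have huv : ∀ k, θ k * c (i k) = v k + u k := by
    intro k; simp only [hv, hθ', hu]; split_ifs <;> simp
  have key : ∑ k, ∑ l, (θ' k * θ' l * B (i k) (i l) + u k * v l + v k * u l + u k * u l) ≤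
      ∑ k, ∑ l, θ k * θ l * B₁ (i k) (i l) := by
    refine Finset.sum_le_sum fun k _ => Finset.sum_le_sum fun l _ => ?_
    have hkl : 0 ≤ θ k * θ l := mul_nonneg (hθ k) (hθ l)
    simp only [hv, hθ', hu]
    by_cases hk : S (i k) <;> by_cases hl : S (i l)
    · simp only [hk, hl, if_true]
      have := mul_le_mul_of_nonneg_left (hB _ _ hk hl) hkl
      linarith
    · simp only [hk, hl, if_true, if_false]
      have := mul_le_mul_of_nonneg_left (hc (i k) (i l)) hkl
      linarith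
    · simp only [hk, hl, if_true, if_false]
      have := mul_le_mul_of_nonneg_left (hc (i k) (i l)) hkl
      linarith
    · simp only [hk, hl, if_false]
      have := mul_le_mul_of_nonneg_left (hc (i k) (i l)) hkl
      linarith
  have key2 : ∑ k, ∑ l, (θ' k * θ' l * B (i k) (i l) + u k * v l + v k * u l + u k * u l) =
      ∑ k, ∑ l, θ' k * θ' l * B (i k) (i l) + (∑ k, u k) * (∑ k, v k) +
        (∑ k, v k) * (∑ k, u k) + (∑ k, u k) * (∑ k, u k) := by
    simp only [Finset.sum_add_distrib, Finset.sum_mul_sum]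
  have key3 : ∑ k, θ k * c (i k) = ∑ k, v k + ∑ k, u k := by
    rw [← Finset.sum_add_distrib]; exact Finset.sum_congr rfl fun k _ => huv k
  rw [key2] at key
  rw [key3]
  nlinarith [key]

theorem GB_slot_left (hctx : Ctx h a f σ x) (H : GB h c Y q B) (α β : ι → ℝ)
    (hα : ∀ i, 0 ≤ α i) (hβ : ∀ i, 0 ≤ β i) :
    GB h (fun i => α i * c i) (fun i => (α i • a + β i • f) * Y i) (a * q)
      (fun i j => (α i * α j + x * (β i * β j)) * B i j) := by
  obtain ⟨hq, hc, h1, H⟩ := H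
  have hx0 : 0 ≤ x := le_trans (by positivity) hctx.hx
  refine ⟨nn_mul hctx.nna hq, fun i => mul_nonneg (hα i) (hc i), fun i j => ?_,
    fun κ _ i θ t hθ => ?_⟩
  · have hB0 : 0 ≤ B i j := (mul_nonneg (hc i) (hc j)).trans (h1 i j)
    have h2 : 0 ≤ α i * α j := mul_nonneg (hα i) (hα j)
    have h3 : 0 ≤ x * (β i * β j) := mul_nonneg hx0 (mul_nonneg (hβ i) (hβ j))
    have h4 := mul_le_mul_of_nonneg_left (h1 i j) h2
    have h5 := mul_nonneg h3 hB0
    nlinarith
  · have e1 : ∑ k, θ k • ((α (i k) • a + β (i k) • f) * Y (i k)) + t • (a * q) =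
        a * (∑ k, (θ k * α (i k)) • Y (i k) + t • q) +
          f * (∑ k, (θ k * β (i k)) • Y (i k) + (0 : ℝ) • q) := by
      rw [zero_smul, add_zero, mul_add, Finset.mul_sum, Finset.mul_sum, mul_smul_comm]
      rw [add_right_comm, ← Finset.sum_add_distrib]
      congr 1
      refine Finset.sum_congr rfl fun k _ => ?_
      rw [add_mul, smul_add, smul_mul_assoc, smul_mul_assoc, smul_smul, smul_smul,
        mul_smul_comm, mul_smul_comm]
    have hθα : ∀ k, 0 ≤ θ k * α (i k) := fun k => mul_nonneg (hθ k) (hα _)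
    have hθβ : ∀ k, 0 ≤ θ k * β (i k) := fun k => mul_nonneg (hθ k) (hβ _)
    rw [e1]
    have hS := Bd_slot_left hctx.hh hctx.nna hctx.ma hctx.s0 hctx.dom hctx.mf hctx.hx hq
      (mass_nonneg hq) (GB_form_nonneg hc h1 i _ t hθα) (GB_form_nonneg hc h1 i _ 0 hθβ)
      (H κ i _ t hθα) (H κ i _ 0 hθβ)
    refine Bd_le hS (le_of_eq ?_)
    rw [mass_mul, hctx.ma, one_mul]
    congr 2
    have e2 : ∑ k, ∑ l, θ k * θ l * ((α (i k) * α (i l) + x * (β (i k) * β (i l))) *
        B (i k) (i l)) = ∑ k, ∑ l, θ k * α (i k) * (θ l * α (i l)) * B (i k) (i l) +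
        x * ∑ k, ∑ l, θ k * β (i k) * (θ l * β (i l)) * B (i k) (i l) := by
      rw [Finset.mul_sum, ← Finset.sum_add_distrib]
      refine Finset.sum_congr rfl fun k _ => ?_
      rw [Finset.mul_sum, ← Finset.sum_add_distrib]
      exact Finset.sum_congr rfl fun l _ => by ring
    have e3 : ∑ k, θ k * (α (i k) * c (i k)) = ∑ k, θ k * α (i k) * c (i k) :=
      Finset.sum_congr rfl fun k _ => by ring
    rw [e2, e3]
    ring

theorem GB_slot_right (hctx : Ctx h a f σ x) (H : GB h c Y q B) (α β : ι → ℝ)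
    (hα : ∀ i, 0 ≤ α i) (hβ : ∀ i, 0 ≤ β i) :
    GB h (fun i => α i * c i) (fun i => Y i * (α i • a + β i • f)) (q * a)
      (fun i j => (α i * α j + x * (β i * β j)) * B i j) := by
  obtain ⟨hq, hc, h1, H⟩ := H
  have hx0 : 0 ≤ x := le_trans (by positivity) hctx.hx
  refine ⟨nn_mul hq hctx.nna, fun i => mul_nonneg (hα i) (hc i), fun i j => ?_,
    fun κ _ i θ t hθ => ?_⟩
  · have hB0 : 0 ≤ B i j := (mul_nonneg (hc i) (hc j)).trans (h1 i j)
    have h2 : 0 ≤ α i * α j := mul_nonneg (hα i) (hα j)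
    have h3 : 0 ≤ x * (β i * β j) := mul_nonneg hx0 (mul_nonneg (hβ i) (hβ j))
    have h4 := mul_le_mul_of_nonneg_left (h1 i j) h2
    have h5 := mul_nonneg h3 hB0
    nlinarith
  · have e1 : ∑ k, θ k • (Y (i k) * (α (i k) • a + β (i k) • f)) + t • (q * a) =
        (∑ k, (θ k * α (i k)) • Y (i k) + t • q) * a +
          (∑ k, (θ k * β (i k)) • Y (i k) + (0 : ℝ) • q) * f := by
      rw [zero_smul, add_zero, add_mul, Finset.sum_mul, Finset.sum_mul, smul_mul_assoc]
      rw [add_right_comm, ← Finset.sum_add_distrib]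
      congr 1
      refine Finset.sum_congr rfl fun k _ => ?_
      rw [mul_add, smul_add, smul_mul_assoc, smul_mul_assoc, mul_smul_comm, mul_smul_comm,
        smul_smul, smul_smul]
    have hθα : ∀ k, 0 ≤ θ k * α (i k) := fun k => mul_nonneg (hθ k) (hα _)
    have hθβ : ∀ k, 0 ≤ θ k * β (i k) := fun k => mul_nonneg (hθ k) (hβ _)
    rw [e1]
    have hS := Bd_slot_right hctx.hh hctx.nna hctx.ma hctx.s0 hctx.dom hctx.mf hctx.hx hq
      (mass_nonneg hq) (GB_form_nonneg hc h1 i _ t hθα) (GB_form_nonneg hc h1 i _ 0 hθβ)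
      (H κ i _ t hθα) (H κ i _ 0 hθβ)
    refine Bd_le hS (le_of_eq ?_)
    rw [mass_mul, hctx.ma, mul_one]
    congr 2
    have e2 : ∑ k, ∑ l, θ k * θ l * ((α (i k) * α (i l) + x * (β (i k) * β (i l))) *
        B (i k) (i l)) = ∑ k, ∑ l, θ k * α (i k) * (θ l * α (i l)) * B (i k) (i l) +
        x * ∑ k, ∑ l, θ k * β (i k) * (θ l * β (i l)) * B (i k) (i l) := by
      rw [Finset.mul_sum, ← Finset.sum_add_distrib]
      refine Finset.sum_congr rfl fun k _ => ?_
      rw [Finset.mul_sum, ← Finset.sum_add_distrib]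
      exact Finset.sum_congr rfl fun l _ => by ring
    have e3 : ∑ k, θ k * (α (i k) * c (i k)) = ∑ k, θ k * α (i k) * c (i k) :=
      Finset.sum_congr rfl fun k _ => by ring
    rw [e2, e3]
    ring

theorem GB_slot_val (a f : Alg) (s : Slot) : Slot.val a f s = s.al • a + s.be • f := by
  cases s <;> simp [Slot.val, Slot.al, Slot.be]

theorem GB_slot_al_nonneg (s : Slot) : 0 ≤ s.al := by
  cases s <;> simp [Slot.al]

theorem GB_slot_be_nonneg (s : Slot) : 0 ≤ s.be := by
  cases s <;> simp [Slot.be]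

/-- Lists of slots of the same length `n`, multiplied on the left (induction on `n`). -/
theorem GB_lists_left (hctx : Ctx h a f σ x) (H : GB h c Y q B) (n : ℕ) (l : ι → List Slot)
    (hl : ∀ i, (l i).length = n) :
    GB h (fun i => alp (l i) * c i) (fun i => pval a f (l i) * Y i) (a ^ n * q)
      (fun i j => gram x (l i) (l j) * B i j) := by
  induction n generalizing l with
  | zero =>
    have hl' : ∀ i, l i = [] := fun i => List.length_eq_zero_iff.1 (hl i)
    simpa [hl', alp, pval, gram] using H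
  | succ n ih =>
    have hex : ∀ i, ∃ s l', l i = s :: l' ∧ l'.length = n := by
      intro i
      obtain ⟨s, l', h1⟩ := List.exists_cons_of_length_eq_add_one (hl i)
      exact ⟨s, l', h1, by have := hl i; rw [h1] at this; simpa using this⟩
    choose s l' hs hl' using hex
    have := GB_slot_left hctx (ih l' hl') (fun i => (s i).al) (fun i => (s i).be)
      (fun i => GB_slot_al_nonneg _) (fun i => GB_slot_be_nonneg _)
    convert this using 1
    · funext i
      rw [hs i]; simp [alp, mul_assoc]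
    · funext i
      rw [hs i]; simp [pval, GB_slot_val, mul_assoc]
    · rw [pow_succ', mul_assoc]
    · funext i j
      rw [hs i, hs j]; simp [gram, mul_assoc]

theorem GB_lists_right (hctx : Ctx h a f σ x) (H : GB h c Y q B) (n : ℕ) (l : ι → List Slot)
    (hl : ∀ i, (l i).length = n) :
    GB h (fun i => alp (l i) * c i) (fun i => Y i * pval a f (l i)) (q * a ^ n)
      (fun i j => gram x (l i) (l j) * B i j) := by
  induction n generalizing l c Y q B with
  | zero =>
    have hl' : ∀ i, l i = [] := fun i => List.length_eq_zero_iff.1 (hl i)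
    simpa [hl', alp, pval, gram] using H
  | succ n ih =>
    have hex : ∀ i, ∃ s l', l i = s :: l' ∧ l'.length = n := by
      intro i
      obtain ⟨s, l', h1⟩ := List.exists_cons_of_length_eq_add_one (hl i)
      exact ⟨s, l', h1, by have := hl i; rw [h1] at this; simpa using this⟩
    choose s l' hs hl' using hex
    have := ih (GB_slot_right hctx H (fun i => (s i).al) (fun i => (s i).be)
      (fun i => GB_slot_al_nonneg _) (fun i => GB_slot_be_nonneg _)) l' hl'
    convert this using 1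
    · funext i
      rw [hs i]; simp only [alp, List.map_cons, List.prod_cons]; ring
    · funext i
      rw [hs i]; simp [pval, GB_slot_val, mul_assoc]
    · rw [pow_succ', mul_assoc]
    · funext i j
      rw [hs i, hs j]; simp only [gram, List.zipWith_cons_cons, List.prod_cons]; ring

theorem GB_mul_left (hL : nn L) (H : GB h c Y q B) :
    GB h c (fun i => L * Y i) (L * q) B := by
  obtain ⟨hq, hc, h1, H⟩ := H
  refine ⟨nn_mul hL hq, hc, h1, fun κ _ i θ t hθ => ?_⟩
  have e1 : ∑ k, θ k • (L * Y (i k)) + t • (L * q) = L * (∑ k, θ k • Y (i k) + t • q) := by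
    rw [mul_add, Finset.mul_sum, mul_smul_comm]
    congr 1
    exact Finset.sum_congr rfl fun k _ => by rw [mul_smul_comm]
  rw [e1, mass_mul, mul_assoc]
  exact Bd_mul_left hL hq (H κ i θ t hθ)

theorem GB_mul_right (hR : nn R) (H : GB h c Y q B) :
    GB h c (fun i => Y i * R) (q * R) B := by
  obtain ⟨hq, hc, h1, H⟩ := H
  refine ⟨nn_mul hq hR, hc, h1, fun κ _ i θ t hθ => ?_⟩
  have e1 : ∑ k, θ k • (Y (i k) * R) + t • (q * R) = (∑ k, θ k • Y (i k) + t • q) * R := by
    rw [add_mul, Finset.sum_mul, smul_mul_assoc]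
    congr 1
    exact Finset.sum_congr rfl fun k _ => by rw [smul_mul_assoc]
  rw [e1, mass_mul]
  refine Bd_le (Bd_mul_right hR hq (H κ i θ t hθ)) (le_of_eq ?_)
  ring

/-- Sum over branches: references add, same Gram bound. -/
theorem GB_add (H₁ : GB h c Y₁ q₁ B) (H₂ : GB h c Y₂ q₂ B) :
    GB h c (fun i => Y₁ i + Y₂ i) (q₁ + q₂) B := by
  obtain ⟨hq₁, hc, h1, H₁⟩ := H₁
  obtain ⟨hq₂, -, -, H₂⟩ := H₂
  refine ⟨nn_add hq₁ hq₂, hc, h1, fun κ _ i θ t hθ => ?_⟩
  have e1 : ∑ k, θ k • (Y₁ (i k) + Y₂ (i k)) + t • (q₁ + q₂) =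
      (∑ k, θ k • Y₁ (i k) + t • q₁) + (∑ k, θ k • Y₂ (i k) + t • q₂) := by
    simp only [smul_add, Finset.sum_add_distrib]
    abel
  rw [e1, mass_add, add_mul]
  exact Bd_add hq₁ hq₂ (H₁ κ i θ t hθ) (H₂ κ i θ t hθ)

/-- For `h = 1` the Gram bounds of the branches may be averaged. -/
theorem GB_add_one (H₁ : GB 1 c Y₁ q₁ B₁) (H₂ : GB 1 c Y₂ q₂ B₂)
    (hm : mass q₁ + mass q₂ = 1) :
    GB 1 c (fun i => Y₁ i + Y₂ i) (q₁ + q₂)
      (fun i j => mass q₁ * B₁ i j + mass q₂ * B₂ i j) := by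
  obtain ⟨hq₁, hc, h1, H₁⟩ := H₁
  obtain ⟨hq₂, -, h2, H₂⟩ := H₂
  have m1 := mass_nonneg hq₁
  have m2 := mass_nonneg hq₂
  refine ⟨nn_add hq₁ hq₂, hc, fun i j => ?_, fun κ _ i θ t hθ => ?_⟩
  · have e1 := mul_le_mul_of_nonneg_left (h1 i j) m1
    have e2 := mul_le_mul_of_nonneg_left (h2 i j) m2
    have e3 : c i * c j = mass q₁ * (c i * c j) + mass q₂ * (c i * c j) := by
      rw [← add_mul, hm, one_mul]
    linarith
  · have e1 : ∑ k, θ k • (Y₁ (i k) + Y₂ (i k)) + t • (q₁ + q₂) =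
        (∑ k, θ k • Y₁ (i k) + t • q₁) + (∑ k, θ k • Y₂ (i k) + t • q₂) := by
      simp only [smul_add, Finset.sum_add_distrib]
      abel
    rw [e1]
    refine Bd_le (Bd_add hq₁ hq₂ (H₁ κ i θ t hθ) (H₂ κ i θ t hθ)) (le_of_eq ?_)
    rw [mass_add, hm, pow_one, pow_one, pow_one, one_mul]
    have e2 : ∑ k, ∑ l, θ k * θ l * (mass q₁ * B₁ (i k) (i l) + mass q₂ * B₂ (i k) (i l)) =
        mass q₁ * ∑ k, ∑ l, θ k * θ l * B₁ (i k) (i l) +
        mass q₂ * ∑ k, ∑ l, θ k * θ l * B₂ (i k) (i l) := by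
      rw [Finset.mul_sum, Finset.mul_sum, ← Finset.sum_add_distrib]
      refine Finset.sum_congr rfl fun k _ => ?_
      rw [Finset.mul_sum, Finset.mul_sum, ← Finset.sum_add_distrib]
      exact Finset.sum_congr rfl fun l _ => by ring
    rw [e2]
    have e3 : mass q₂ = 1 - mass q₁ := by linarith
    rw [e3]
    ring

theorem GB_smul {k : ℝ} (hk : 0 ≤ k) (H : GB h c Y q B) :
    GB h c (fun i => k • Y i) (k • q) B := by
  obtain ⟨hq, hc, h1, H⟩ := H
  refine ⟨nn_smul hk hq, hc, h1, fun κ _ i θ t hθ => ?_⟩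
  have e1 : ∑ j, θ j • (k • Y (i j)) + t • (k • q) = k • (∑ j, θ j • Y (i j) + t • q) := by
    rw [smul_add, Finset.smul_sum, smul_comm t k]
    congr 1
    exact Finset.sum_congr rfl fun j _ => smul_comm _ _ _
  rw [e1, mass_smul, mul_assoc]
  exact Bd_smul_ref hk (H κ i θ t hθ)

/-- The hidden fair coin. -/
theorem GB_avg {c : ℝ} {Y : ℤ → Alg} {B : ℤ → ℤ → ℝ} (s : ℤ) (H : GB h (fun _ => c) Y q B) :
    GB h (fun _ => c) (fun D => (1 / 2 : ℝ) • (Y D + Y (D + s))) q
      (fun D D' => (B D D' + B D (D' + s) + B (D + s) D' + B (D + s) (D' + s)) / 4) := by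
  obtain ⟨hq, hc, h1, H⟩ := H
  refine ⟨hq, hc, fun i j => ?_, fun κ _ i θ t hθ => ?_⟩
  · have := h1 i j
    have := h1 i (j + s)
    have := h1 (i + s) j
    have := h1 (i + s) (j + s)
    linarith
  · have e1 : ∑ k, θ k • ((1 / 2 : ℝ) • (Y (i k) + Y (i k + s))) + t • q =
        ∑ k : κ ⊕ κ, (Sum.elim (fun k => θ k / 2) (fun k => θ k / 2) k) •
          Y (Sum.elim (fun k => i k) (fun k => i k + s) k) + t • q := by
      rw [Fintype.sum_sum_type]
      simp only [Sum.elim_inl, Sum.elim_inr]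
      rw [← Finset.sum_add_distrib]
      congr 1
      refine Finset.sum_congr rfl fun k _ => ?_
      rw [smul_smul, smul_add]
      congr 2 <;> ring
    rw [e1]
    refine Bd_le (H (κ ⊕ κ) _ _ t ?_) (le_of_eq ?_)
    · rintro (k | k)
      · exact div_nonneg (hθ k) (by norm_num)
      · exact div_nonneg (hθ k) (by norm_num)
    · congr 2
      simp only [Fintype.sum_sum_type, Sum.elim_inl, Sum.elim_inr]
      congr 1
      congr 1
      · rw [← Finset.sum_add_distrib]
        refine Finset.sum_congr rfl fun k _ => ?_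
        rw [← Finset.sum_add_distrib, ← Finset.sum_add_distrib, ← Finset.sum_add_distrib]
        exact Finset.sum_congr rfl fun l _ => by ring
      · congr 1
        rw [← Finset.sum_add_distrib]
        exact Finset.sum_congr rfl fun l _ => by ring

/-- Output: `θ = 1`, `t = - c i`. -/
theorem GB_single (H : GB h c Y q B) (i : ι) :
    Bd h (Y i - c i • q) q (mass q * (B i i - c i ^ 2) ^ h) := by
  obtain ⟨hq, hc, h1, H⟩ := H
  have := H Unit (fun _ => i) (fun _ => 1) (-c i) (fun _ => zero_le_one)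
  have e1 : ∑ k : Unit, (1 : ℝ) • Y i + (-c i) • q = Y i - c i • q := by
    simp [sub_eq_add_neg]
  rw [e1] at this
  refine Bd_le this (le_of_eq ?_)
  congr 2
  simp
  ring

end Vale.Agent.P321
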