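import Vale.Agent.P321.Window
import Vale.Agent.P321.Coin
import Vale.Agent.P321.Expand

namespace Vale.Agent.P321

open Finset

theorem hs_pow_sub {u v : Alg} (hu : nn u) (hmu : mass u = 1) (hv : nn v) (hmv : mass v = 1)
    (K : ℕ) : n1 (u ^ K - v ^ K) ≤ K * n1 (u - v) := by
  induction K with
  | zero => simp
  | succ K ih =>
    have e : u ^ (K + 1) - v ^ (K + 1) = u ^ K * (u - v) + (u ^ K - v ^ K) * v := by
      rw [pow_succ, pow_succ, mul_sub, sub_mul]; abel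
    rw [e]
    refine (n1_add_le _ _).trans ?_
    have h1 : n1 (u ^ K * (u - v)) ≤ n1 (u - v) :=
      n1_mul_left_le (nn_pow hu K) (by rw [mass_pow, hmu, one_pow]) _
    have h2 : n1 ((u ^ K - v ^ K) * v) ≤ n1 (u ^ K - v ^ K) :=
      n1_mul_right_le hv hmv.le _
    push_cast
    linarith

/-- numerical smallness of `y` -/
theorem hs_y (P : ℕ) {x t : ℝ} (hx : 0 ≤ x) (hxt : x ≤ t) (ht : 2 * P * t ≤ 1) :
    (1 + x) ^ (2 * P) - 1 ≤ 4 * P * t := by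
  have h0 : 0 ≤ t := hx.trans hxt
  have h1 : (1 + x) ^ (2 * P) ≤ Real.exp (2 * P * t) := by
    calc (1 + x) ^ (2 * P) ≤ (Real.exp t) ^ (2 * P) :=
          pow_le_pow_left₀ (by positivity) (by linarith [Real.add_one_le_exp t]) _
      _ = Real.exp (2 * P * t) := by
          rw [← Real.exp_nat_mul]; congr 1; push_cast; ring
  have h2 : 0 ≤ 2 * (P:ℝ) * t := by positivity
  have h3 : Real.exp (2 * P * t) - 1 - 2 * P * t ≤ (2 * P * t) ^ 2 :=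
    (le_abs_self _).trans (Real.abs_exp_sub_one_sub_id_le (by rwa [abs_of_nonneg h2]))
  nlinarith

/-- the Gram error is small -/
theorem hs_beta (v w P L n : ℕ) (hvw : v + 4 ≤ w) (hP1 : 1 ≤ P) (hLr : (10:ℝ) ≤ L)
    (hLcr : 1536 * 1600 * (P:ℝ) ^ 2 ≤ L) {σ : ℝ}
    (hsw : σ ^ 2 * (L : ℝ) ^ w ≤ 1) (hn2r : (n:ℝ) ≤ 3 * (L:ℝ) ^ (2 * v + 6)) :
    8 * P * ((1 + 16 * σ ^ 2) ^ (2 * P) - 1) * (1 + Real.sqrt n) ≤ 1 / 1600 := by
  have hP1r : (1:ℝ) ≤ P := by exact_mod_cast hP1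
  have hL0 : (0:ℝ) < L := by linarith
  have hx0 : 0 ≤ 16 * σ ^ 2 := by positivity
  have hxt : 16 * σ ^ 2 ≤ 16 / (L:ℝ) ^ (v + 4) := by
    rw [le_div_iff₀ (by positivity)]
    have h1 : (L:ℝ) ^ (v + 4) ≤ (L:ℝ) ^ w := pow_le_pow_right₀ (by linarith) hvw
    have h2 : σ ^ 2 * (L:ℝ) ^ (v + 4) ≤ σ ^ 2 * (L:ℝ) ^ w :=
      mul_le_mul_of_nonneg_left h1 (sq_nonneg σ)
    linarith
  have hLv : (L:ℝ) ≤ (L:ℝ) ^ (v + 4) := by
    calc (L:ℝ) = (L:ℝ) ^ 1 := (pow_one _).symm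
      _ ≤ (L:ℝ) ^ (v + 4) := pow_le_pow_right₀ (by linarith) (by omega)
  have ht : 2 * (P:ℝ) * (16 / (L:ℝ) ^ (v + 4)) ≤ 1 := by
    rw [← mul_div_assoc, div_le_one (by positivity)]
    nlinarith
  have hyt := hs_y P hx0 hxt ht
  have hsq : Real.sqrt n ≤ 2 * (L:ℝ) ^ (v + 3) := by
    rw [Real.sqrt_le_left (by positivity)]
    have : (2 * (L:ℝ) ^ (v + 3)) ^ 2 = 4 * (L:ℝ) ^ (2 * v + 6) := by
      rw [mul_pow, ← pow_mul]; norm_num; congr 1; ring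
    rw [this]
    have : 0 ≤ (L:ℝ) ^ (2 * v + 6) := by positivity
    linarith
  have hL3 : (1:ℝ) ≤ (L:ℝ) ^ (v + 3) := one_le_pow₀ (by linarith)
  have hysq : ((1 + 16 * σ ^ 2) ^ (2 * P) - 1) * (1 + Real.sqrt n) ≤ 192 * P / L := by
    have h1 : ((1 + 16 * σ ^ 2) ^ (2 * P) - 1) * (1 + Real.sqrt n) ≤
        4 * P * (16 / (L:ℝ) ^ (v + 4)) * (3 * (L:ℝ) ^ (v + 3)) :=
      mul_le_mul hyt (by linarith) (by positivity) (by positivity)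
    refine h1.trans (le_of_eq ?_)
    have : (L:ℝ) ^ (v + 4) = (L:ℝ) ^ (v + 3) * L := by rw [← pow_succ]
    rw [this]
    field_simp
    ring
  have h1 : 8 * P * ((1 + 16 * σ ^ 2) ^ (2 * P) - 1) * (1 + Real.sqrt n) ≤
      8 * P * (192 * P / L) := by
    have := mul_le_mul_of_nonneg_left hysq (by positivity : (0:ℝ) ≤ 8 * P)
    linarith
  refine h1.trans ?_
  rw [← mul_div_assoc, div_le_iff₀ hL0]
  linarith

theorem hs_exp1 (v n L d : ℕ) (hn1 : 1 ≤ n) (hLr : (10:ℝ) ≤ L)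
    (hdr : (d:ℝ) = (L:ℝ) ^ (v + 4)) (hn2r : (n:ℝ) ≤ 3 * (L:ℝ) ^ (2 * v + 6)) :
    4 * Real.exp (-((d : ℝ) ^ 2 / n)) ≤ 1 / 20 := by
  have hn0 : (0:ℝ) < n := by exact_mod_cast hn1
  have h1 : (L:ℝ) ^ 2 / 3 ≤ (d:ℝ) ^ 2 / n := by
    rw [div_le_div_iff₀ (by norm_num) hn0, hdr]
    have e1 : ((L:ℝ) ^ (v + 4)) ^ 2 = (L:ℝ) ^ 2 * (L:ℝ) ^ (2 * v + 6) := by
      rw [← pow_mul, ← pow_add]; congr 1; ring
    rw [e1]
    have := mul_le_mul_of_nonneg_left hn2r (sq_nonneg (L:ℝ))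
    linarith
  have h0 : (100:ℝ) / 3 ≤ (L:ℝ) ^ 2 / 3 := by nlinarith
  have h2 : Real.exp (-((d : ℝ) ^ 2 / n)) ≤ Real.exp (-(100 / 3)) := by
    apply Real.exp_le_exp.2
    linarith
  have h3 : Real.exp (-(100 / 3 : ℝ)) ≤ 1 / 80 := by
    have h5 : Real.exp (100 / 3 : ℝ) = Real.exp (50 / 3) * Real.exp (50 / 3) := by
      rw [← Real.exp_add]; norm_num
    have h6 : (10:ℝ) ≤ Real.exp (50 / 3) := by
      linarith [Real.add_one_le_exp (50 / 3 : ℝ)]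
    rw [Real.exp_neg, inv_eq_one_div]
    apply one_div_le_one_div_of_le (by norm_num)
    rw [h5]
    have := mul_le_mul h6 h6 (by norm_num) (by positivity)
    linarith
  linarith

theorem hs_exp2 (m n L : ℕ) (hL0 : (0:ℝ) < L) (hL1 : (1:ℝ) ≤ L)
    (hn2r : (n:ℝ) ≤ 3 * (L:ℝ) ^ m) (h4 : (L : ℝ) ^ m * Real.exp (-(L : ℝ)) ≤ 1 / 600) :
    4 * n * (1 - (1 / (L:ℝ)) ^ 2) ^ (L ^ 3) ≤ 1 / 50 := by
  have h7 : (1 / (L:ℝ)) ^ 2 ≤ 1 := pow_le_one₀ (by positivity) ((div_le_one hL0).2 hL1)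
  have h3 : 0 ≤ 1 - (1 / (L:ℝ)) ^ 2 := by linarith
  have h1 : (1 - (1 / (L:ℝ)) ^ 2) ^ (L ^ 3) ≤ Real.exp (-(L:ℝ)) := by
    have h2 : 1 - (1 / (L:ℝ)) ^ 2 ≤ Real.exp (-(1 / (L:ℝ)) ^ 2) := by
      linarith [Real.add_one_le_exp (-(1 / (L:ℝ)) ^ 2)]
    calc (1 - (1 / (L:ℝ)) ^ 2) ^ (L ^ 3) ≤ (Real.exp (-(1 / (L:ℝ)) ^ 2)) ^ (L ^ 3) :=
          pow_le_pow_left₀ h3 h2 _
      _ = Real.exp (-(L:ℝ)) := by
          rw [← Real.exp_nat_mul]; congr 1; push_cast; field_simp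
  have h6 : 4 * (n:ℝ) * (1 - (1 / (L:ℝ)) ^ 2) ^ (L ^ 3) ≤ 4 * (3 * (L:ℝ) ^ m) *
      Real.exp (-(L:ℝ)) := by
    refine mul_le_mul (by linarith) h1 (pow_nonneg h3 _) (by positivity)
  refine h6.trans ?_
  linarith

theorem hs_W (v L d : ℕ) (hLb : 10 ≤ L) (hd : d = L ^ (v + 4)) :
    2 * d + 1 + 2 * L ^ 3 * (L ^ v + 1) ≤ 2 * (2 * d) := by
  have e1 : L ^ 3 * L ^ v = L ^ (v + 3) := by rw [← pow_add]; congr 1; omega
  have e2 : d = L ^ (v + 3) * L := by rw [hd, ← pow_succ]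
  have e3 : L ^ 3 ≤ L ^ (v + 3) := Nat.pow_le_pow_right (by omega) (by omega)
  have e4 : 1 ≤ L ^ (v + 3) := Nat.one_le_pow _ _ (by omega)
  have e5 : L ^ (v + 3) * 10 ≤ L ^ (v + 3) * L := Nat.mul_le_mul_left _ hLb
  have e6 : 2 * L ^ 3 * (L ^ v + 1) = 2 * L ^ (v + 3) + 2 * L ^ 3 := by rw [← e1]; ring
  rw [e6, e2]
  omega

theorem hs_evt (m : ℕ) : ∃ L1 : ℕ, ∀ L : ℕ, L1 ≤ L →
      (L : ℝ) ^ m * Real.exp (-(L : ℝ)) ≤ 1 / 600 := by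
  have h := (Real.tendsto_pow_mul_exp_neg_atTop_nhds_zero m).comp tendsto_natCast_atTop_atTop
  have h2 := h.eventually_le_const (show (0:ℝ) < 1 / 600 by norm_num)
  rw [Filter.eventually_atTop] at h2
  exact h2

/-- One window, crude numerical form. -/
theorem hs_window (k v w : ℕ) (hvw : v + 4 ≤ w) : ∃ L0 : ℕ, ∀ L : ℕ, L0 ≤ L →
    ∀ (a f : Alg) (σ : ℝ), nn a → mass a = 1 → nn (a + f) → mass f = 0 → Dom σ f a → 0 ≤ σ →
    σ ^ 2 * (L : ℝ) ^ w ≤ 1 → H1 a (L ^ v) (1 / L) →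
    ∀ n : ℕ, 1 ≤ n → n ≤ 3 * L ^ (2 * v + 6) →
    n1 ((a ^ (2 * L ^ (v + 4)) * pval a f (wT k) * a ^ (2 * L ^ (v + 4))) ^ (2 * n + 1) -
      a ^ ((2 * n + 1) * (2 * (2 * L ^ (v + 4)) + 4 ^ k))) ≤ 1 / 10 := by
  obtain ⟨L1, hL1⟩ := hs_evt (2 * v + 6)
  refine ⟨L1 + 10 + 1536 * 1600 * (4 ^ k) ^ 2, ?_⟩
  intro L hL a f σ ha hm hab hmf hdom hs hsw hH n hn1 hn2
  have hLa : L1 ≤ L := by omega
  have hLb : 10 ≤ L := by omega
  have hLc : 1536 * 1600 * (4 ^ k) ^ 2 ≤ L := by omega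
  have hLr : (10:ℝ) ≤ L := by exact_mod_cast hLb
  have hL0 : (0:ℝ) < L := by linarith
  set P : ℕ := 4 ^ k with hP
  have hP1 : 1 ≤ P := Nat.one_le_pow _ _ (by norm_num)
  have hLcr : 1536 * 1600 * (P:ℝ) ^ 2 ≤ L := by exact_mod_cast hLc
  have hx0 : 0 ≤ 16 * σ ^ 2 := by positivity
  have hctx : Ctx 1 a f σ (16 * σ ^ 2) := ⟨le_rfl, ha, hm, hab, hs, hdom, hmf, by norm_num⟩
  have hlam0 : (0:ℝ) < 1 / L := by positivity
  have hlam1 : (1:ℝ) / L ≤ 1 := by rw [div_le_one hL0]; linarith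
  obtain ⟨d, hd⟩ : ∃ d, d = L ^ (v + 4) := ⟨_, rfl⟩
  have hdr : (d:ℝ) = (L:ℝ) ^ (v + 4) := by rw [hd]; push_cast; ring
  have hd1 : 1 ≤ d := by rw [hd]; exact Nat.one_le_pow _ _ (by omega)
  have hn2r : (n:ℝ) ≤ 3 * (L:ℝ) ^ (2 * v + 6) := by exact_mod_cast hn2
  have hβ := hs_beta v w P L n hvw hP1 hLr hLcr hsw hn2r
  have hWd := hs_W v L d hLb hd
  have hexp1 := hs_exp1 v n L d hn1 hLr hdr hn2r
  have hexp2 := hs_exp2 (2 * v + 6) n L hL0 (by linarith) hn2r (hL1 L hLa)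
  rw [← hd]
  have hy0 : 0 ≤ (1 + 16 * σ ^ 2) ^ (2 * P) - 1 := by
    linarith [one_le_pow₀ (by linarith : (1:ℝ) ≤ 1 + 16 * σ ^ 2) (n := 2 * P)]
  obtain ⟨y, hy⟩ : ∃ y, y = (1 + 16 * σ ^ 2) ^ (2 * P) - 1 := ⟨_, rfl⟩
  rw [← hy] at hy0 hβ
  have hβ0 : 0 ≤ 8 * P * y * (1 + Real.sqrt n) := by positivity
  have hlen : (wT k).length = P := wT_length k
  have hcore := core_one (d := d) hctx (wT k) P (2 * d + P) P (nPsi_wT k)
    (Clus_wT k (2 * d + P) (by omega)) le_rfl (by rw [← hlen]; exact nB_le_length _)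
  rw [hlen] at hcore
  obtain ⟨hnw, hmw⟩ := nn_pval hctx (wT k) (nPsi_wT k)
  have hT : n1 (pval a f (wT k)) ≤ 1 := by rw [n1_of_nn hnw, hmw]
  have hJ : 1 ≤ L ^ 3 := Nat.one_le_pow _ _ (by omega)
  obtain ⟨Y, hY1, hY2⟩ := window hctx hH hlam0 hlam1 (Or.inr rfl) (wT k) hlen (nPsi_wT k) hT
    hcore hJ hWd n hn1 (2 * d) (2 * d) (by omega) (by omega)
  rw [← hy] at hY1
  have hrec := recB_one y y hy0 le_rfl P (bump ((1 + 16 * σ ^ 2) ^ P - 1) P) (by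
    intro D
    unfold bump
    split_ifs
    · have : (1 + 16 * σ ^ 2) ^ P ≤ (1 + 16 * σ ^ 2) ^ (2 * P) :=
        pow_le_pow_right₀ (by linarith) (by omega)
      rw [hy]; linarith
    · exact le_rfl) n (by linarith) 0
  obtain ⟨Q, hQ⟩ : ∃ Q, Q = 2 * d + 2 * d + (P + n * (2 * (2 * (2 * d)) + 2 * P)) := ⟨_, rfl⟩
  rw [← hQ] at hY1
  have hB : Bd 1 (Y - (1:ℝ) • a ^ Q) (a ^ Q) ((8 * P * y * (1 + Real.sqrt n)) ^ 1) := by
    refine Bd_le hY1 ?_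
    rw [pow_one, pow_one]
    linarith
  have hn := Bd_n1 le_rfl (nn_pow ha Q) (by rw [mass_pow, hm, one_pow]) hβ0 hB
  have hn' : n1 (Y - a ^ Q) ≤ 3 / 100 := by
    rw [one_smul] at hn
    refine hn.trans ?_
    rw [Real.sqrt_le_left (by norm_num)]
    refine hβ.trans (by norm_num)
  have e1 : (a ^ (2 * d) * pval a f (wT k) * a ^ (2 * d)) ^ (2 * n + 1) =
      a ^ (2 * d) * tower a (pval a f (wT k)) (2 * (2 * d)) (pval a f (wT k)) n * a ^ (2 * d) := by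
    rw [← tower_eq]
    rw [← pow_succ, ← pow_add]
    congr 1
    omega
  have e2 : (2 * n + 1) * (2 * (2 * d) + P) = Q := by rw [hQ]; ring
  rw [e1, e2]
  refine (n1_triangle _ Y _).trans ?_
  linarith

/-- Coins at the next level. `G = 2 L^(v+4)`, `a1 = a^G (pval a f wT) a^G`, `M = 2G + 4^k`,
`g = L^(2v+6)`, `d = L^(v+4)`, `J = L^3`, `h = 1`, `x = 16 σ^2`. `window` with `c = 1` gives
`n1 (a1^(2g+1) - a^((2g+1)M))` small; `alpha` with `H = L^(2v+10)` gives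
`n1 (a^((2g+2)M) - a^((2g+1)M))` small; so `n1 (a1^K - a1^(K+1)) ≤ 1/2` for `K = L^(2v+7)`;
perturb to `a'` and use `H1_of_close`, `H1_mono`. -/
theorem h1_step (k v w : ℕ) (hvw : v + 4 ≤ w) : ∃ L0 : ℕ, ∀ L : ℕ, L0 ≤ L →
    ∀ (a f : Alg) (σ : ℝ), nn a → mass a = 1 → nn (a + f) → mass f = 0 → Dom σ f a → 0 ≤ σ →
    σ ^ 2 * (L : ℝ) ^ w ≤ 1 → H1 a (L ^ v) (1 / L) →
    ∀ a' : Alg, nn a' → mass a' = 1 →
    n1 (a' - a ^ (2 * L ^ (v + 4)) * pval a f (wT k) * a ^ (2 * L ^ (v + 4))) *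
      (L : ℝ) ^ (2 * v + 8) ≤ 1 →
    H1 a' (L ^ (2 * v + 7)) (1 / L) := by
  obtain ⟨L1, hL1⟩ := hs_window k v w hvw
  refine ⟨L1 + 10000 + 4 ^ k, ?_⟩
  intro L hL a f σ ha hm hab hmf hdom hs hsw hH a' ha' hm' hclose
  have hLa : L1 ≤ L := le_trans (by rw [add_assoc]; exact Nat.le_add_right _ _) hL
  have hLb : 10000 ≤ L := by
    have := Nat.zero_le (4 ^ k)
    omega
  have hLc : 4 ^ k ≤ L := le_trans (Nat.le_add_left _ _) hL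
  have hLr : (10000:ℝ) ≤ L := by exact_mod_cast hLb
  have hL0 : (0:ℝ) < L := by linarith
  have hctx : Ctx 1 a f σ (16 * σ ^ 2) := ⟨le_rfl, ha, hm, hab, hs, hdom, hmf, by norm_num⟩
  obtain ⟨hnw, hmw⟩ := nn_pval hctx (wT k) (nPsi_wT k)
  have hlam0 : (0:ℝ) < 1 / L := by positivity
  have hlam1 : (1:ℝ) / L ≤ 1 := by rw [div_le_one hL0]; linarith
  obtain ⟨G, hG⟩ : ∃ G, G = 2 * L ^ (v + 4) := ⟨_, rfl⟩
  obtain ⟨g, hg⟩ : ∃ g, g = L ^ (2 * v + 6) := ⟨_, rfl⟩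
  have hg1 : 1 ≤ g := by rw [hg]; exact Nat.one_le_pow _ _ (by omega)
  have hw := hL1 L hLa a f σ ha hm hab hmf hdom hs hsw hH
  rw [← hG] at hw hclose
  rw [← hg] at hw
  obtain ⟨a1, ha1⟩ : ∃ a1, a1 = a ^ G * pval a f (wT k) * a ^ G := ⟨_, rfl⟩
  rw [← ha1] at hw hclose
  have hn1 : nn a1 := by
    rw [ha1]; exact nn_mul (nn_mul (nn_pow ha _) hnw) (nn_pow ha _)
  have hm1 : mass a1 = 1 := by
    rw [ha1, mass_mul, mass_mul, mass_pow, hm, hmw]; simp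
  obtain ⟨M, hM⟩ : ∃ M, M = 2 * G + 4 ^ k := ⟨_, rfl⟩
  rw [← hM] at hw
  have hA := hw g hg1 (by omega)
  have hB := hw (2 * g + 1) (by omega) (by omega)
  have hC : n1 (a1 ^ (2 * (2 * g + 1)) - a ^ (2 * (2 * g + 1) * M)) ≤ 1 / 5 := by
    have h1 := hs_pow_sub (u := a1 ^ (2 * g + 1)) (v := a ^ ((2 * g + 1) * M)) (nn_pow hn1 _)
      (by rw [mass_pow, hm1, one_pow]) (nn_pow ha _) (by rw [mass_pow, hm, one_pow]) 2
    rw [← pow_mul, ← pow_mul] at h1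
    have e1 : (2 * g + 1) * 2 = 2 * (2 * g + 1) := by ring
    have e2 : (2 * g + 1) * M * 2 = 2 * (2 * g + 1) * M := by ring
    rw [e1, e2] at h1
    push_cast at h1
    linarith
  have hα : n1 (a ^ (2 * (2 * g + 1) * M + M) - a ^ (2 * (2 * g + 1) * M)) ≤ 1 / 10 := by
    have hN : L ^ (2 * v + 10) * (L ^ v + 1) ≤ 2 * (2 * g + 1) * M := by
      have e1 : L ^ (2 * v + 10) = g * L ^ 4 := by
        rw [hg, ← pow_add]
      have e2 : L ^ (v + 4) = L ^ 4 * L ^ v := by rw [← pow_add]; congr 1; omega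
      have e3 : 1 ≤ L ^ v := Nat.one_le_pow _ _ (by omega)
      have e4 : 2 * (2 * g + 1) * M ≥ 2 * (2 * g + 0) * (2 * G + 0) :=
        Nat.mul_le_mul (Nat.mul_le_mul_left _ (by omega))
          (by rw [hM]; exact Nat.add_le_add_left (Nat.zero_le _) _)
      have e5 : 2 * (2 * g + 0) * (2 * G + 0) = g * L ^ 4 * (16 * L ^ v) := by
        rw [hG, e2]; ring
      have e6 : g * L ^ 4 * (L ^ v + 1) ≤ g * L ^ 4 * (16 * L ^ v) :=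
        Nat.mul_le_mul_left _ (by omega)
      rw [e1]
      omega
    have h1 := alpha ha hm hH hlam0 hlam1 (L ^ (2 * v + 10)) (2 * (2 * g + 1) * M) M hN
    refine h1.trans ?_
    have hMr : (M:ℝ) ≤ 5 * (L:ℝ) ^ (v + 4) := by
      have h2 : (4:ℕ) ^ k ≤ L ^ (v + 4) := by
        refine hLc.trans ?_
        calc L = L ^ 1 := (pow_one _).symm
          _ ≤ L ^ (v + 4) := Nat.pow_le_pow_right (by omega) (by omega)
      have h3 : M ≤ 5 * L ^ (v + 4) := by rw [hM, hG]; omega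
      exact_mod_cast h3
    have hs1 : 100 * (L:ℝ) ^ (v + 4) ≤
        Real.sqrt (1 / (L:ℝ) * (((L ^ (2 * v + 10) : ℕ) : ℝ) + 1)) := by
      apply Real.le_sqrt_of_sq_le
      push_cast
      have h2 : 1 / (L:ℝ) * ((L:ℝ) ^ (2 * v + 10) + 1) ≥ (L:ℝ) ^ (2 * v + 9) := by
        have : (L:ℝ) ^ (2 * v + 10) = L * (L:ℝ) ^ (2 * v + 9) := by rw [← pow_succ']
        rw [this, mul_add, ← mul_assoc, one_div, inv_mul_cancel₀ hL0.ne', one_mul]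
        have : 0 ≤ (L:ℝ)⁻¹ * 1 := by positivity
        linarith
      have h3 : (100 * (L:ℝ) ^ (v + 4)) ^ 2 = 10000 * (L:ℝ) ^ (2 * v + 8) := by
        rw [mul_pow, ← pow_mul]; norm_num; congr 1; ring
      have h4 : (L:ℝ) ^ (2 * v + 9) = L * (L:ℝ) ^ (2 * v + 8) := by rw [← pow_succ']
      have h5 : 10000 * (L:ℝ) ^ (2 * v + 8) ≤ L * (L:ℝ) ^ (2 * v + 8) :=
        mul_le_mul_of_nonneg_right hLr (by positivity)
      linarith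
    have hpos : 0 < (L:ℝ) ^ (v + 4) := by positivity
    rw [div_le_iff₀ (by linarith)]
    linarith
  have hD : n1 (a1 ^ (2 * (2 * g + 1)) - a1 ^ (2 * (2 * g + 1) + 1)) ≤ 2 / 5 := by
    have e1 : (2 * (2 * g + 1) + 1) * M = 2 * (2 * g + 1) * M + M := by ring
    rw [e1] at hB
    have h1 := n1_triangle (a1 ^ (2 * (2 * g + 1))) (a ^ (2 * (2 * g + 1) * M))
      (a1 ^ (2 * (2 * g + 1) + 1))
    have h2 := n1_triangle (a ^ (2 * (2 * g + 1) * M)) (a ^ (2 * (2 * g + 1) * M + M))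
      (a1 ^ (2 * (2 * g + 1) + 1))
    rw [n1_sub_comm] at hα hB
    linarith
  obtain ⟨K, hK⟩ : ∃ K, K = L ^ (2 * v + 7) := ⟨_, rfl⟩
  have hKg : 2 * (2 * g + 1) ≤ K := by
    have e1 : K = g * L := by rw [hK, hg, ← pow_succ]
    have e2 : g * 6 ≤ g * L := Nat.mul_le_mul_left _ (by omega)
    rw [e1]; omega
  have hE : n1 (a1 ^ K - a1 ^ (K + 1)) ≤ 2 / 5 := by
    have e1 : a1 ^ K - a1 ^ (K + 1) = a1 ^ (K - 2 * (2 * g + 1)) *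
        (a1 ^ (2 * (2 * g + 1)) - a1 ^ (2 * (2 * g + 1) + 1)) := by
      rw [mul_sub, ← pow_add, ← pow_add]
      congr 2 <;> omega
    rw [e1]
    exact (n1_mul_left_le (nn_pow hn1 _) (by rw [mass_pow, hm1, one_pow]) _).trans hD
  have hKr : (K:ℝ) = (L:ℝ) ^ (2 * v + 7) := by rw [hK]; push_cast; ring
  have hF : ((K:ℝ) + 1) * n1 (a' - a1) ≤ 1 / 20 := by
    have h0 := n1_nonneg (a' - a1)
    have h1 : ((K:ℝ) + 1) * 20 ≤ (L:ℝ) ^ (2 * v + 8) := by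
      have e1 : (L:ℝ) ^ (2 * v + 8) = L * (L:ℝ) ^ (2 * v + 7) := by rw [← pow_succ']
      have e2 : 1 ≤ (L:ℝ) ^ (2 * v + 7) := one_le_pow₀ (by linarith)
      rw [e1, hKr]
      nlinarith
    have h2 := mul_le_mul_of_nonneg_left h1 h0
    linarith
  have hG1 := hs_pow_sub ha' hm' hn1 hm1 K
  have hG2 := hs_pow_sub ha' hm' hn1 hm1 (K + 1)
  push_cast at hG2
  have hfin : n1 (a' ^ K - a' ^ (K + 1)) ≤ 1 := by
    have h0 := n1_nonneg (a' - a1)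
    have h1 := n1_triangle (a' ^ K) (a1 ^ K) (a' ^ (K + 1))
    have h2 := n1_triangle (a1 ^ K) (a1 ^ (K + 1)) (a' ^ (K + 1))
    rw [n1_sub_comm (a' ^ (K + 1))] at hG2
    linarith
  rw [← hK]
  refine H1_mono (H1_of_close ha' hm' hfin) hlam0.le ?_
  rw [div_le_div_iff₀ hL0 (by norm_num)]
  linarith

end Vale.Agent.P321
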