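import Vale.Agent.P321.BaseOne
import Vale.Agent.P321.BaseTwo

namespace Vale.Agent.P321

open Finset

private lemma iter_len_rep (r : ℕ) :
    (List.replicate r [false, true]).flatten.length = 2 * r := by
  induction r with
  | zero => simp
  | succ n ih =>
    rw [List.replicate_succ, List.flatten_cons, List.length_append, ih]
    simp
    ring

private lemma iter_wordAB_length (i j : ℕ) : (wordAB i j).length = 2 * i + 1 + 2 * j := by
  unfold wordAB
  rw [List.length_append, List.length_append, iter_len_rep, iter_len_rep]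
  simp

private lemma iter_wordAB_ne (r : ℕ) : wordAB r (r + 1) ≠ wordAB (r + 1) r := by
  unfold wordAB
  intro h
  have e1 : (List.replicate (r + 1) [false, true]).flatten =
      (List.replicate r [false, true]).flatten ++ [false, true] := by
    rw [List.replicate_succ', List.flatten_append]
    simp
  have e2 : (List.replicate (r + 1) [false, true]).flatten =
      [false, true] ++ (List.replicate r [false, true]).flatten := by
    rw [List.replicate_succ, List.flatten_cons]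
  conv_lhs at h => rw [e2]
  rw [e1, List.append_assoc, List.append_assoc, List.append_assoc] at h
  have h2 := List.append_cancel_left h
  simp at h2

theorem base_state {q : ℝ} (h0 : 0 < q) (h1 : q < 1) (D T : ℕ) (hD : 2 ≤ D) : ∃ L0 : ℕ, ∀ L : ℕ,
    L0 ≤ L → St q L (2 * D) (3 * D - 4) (2 * D + 1) T
      (wordAB (L ^ (2 * D)) (L ^ (2 * D) + 1)) (wordAB (L ^ (2 * D) + 1) (L ^ (2 * D))) := by
  obtain ⟨L1, hL1⟩ := base_one h0 h1 D T hD
  obtain ⟨lam0, hlam0, r0, hr0⟩ := base_two h0 h1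
  refine ⟨max L1 (max 7 (max r0 (Nat.ceil (1 / lam0)))), fun L hL => ?_⟩
  have hL1' : L1 ≤ L := (le_max_left _ _).trans hL
  have hL' := (le_max_right _ _).trans hL
  have hL7 : 7 ≤ L := (le_max_left _ _).trans hL'
  have hL'' := (le_max_right _ _).trans hL'
  have hLr : r0 ≤ L := (le_max_left _ _).trans hL''
  have hLlam : Nat.ceil (1 / lam0) ≤ L := (le_max_right _ _).trans hL''
  obtain ⟨f, σ, hσ0, hσ, hdom, hmf, hn⟩ := hL1 L hL1'
  have hpow : L ≤ L ^ (2 * D) := Nat.le_self_pow (by omega) L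
  have hLpos : (0 : ℝ) < L := by
    have : 0 < L := by omega
    exact_mod_cast this
  refine ⟨iter_wordAB_ne _, ?_, ?_, nn_PX h0.le h1.le _, mass_PX _ _, nn_PX h0.le h1.le _,
    mass_PX _ _, ?_, f, σ, hσ0, hσ, hdom, hmf, hn⟩
  · rw [iter_wordAB_length, iter_wordAB_length]
    ring
  · rw [iter_wordAB_length, pow_succ]
    have : 7 * L ^ (2 * D) ≤ L ^ (2 * D) * L := by
      rw [mul_comm]
      exact Nat.mul_le_mul_left _ hL7
    have h7 : 7 ≤ L ^ (2 * D) := hL7.trans hpow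
    omega
  · refine H1_mono (hr0 _ (hLr.trans hpow)) (by positivity) ?_
    have h3 : 1 / lam0 ≤ L := (Nat.le_ceil _).trans (by exact_mod_cast hLlam)
    rw [div_le_iff₀ hLpos]
    rw [div_le_iff₀ hlam0] at h3
    linarith

/-- `(v,w,u)` is reachable if states exist for all precisions `T` and all large `L`. -/
def Reach (q : ℝ) (v w u : ℕ) : Prop :=
  ∀ T : ℕ, ∃ L0 : ℕ, ∀ L : ℕ, L0 ≤ L → ∃ A B : List Bool, St q L v w u T A B

theorem reach_step {q : ℝ} (h0 : 0 < q) (h1 : q < 1) (v w u : ℕ) (hvw : v + 7 ≤ w)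
    (hr : Reach q v w u) : Reach q (4 * v + 21) (4 * w + v) (u + 3 * v + 17) := by
  intro T'
  obtain ⟨T0, L0, h⟩ := word_step h0 h1 v w u T' hvw
  obtain ⟨L1, hL1⟩ := hr T0
  refine ⟨max L0 L1, fun L hL => ?_⟩
  obtain ⟨A, B, hAB⟩ := hL1 L ((le_max_right _ _).trans hL)
  exact h T0 L le_rfl ((le_max_left _ _).trans hL) A B hAB

/-- By induction on `k`, starting from `base_state` with `D` large. -/
theorem reach_ratio {q : ℝ} (h0 : 0 < q) (h1 : q < 1) (k V : ℕ) : ∃ v w u : ℕ, V ≤ v ∧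
    v + 7 ≤ w ∧ (8 + k) * v ≤ 8 * w ∧ u ≤ 2 * v ∧ Reach q v w u := by
  induction k generalizing V with
  | zero =>
    refine ⟨2 * (V + 11), 3 * (V + 11) - 4, 2 * (V + 11) + 1, by omega, by omega, by omega,
      by omega, fun T => ?_⟩
    obtain ⟨L0, hL0⟩ := base_state h0 h1 (V + 11) T (by omega)
    exact ⟨L0, fun L hL => ⟨_, _, hL0 L hL⟩⟩
  | succ k ih =>
    obtain ⟨v, w, u, hV, hvw, hk, hu, hr⟩ := ih (max V (21 * (9 + k)))
    have hV1 : V ≤ v := (le_max_left _ _).trans hV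
    have hV2 : 21 * (9 + k) ≤ v := (le_max_right _ _).trans hV
    refine ⟨4 * v + 21, 4 * w + v, u + 3 * v + 17, by omega, by omega, ?_, by omega,
      reach_step h0 h1 v w u hvw hr⟩
    have e1 : (8 + (k + 1)) * (4 * v + 21) = 4 * ((8 + k) * v) + 4 * v + 21 * (9 + k) := by ring
    rw [e1]
    omega

private lemma iter_exists_root (n u : ℕ) (hu : 1 ≤ u) : ∃ L : ℕ, L ^ u ≤ n ∧ n < (L + 1) ^ u := by
  have hex : ∃ m : ℕ, n < (m + 1) ^ u :=
    ⟨n, (Nat.lt_succ_self n).trans_le (Nat.le_self_pow (by omega) _)⟩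
  refine ⟨Nat.find hex, ?_, Nat.find_spec hex⟩
  rcases Nat.eq_zero_or_pos (Nat.find hex) with h | h
  · rw [h, zero_pow (by omega)]
    exact Nat.zero_le _
  · have := Nat.find_min hex (m := Nat.find hex - 1) (by omega)
    rw [not_lt] at this
    have e : Nat.find hex - 1 + 1 = Nat.find hex := by omega
    rwa [e] at this

/-- Padding with zeros and `L = ⌊n^(1/u)⌋`. -/
theorem exists_close_pair {q : ℝ} (h0 : 0 < q) (h1 : q < 1) (C : ℕ) : ∃ n0 : ℕ, ∀ n : ℕ,
    n0 ≤ n → ∃ x y : List Bool, x ≠ y ∧ x.length = n ∧ y.length = n ∧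
      n1 (PX q x - PX q y) * (n : ℝ) ^ C ≤ 1 := by
  obtain ⟨v, w, u, hv, hvw, hk, hu, hr⟩ := reach_ratio h0 h1 (48 * C + 8) 1
  -- exponent for the root
  set m := (u + 1) * C with hm
  have hw2 : 2 * (m + 1) ≤ w := by
    have e1 : (8 + (48 * C + 8)) * v = 8 * (6 * (C * v) + 2 * v) := by ring
    rw [e1] at hk
    have h3 : 6 * (C * v) + 2 * v ≤ w := by omega
    have h4 : u * C ≤ 2 * (C * v) := by
      calc u * C ≤ (2 * v) * C := Nat.mul_le_mul_right _ hu
        _ = 2 * (C * v) := by ring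
    have h5 : C ≤ C * v := Nat.le_mul_of_pos_right _ hv
    have h6 : m = u * C + C := by rw [hm]; ring
    omega
  obtain ⟨L0, hL0⟩ := hr (m + 1)
  obtain ⟨L1, hL1⟩ : ∃ L1 : ℕ, L1 = max L0 (2 * 2 ^ m) := ⟨_, rfl⟩
  refine ⟨(L1 + 1) ^ (u + 1), fun n hn => ?_⟩
  obtain ⟨L, hLn, hnL⟩ := iter_exists_root n (u + 1) (by omega)
  have hLL : L1 < L + 1 := by
    have h3 : (L1 + 1) ^ (u + 1) < (L + 1) ^ (u + 1) := hn.trans_lt hnL
    have h4 := lt_of_pow_lt_pow_left₀ (u + 1) (Nat.zero_le _) h3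
    omega
  have hLL1 : L1 ≤ L := by omega
  have hL0' : L0 ≤ L := by rw [hL1] at hLL1; exact (le_max_left _ _).trans hLL1
  have hL2 : 2 * 2 ^ m ≤ L := by rw [hL1] at hLL1; exact (le_max_right _ _).trans hLL1
  have hLpos : 1 ≤ L := le_trans (by
    have : 0 < 2 ^ m := by positivity
    omega) hL2
  obtain ⟨A, B, hne, hlen, hlenu, hst⟩ := hL0 L hL0'
  have hAn : A.length ≤ n :=
    hlenu.trans ((Nat.pow_le_pow_right hLpos (Nat.le_succ u)).trans hLn)
  have hBn : B.length ≤ n := hlen ▸ hAn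
  refine ⟨A ++ List.replicate (n - A.length) false, B ++ List.replicate (n - B.length) false,
    ?_, ?_, ?_, ?_⟩
  · intro h
    exact hne (List.append_inj_left h hlen)
  · rw [List.length_append, List.length_replicate]
    omega
  · rw [List.length_append, List.length_replicate]
    omega
  rw [← hlen, PX_append, PX_append, ← sub_mul]
  obtain ⟨-, hma, -, -, -, f, σ, hσ0, hσ, hdom, -, hn1⟩ := hst
  have hR : n1 ((PX q A - PX q B) * PX q (List.replicate (n - A.length) false)) ≤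
      n1 (PX q A - PX q B) := n1_mul_right_le (nn_PX h0.le h1.le _) (mass_PX _ _).le _
  have hab : n1 (PX q A - PX q B) ≤ σ + n1 (PX q B - PX q A - f) := by
    have e : PX q A - PX q B = -(f + (PX q B - PX q A - f)) := by abel
    rw [e, n1_neg]
    refine (n1_add_le _ _).trans ?_
    have := n1_le_of_Dom hdom
    rw [hma, mul_one] at this
    linarith
  have hLR : (1 : ℝ) ≤ L := by exact_mod_cast hLpos
  have hσ' : σ * (L : ℝ) ^ (m + 1) ≤ 1 := by
    have h3 : (σ * (L : ℝ) ^ (m + 1)) ^ 2 ≤ 1 := by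
      calc (σ * (L : ℝ) ^ (m + 1)) ^ 2 = σ ^ 2 * (L : ℝ) ^ (2 * (m + 1)) := by
            rw [mul_pow, ← pow_mul, mul_comm (m + 1) 2]
        _ ≤ σ ^ 2 * (L : ℝ) ^ w :=
            mul_le_mul_of_nonneg_left (pow_le_pow_right₀ hLR hw2) (sq_nonneg _)
        _ ≤ 1 := hσ
    have h4 : 0 ≤ σ * (L : ℝ) ^ (m + 1) := by positivity
    nlinarith
  have hn' : (n : ℝ) ^ C ≤ 2 ^ m * (L : ℝ) ^ m := by
    have h3 : (n : ℝ) ≤ (2 * (L : ℝ)) ^ (u + 1) := by
      have h4 : n ≤ (2 * L) ^ (u + 1) :=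
        hnL.le.trans (Nat.pow_le_pow_left (by omega) _)
      exact_mod_cast h4
    calc (n : ℝ) ^ C ≤ ((2 * (L : ℝ)) ^ (u + 1)) ^ C :=
          pow_le_pow_left₀ (Nat.cast_nonneg _) h3 _
      _ = 2 ^ m * (L : ℝ) ^ m := by rw [← pow_mul, ← hm, mul_pow]
  have hL2' : 2 * 2 ^ m ≤ (L : ℝ) := by exact_mod_cast hL2
  have hfin : n1 (PX q A - PX q B) * (L : ℝ) ^ (m + 1) ≤ 2 := by
    have := mul_le_mul_of_nonneg_right hab (by positivity : 0 ≤ (L : ℝ) ^ (m + 1))
    rw [add_mul] at this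
    linarith
  have h2m : (0 : ℝ) < 2 ^ m := by positivity
  have hLm : (0 : ℝ) < (L : ℝ) ^ m := by positivity
  calc n1 ((PX q A - PX q B) * PX q (List.replicate (n - A.length) false)) * (n : ℝ) ^ C
      ≤ n1 (PX q A - PX q B) * (2 ^ m * (L : ℝ) ^ m) :=
        mul_le_mul hR hn' (by positivity) (n1_nonneg _)
    _ ≤ 1 := by
        have h3 : n1 (PX q A - PX q B) * (L : ℝ) ^ m * (2 * 2 ^ m) ≤
            n1 (PX q A - PX q B) * (L : ℝ) ^ m * L :=
          mul_le_mul_of_nonneg_left hL2' (mul_nonneg (n1_nonneg _) hLm.le)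
        rw [pow_succ, ← mul_assoc] at hfin
        linarith

end Vale.Agent.P321
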