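import Vale.Agent.P321.HStep
import Vale.Agent.P321.Convert

namespace Vale.Agent.P321

open Finset

theorem LevelOne_gram_self (x : ℝ) (l : List Slot) :
    gram x l l = x ^ nPsi l * (1 + x) ^ nB l := by
  unfold gram
  induction l with
  | nil => simp [nPsi, nB]
  | cons s l ih =>
    rw [List.zipWith_cons_cons, List.prod_cons, ih]
    cases s <;> simp [Slot.al, Slot.be, nPsi, nB] <;> ring

/-- One slot list. -/
theorem LevelOne_list_bd {h : ℕ} {a f : Alg} {σ x : ℝ} (hctx : Ctx h a f σ x) (l : List Slot) :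
    Bd h (pval a f l - alp l • a ^ l.length) (a ^ l.length)
      ((x ^ nPsi l * (1 + x) ^ nB l - alp l ^ 2) ^ h) := by
  have h1 : GB h (fun _ : Unit => (1 : ℝ)) (fun _ => (1 : Alg)) 1 (fun _ _ => 1) :=
    GB_one hctx.hh
  have h2 := GB_lists_left hctx h1 l.length (fun _ => l) (fun _ => rfl)
  have h3 := GB_single h2 ()
  have hm : mass (a ^ l.length) = 1 := by rw [mass_pow, hctx.ma, one_pow]
  simp only [mul_one] at h3
  rw [hm, one_mul, LevelOne_gram_self] at h3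
  exact h3

/-- each term of `expand_Rem` by `GB_lists_left` on a one point index set, then `Bd_sum` -/
theorem lvl1_bd (k : ℕ) : ∃ C : ℝ, 1 ≤ C ∧ ∀ (h : ℕ) (a f : Alg) (σ x : ℝ),
    Ctx h a f σ x → x ≤ 1 → ∀ G : ℕ,
    Bd h (a ^ G * Rem k a f * a ^ G) (a ^ (2 * G + 4 ^ k)) ((C * x ^ 2) ^ h) := by
  obtain ⟨n, ε, l, hn, hl, hexp⟩ := expand_Rem k
  refine ⟨((2 ^ (4 ^ k + 1) : ℕ) : ℝ) ^ 2, ?_, ?_⟩
  · have : (1 : ℝ) ≤ ((2 ^ (4 ^ k + 1) : ℕ) : ℝ) := by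
      exact_mod_cast Nat.one_le_two_pow
    nlinarith
  intro h a f σ x hctx hx1 G
  have hx0 : 0 ≤ x := le_trans (by positivity) hctx.hx
  have hm : ∀ n, mass (a ^ n) = 1 := fun n => by rw [mass_pow, hctx.ma, one_pow]
  have hna : ∀ n, nn (a ^ n) := fun n => nn_pow hctx.nna n
  -- each term
  have hterm : ∀ i, Bd h (ε i • pval a f (l i)) (a ^ (4 ^ k)) ((x ^ 2) ^ h) := by
    intro i
    obtain ⟨he, hlen, hps, hb⟩ := hl i
    have h1 := LevelOne_list_bd hctx (l i)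
    have hal : alp (l i) = 0 := by
      rw [alp_eq, if_neg (by omega)]
    rw [hal, zero_smul, sub_zero, hlen, hb] at h1
    have h2 := Bd_smul (ε i) h1
    refine Bd_le h2 ?_
    have h3 : (ε i) ^ (2 * h) ≤ 1 := by
      rw [pow_mul]
      apply pow_le_one₀ (sq_nonneg _)
      rw [sq_le_one_iff_abs_le_one]; exact he
    have h4 : x ^ nPsi (l i) ≤ x ^ 2 := pow_le_pow_of_le_one hx0 hx1 hps
    have h5 : (x ^ nPsi (l i) * (1 + x) ^ 0 - 0 ^ 2) ^ h ≤ (x ^ 2) ^ h := by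
      apply pow_le_pow_left₀
      · simp; positivity
      · simpa using h4
    have h6 : 0 ≤ (x ^ nPsi (l i) * (1 + x) ^ 0 - 0 ^ 2) ^ h := by
      apply pow_nonneg; simp; positivity
    nlinarith
  have hsum : Bd h (∑ i, ε i • pval a f (l i)) (a ^ (4 ^ k))
      ((((2 ^ (4 ^ k + 1) : ℕ) : ℝ) ^ 2 * x ^ 2) ^ h) := by
    apply Bd_sum Finset.univ (fun i => ε i • pval a f (l i)) (by positivity) hctx.hh (hna _)
    · simpa using hn
    · intro i _; exact hterm i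
  rw [← hexp a f] at hsum
  have h7 := Bd_mul_left (hna G) (hna _) hsum
  have h8 := Bd_mul_right (hna G) (nn_mul (hna G) (hna _)) h7
  rw [hm, one_mul, mul_one, ← pow_add, ← pow_add] at h8
  have : G + 4 ^ k + G = 2 * G + 4 ^ k := by ring
  rwa [this] at h8

theorem lvl1_lr (k : ℕ) {h : ℕ} {a f : Alg} {σ x : ℝ} (hctx : Ctx h a f σ x) (G : ℕ) :
    Bd h (a ^ G * pval a f (wT k) * a ^ G - a ^ (2 * G + 4 ^ k)) (a ^ (2 * G + 4 ^ k))
      (((1 + x) ^ (4 ^ k) - 1) ^ h) := by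
  have hx0 : 0 ≤ x := le_trans (by positivity) hctx.hx
  have hm : ∀ n, mass (a ^ n) = 1 := fun n => by rw [mass_pow, hctx.ma, one_pow]
  have hna : ∀ n, nn (a ^ n) := fun n => nn_pow hctx.nna n
  have h1 := LevelOne_list_bd hctx (wT k)
  rw [alp_eq, if_pos (nPsi_wT k), one_smul, wT_length, nPsi_wT, pow_zero, one_mul, one_pow] at h1
  have h2 : Bd h (pval a f (wT k) - a ^ 4 ^ k) (a ^ 4 ^ k) (((1 + x) ^ (4 ^ k) - 1) ^ h) := by
    refine Bd_le h1 ?_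
    have hle : nB (wT k) ≤ 4 ^ k := by
      have := nB_le_length (wT k)
      rwa [wT_length] at this
    apply pow_le_pow_left₀
    · have : (1 : ℝ) ≤ (1 + x) ^ nB (wT k) := one_le_pow₀ (by linarith)
      linarith
    · have : (1 + x) ^ nB (wT k) ≤ (1 + x) ^ (4 ^ k) :=
        pow_le_pow_right₀ (by linarith) hle
      linarith
  have h7 := Bd_mul_left (hna G) (hna _) h2
  have h8 := Bd_mul_right (hna G) (nn_mul (hna G) (hna _)) h7
  rw [hm, one_mul, mul_one, ← pow_add, ← pow_add] at h8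
  have e1 : G + 4 ^ k + G = 2 * G + 4 ^ k := by ring
  have e2 : a ^ G * (pval a f (wT k) - a ^ 4 ^ k) * a ^ G =
      a ^ G * pval a f (wT k) * a ^ G - a ^ (2 * G + 4 ^ k) := by
    rw [mul_sub, sub_mul, ← pow_add, ← pow_add, e1]
  rwa [e1, e2] at h8

/-- Replacing the factors in a product of a list. -/
theorem LevelOne_list_prod_sub {ι : Type*} (l : List ι) (F F' : ι → Alg) {ε : ℝ} (hε : 0 ≤ ε)
    (hF : ∀ i, n1 (F i) ≤ 2) (hF' : ∀ i, n1 (F' i) ≤ 2) (h : ∀ i, n1 (F i - F' i) ≤ ε) :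
    n1 ((l.map F).prod) ≤ 2 ^ l.length ∧
    n1 ((l.map F).prod - (l.map F').prod) ≤ l.length * 2 ^ l.length * ε := by
  induction l with
  | nil => simp
  | cons i l ih =>
    obtain ⟨ih1, ih2⟩ := ih
    have hl : n1 ((l.map F').prod) ≤ 2 ^ l.length := by
      clear ih1 ih2
      induction l with
      | nil => simp
      | cons j l ih =>
        rw [List.map_cons, List.prod_cons, List.length_cons, pow_succ]
        refine (n1_mul_le _ _).trans ?_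
        have := hF' j
        nlinarith [n1_nonneg (F' j), n1_nonneg ((l.map F').prod)]
    constructor
    · rw [List.map_cons, List.prod_cons, List.length_cons, pow_succ]
      refine (n1_mul_le _ _).trans ?_
      have := hF i
      nlinarith [n1_nonneg (F i), n1_nonneg ((l.map F).prod)]
    · rw [List.map_cons, List.prod_cons, List.map_cons, List.prod_cons]
      have e : F i * (l.map F).prod - F' i * (l.map F').prod =
          F i * ((l.map F).prod - (l.map F').prod) + (F i - F' i) * (l.map F').prod := by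
        noncomm_ring
      rw [e]
      refine (n1_add_le _ _).trans ?_
      have h1 : n1 (F i * ((l.map F).prod - (l.map F').prod)) ≤ 2 * (l.length * 2 ^ l.length * ε) := by
        refine (n1_mul_le _ _).trans ?_
        exact mul_le_mul (hF i) ih2 (n1_nonneg _) (by norm_num)
      have h2 : n1 ((F i - F' i) * (l.map F').prod) ≤ ε * 2 ^ l.length := by
        refine (n1_mul_le _ _).trans ?_
        exact mul_le_mul (h i) hl (n1_nonneg _) hε
      have h3 : (0 : ℝ) ≤ ε * 2 ^ l.length := by positivity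
      rw [List.length_cons]
      push_cast
      rw [pow_succ]
      nlinarith

/-- Replacing the factors in a Thue-Morse product. -/
theorem n1_prodTM_sub_le (k : ℕ) {u v u' v' : Alg} {ε : ℝ} (hu : n1 u ≤ 2) (hv : n1 v ≤ 2)
    (hu' : n1 u' ≤ 2) (hv' : n1 v' ≤ 2) (h1 : n1 (u - u') ≤ ε) (h2 : n1 (v - v') ≤ ε) :
    n1 (prodTM k u v - prodTM k u' v') ≤ 4 ^ k * 2 ^ (4 ^ k) * ε := by
  have hε : 0 ≤ ε := (n1_nonneg _).trans h1
  have := (LevelOne_list_prod_sub (List.range (4 ^ k)) (fun i => if tm i = 1 then u else v)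
    (fun i => if tm i = 1 then u' else v') hε (fun i => by split_ifs <;> assumption)
    (fun i => by split_ifs <;> assumption)
    (fun i => by split_ifs <;> assumption)).2
  rw [List.length_range] at this
  simpa [prodTM] using this

theorem nn_prodTM (k : ℕ) {u v : Alg} (hu : nn u) (hv : nn v) (hmu : mass u = 1)
    (hmv : mass v = 1) : nn (prodTM k u v) ∧ mass (prodTM k u v) = 1 := by
  constructor
  · apply nn_list_prod
    intro y hy
    rw [List.mem_map] at hy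
    obtain ⟨i, _, rfl⟩ := hy
    split_ifs <;> assumption
  · unfold prodTM
    rw [mass_list_prod, List.map_map]
    apply List.prod_eq_one
    intro y hy
    rw [List.mem_map] at hy
    obtain ⟨i, _, rfl⟩ := hy
    simp only [Function.comp]
    split_ifs <;> assumption

theorem LevelOne_pow_le (n : ℕ) {x : ℝ} (hx0 : 0 ≤ x) (hx1 : x ≤ 1) :
    (1 + x) ^ n ≤ 1 + (2 ^ n - 1) * x := by
  induction n with
  | zero => simp
  | succ n ih =>
    have h1 : (1 : ℝ) ≤ 2 ^ n := one_le_pow₀ (by norm_num)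
    rw [pow_succ, pow_succ]
    have h2 : (1 + x) ^ n * (1 + x) ≤ (1 + (2 ^ n - 1) * x) * (1 + x) :=
      mul_le_mul_of_nonneg_right ih (by linarith)
    nlinarith [mul_nonneg hx0 (sub_nonneg.2 hx1), mul_nonneg (mul_nonneg hx0 (sub_nonneg.2 hx1))
      (sub_nonneg.2 h1)]

theorem LevelOne_nn_add {a f : Alg} {σ : ℝ} (ha : nn a) (hs1 : σ ≤ 1)
    (hd : Dom σ f a) : nn (a + f) := by
  intro w
  have h1 := hd w
  have h2 := ha w
  have h3 := neg_abs_le (f.coeff w)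
  simp only [MonoidAlgebra.coeff_add, Finsupp.add_apply]
  nlinarith

/-- Passing from `b` to `a + f` in the level one words. -/
theorem LevelOne_up_sub (k G : ℕ) {a b f : Alg} (ha : nn a) (hma : mass a = 1) (hb : nn b)
    (hmb : mass b = 1) (hab : nn (a + f)) (hmf : mass f = 0) :
    n1 (up k G a a b - a ^ G * pval a f (wT k) * a ^ G) ≤
        4 ^ k * 2 ^ (4 ^ k) * n1 (b - a - f) ∧
    n1 (up k G a b a - a ^ G * pval a f (wC k) * a ^ G) ≤
        4 ^ k * 2 ^ (4 ^ k) * n1 (b - a - f) := by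
  have hn1a : n1 a ≤ 2 := by rw [n1_of_nn ha, hma]; norm_num
  have hn1b : n1 b ≤ 2 := by rw [n1_of_nn hb, hmb]; norm_num
  have hn1c : n1 (a + f) ≤ 2 := by
    rw [n1_of_nn hab, mass_add, hma, hmf]; norm_num
  have e0 : 0 ≤ n1 (b - a - f) := n1_nonneg _
  have e1 : n1 (b - (a + f)) ≤ n1 (b - a - f) := by rw [sub_add_eq_sub_sub]
  have e2 : n1 (a - a) ≤ n1 (b - a - f) := by rw [sub_self]; simpa using e0
  have hG : nn (a ^ G) := nn_pow ha G
  have hmG : mass (a ^ G) ≤ 1 := by rw [mass_pow, hma, one_pow]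
  constructor
  · have h1 := n1_prodTM_sub_le k hn1a hn1b hn1a hn1c e2 e1
    rw [← prodTM_eq_pval]
    have : up k G a a b - a ^ G * prodTM k a (a + f) * a ^ G =
        a ^ G * (prodTM k a b - prodTM k a (a + f)) * a ^ G := by
      unfold up; noncomm_ring
    rw [this]
    exact (n1_mul_right_le hG hmG _).trans ((n1_mul_left_le hG hmG _).trans h1)
  · have h1 := n1_prodTM_sub_le k hn1b hn1a hn1c hn1a e1 e2
    rw [← prodTM_eq_pval']
    have : up k G a b a - a ^ G * prodTM k (a + f) a * a ^ G =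
        a ^ G * (prodTM k b a - prodTM k (a + f) a) * a ^ G := by
      unfold up; noncomm_ring
    rw [this]
    exact (n1_mul_right_le hG hmG _).trans ((n1_mul_left_le hG hmG _).trans h1)

theorem LevelOne_nn_up (k G : ℕ) {s u v : Alg} (hs : nn s) (hms : mass s = 1) (hu : nn u)
    (hv : nn v) (hmu : mass u = 1) (hmv : mass v = 1) :
    nn (up k G s u v) ∧ mass (up k G s u v) = 1 := by
  obtain ⟨h1, h2⟩ := nn_prodTM k hu hv hmu hmv
  refine ⟨nn_mul (nn_mul (nn_pow hs G) h1) (nn_pow hs G), ?_⟩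
  unfold up
  rw [mass_mul, mass_mul, mass_pow, hms, h2]; simp

/-- The one-body part in the sea. -/
theorem LevelOne_onebody (k G : ℕ) (a c : Alg) :
    a ^ G * (∑ i ∈ range (4 ^ k), tm i • (a ^ i * c * a ^ (4 ^ k - 1 - i))) * a ^ G =
      ∑ i ∈ range (4 ^ k), tm i • (a ^ (G + i) * c * a ^ (G + (4 ^ k - 1 - i))) := by
  rw [Finset.mul_sum, Finset.sum_mul]
  refine Finset.sum_congr rfl fun i _ => ?_
  rw [mul_smul_comm, smul_mul_assoc, pow_add, pow_add a G (4 ^ k - 1 - i)]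
  congr 1
  rw [← (Commute.pow_pow_self a (4 ^ k - 1 - i) G).eq]
  noncomm_ring

theorem LevelOne_coin_dist (v L : ℕ) (hL : 1 ≤ L) : L ^ 4 * (L ^ v + 1) ≤ 2 * L ^ (v + 4) := by
  have h1 : 1 ≤ L ^ v := Nat.one_le_pow _ _ hL
  calc L ^ 4 * (L ^ v + 1) ≤ L ^ 4 * (L ^ v + L ^ v) := Nat.mul_le_mul_left _ (by omega)
    _ = 2 * L ^ (v + 4) := by ring

theorem LevelOne_kill (k : ℕ) : ∃ C : ℝ, 1 ≤ C ∧ ∀ (v L : ℕ), 1 ≤ L → ∀ a c : Alg, nn a →
    mass a = 1 → H1 a (L ^ v) (1 / L) →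
    n1 (a ^ (2 * L ^ (v + 4)) * (∑ i ∈ range (4 ^ k), tm i • (a ^ i * c * a ^ (4 ^ k - 1 - i))) *
      a ^ (2 * L ^ (v + 4))) ≤ C * n1 c / (L : ℝ) ^ (2 * k) := by
  obtain ⟨C, hC0, hC⟩ := tm_kill k
  refine ⟨max C 1, le_max_right _ _, ?_⟩
  intro v L hL a c ha hma hH
  have hL0 : (0 : ℝ) < L := by exact_mod_cast hL
  have hd := LevelOne_coin_dist v L hL
  have h1 := hC a c (L ^ v) (1 / L) ha hma hH (by positivity)
    (by rw [div_le_one hL0]; exact_mod_cast hL) (L ^ 4) (2 * L ^ (v + 4)) (2 * L ^ (v + 4)) hd hd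
  rw [LevelOne_onebody]
  refine h1.trans ?_
  have h2 : (L : ℝ) ^ (2 * k) ≤ ((1 / (L : ℝ)) ^ 2 * (((L ^ 4 : ℕ) : ℝ) + 1)) ^ k := by
    rw [pow_mul]
    apply pow_le_pow_left₀ (by positivity)
    have : (L : ℝ) ^ 2 = (1 / (L : ℝ)) ^ 2 * ((L ^ 4 : ℕ) : ℝ) := by
      push_cast; field_simp
    rw [this]
    apply mul_le_mul_of_nonneg_left _ (by positivity)
    linarith
  have h3 : (0 : ℝ) < (L : ℝ) ^ (2 * k) := by positivity
  have h4 := n1_nonneg c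
  calc C * n1 c / ((1 / (L : ℝ)) ^ 2 * (((L ^ 4 : ℕ) : ℝ) + 1)) ^ k
      ≤ C * n1 c / (L : ℝ) ^ (2 * k) := by
        apply div_le_div_of_nonneg_left _ h3 h2
        positivity
    _ ≤ max C 1 * n1 c / (L : ℝ) ^ (2 * k) := by
        apply div_le_div_of_nonneg_right _ h3.le
        exact mul_le_mul_of_nonneg_right (le_max_left _ _) h4

theorem LevelOne_inv_le {R : ℝ} (hR : 1 ≤ R) {m n : ℕ} (h : n ≤ m) :
    1 / R ^ m ≤ 1 / R ^ n := by
  have : 0 < R := by linarith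
  exact one_div_le_one_div_of_le (pow_pos this n) (pow_le_pow_right₀ hR h)

theorem LevelOne_shift {R C : ℝ} (hR : 1 ≤ R) (hC : C ≤ R) (n : ℕ) :
    C / R ^ (n + 1) ≤ 1 / R ^ n := by
  have h0 : 0 < R := by linarith
  calc C / R ^ (n + 1) ≤ R / R ^ (n + 1) :=
        div_le_div_of_nonneg_right hC (pow_pos h0 _).le
    _ = 1 / R ^ n := by rw [pow_succ]; field_simp

theorem LevelOne_beta {h w : ℕ} (hh : 1 ≤ h) {R C1 C3 x : ℝ} (hR : 1 ≤ R)
    (hC3 : C3 = C1 * (16 * (h : ℝ) ^ 2)) (hC1 : 1 ≤ C1)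
    (hx : x = 16 * (h : ℝ) ^ 2 / R ^ w) (hC3R : C3 ≤ R) :
    (C1 * x ^ 2) ^ h / (C3 / R ^ w * R) ^ (2 * h - 1) ≤ 1 / R ^ (2 * h - 2) := by
  have hR0 : 0 < R := by linarith
  have hhR : (1 : ℝ) ≤ (h : ℝ) := by exact_mod_cast hh
  have hC30 : 0 < C3 := by rw [hC3]; positivity
  have hx0 : 0 < x := by rw [hx]; positivity
  have h1 : C1 * x ^ 2 ≤ (C3 / R ^ w) ^ 2 := by
    have e1 : C1 * x ^ 2 = C1 * (16 * (h : ℝ) ^ 2) ^ 2 / (R ^ w) ^ 2 := by
      rw [hx, div_pow]; ring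
    have e2 : (C3 / R ^ w) ^ 2 = C1 ^ 2 * (16 * (h : ℝ) ^ 2) ^ 2 / (R ^ w) ^ 2 := by
      rw [hC3, div_pow]; ring
    rw [e1, e2]
    apply div_le_div_of_nonneg_right _ (by positivity)
    have : C1 ≤ C1 ^ 2 := by nlinarith
    exact mul_le_mul_of_nonneg_right this (by positivity)
  have h2 : (C1 * x ^ 2) ^ h ≤ (C3 / R ^ w) ^ (2 * h) := by
    rw [pow_mul]; exact pow_le_pow_left₀ (by positivity) h1 _
  have h3 : (C3 / R ^ w * R) ^ (2 * h - 1) = (C3 / R ^ w) ^ (2 * h - 1) * R ^ (2 * h - 1) := by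
    rw [mul_pow]
  have h4 : (C3 / R ^ w) ^ (2 * h) = (C3 / R ^ w) ^ (2 * h - 1) * (C3 / R ^ w) := by
    rw [← pow_succ]; congr 1; omega
  have h5 : 0 < (C3 / R ^ w) ^ (2 * h - 1) := by positivity
  have hRw : 1 ≤ R ^ w := one_le_pow₀ hR
  calc (C1 * x ^ 2) ^ h / (C3 / R ^ w * R) ^ (2 * h - 1)
      ≤ (C3 / R ^ w) ^ (2 * h) / (C3 / R ^ w * R) ^ (2 * h - 1) :=
        div_le_div_of_nonneg_right h2 (by positivity)
    _ = (C3 / R ^ w) / R ^ (2 * h - 1) := by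
        rw [h3, h4, mul_div_mul_left _ _ h5.ne']
    _ ≤ C3 / R ^ (2 * h - 1) := by
        apply div_le_div_of_nonneg_right _ (by positivity)
        exact div_le_self hC30.le hRw
    _ = C3 / R ^ (2 * h - 2 + 1) := by congr 2; omega
    _ ≤ 1 / R ^ (2 * h - 2) := LevelOne_shift hR hC3R _

theorem LevelOne_delta {h w : ℕ} {R C5 : ℝ} (hR : 1 ≤ R) (hw : 2 ≤ w)
    (hC50 : 0 ≤ C5) (hC5R : 16 * C5 ≤ R) :
    (C5 / R ^ w) ^ h * 4 ^ (2 * h - 1) ≤ 1 / R ^ h := by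
  have hR0 : 0 < R := by linarith
  have h1 : (4 : ℝ) ^ (2 * h - 1) ≤ 16 ^ h := by
    calc (4 : ℝ) ^ (2 * h - 1) ≤ 4 ^ (2 * h) := pow_le_pow_right₀ (by norm_num) (by omega)
      _ = 16 ^ h := by rw [pow_mul]; norm_num
  have h2 : C5 / R ^ w * 16 ≤ 1 / R := by
    obtain ⟨w', rfl⟩ : ∃ w', w = w' + 2 := ⟨w - 2, by omega⟩
    have e1 : C5 / R ^ (w' + 2) * 16 = (16 * C5) / R ^ ((w' + 1) + 1) := by ring
    rw [e1]
    refine (LevelOne_shift hR hC5R _).trans ?_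
    have := LevelOne_inv_le hR (show 1 ≤ w' + 1 by omega)
    simpa using this
  calc (C5 / R ^ w) ^ h * 4 ^ (2 * h - 1) ≤ (C5 / R ^ w) ^ h * 16 ^ h :=
        mul_le_mul_of_nonneg_left h1 (by positivity)
    _ = (C5 / R ^ w * 16) ^ h := by rw [mul_pow]
    _ ≤ (1 / R) ^ h := pow_le_pow_left₀ (by positivity) h2 _
    _ = 1 / R ^ h := by rw [div_pow, one_pow]

theorem LevelOne_sigma {w T' : ℕ} {R C3 s εt : ℝ} (hR : 1 ≤ R) (hC3 : 1 ≤ C3)
    (h9 : 9 * C3 ^ 2 ≤ R) (hw : 3 ≤ w)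
    (hs : s = C3 / R ^ w * R) (hε0 : 0 ≤ εt) (hε : 2 * εt ≤ 1 / R ^ (T' + w)) :
    (s * 2 + εt) ^ 2 * R ^ (2 * w - 3) ≤ 1 := by
  have hR0 : 0 < R := by linarith
  have hs0 : 0 < s := by rw [hs]; positivity
  have h1 : εt ≤ s := by
    have h2 : 1 / R ^ (T' + w) ≤ 1 / R ^ w := LevelOne_inv_le hR (by omega)
    have h3 : 1 / R ^ w ≤ s := by
      rw [hs, div_mul_eq_mul_div]
      apply div_le_div_of_nonneg_right _ (by positivity)
      nlinarith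
    linarith
  have h2 : (s * 2 + εt) ^ 2 ≤ 9 * s ^ 2 := by nlinarith
  have h3 : s ^ 2 * R ^ (2 * w - 3) = C3 ^ 2 / R := by
    have e' : (R ^ w) ^ 2 = R ^ (2 * w - 3) * R ^ 3 := by
      rw [← pow_mul, ← pow_add]; congr 1; omega
    rw [hs, mul_pow, div_pow, div_mul_eq_mul_div, div_mul_eq_mul_div,
      div_eq_div_iff (by positivity) hR0.ne', e']
    ring
  calc (s * 2 + εt) ^ 2 * R ^ (2 * w - 3) ≤ 9 * s ^ 2 * R ^ (2 * w - 3) :=
        mul_le_mul_of_nonneg_right h2 (by positivity)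
    _ = 9 * (s ^ 2 * R ^ (2 * w - 3)) := by ring
    _ = 9 * C3 ^ 2 / R := by rw [h3]; ring
    _ ≤ 1 := by rw [div_le_one hR0]; exact h9

theorem LevelOne_bigR {R C2 C3 C4 C5 : ℝ} (hC2 : 1 ≤ C2) (hC3 : 1 ≤ C3) (hC4 : 1 ≤ C4)
    (hC5 : 1 ≤ C5) (hR : 10 + 2 * C4 + C2 + 9 * C3 ^ 2 + C3 + 16 * C5 ≤ R) :
    10 ≤ R ∧ 2 * C4 ≤ R ∧ C2 ≤ R ∧ 9 * C3 ^ 2 ≤ R ∧ C3 ≤ R ∧ 16 * C5 ≤ R := by
  have := sq_nonneg C3
  refine ⟨?_, ?_, ?_, ?_, ?_, ?_⟩ <;> linarith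

/-- The difference of the two level one words is close to the at-least-two-body part. -/
theorem LevelOne_diff (k v L : ℕ) (hL : 1 ≤ L) {C2 : ℝ} (hC2 : 1 ≤ C2)
    (hkill : ∀ (v L : ℕ), 1 ≤ L → ∀ a c : Alg, nn a →
    mass a = 1 → H1 a (L ^ v) (1 / L) →
    n1 (a ^ (2 * L ^ (v + 4)) * (∑ i ∈ range (4 ^ k), tm i • (a ^ i * c * a ^ (4 ^ k - 1 - i))) *
      a ^ (2 * L ^ (v + 4))) ≤ C2 * n1 c / (L : ℝ) ^ (2 * k)) {a b f : Alg} {e0 e1 : ℝ}
    (ha : nn a) (hma : mass a = 1) (hb : nn b) (hmb : mass b = 1) (hab : nn (a + f))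
    (hmf : mass f = 0) (hH : H1 a (L ^ v) (1 / L)) (hf1 : n1 f ≤ 1)
    (he0 : 4 ^ k * 2 ^ (4 ^ k) * n1 (b - a - f) ≤ e0) (he1 : C2 / (L : ℝ) ^ (2 * k) ≤ e1) :
    n1 (up k (2 * L ^ (v + 4)) a b a - up k (2 * L ^ (v + 4)) a a b -
      a ^ (2 * L ^ (v + 4)) * Rem k a f * a ^ (2 * L ^ (v + 4))) ≤ 2 * e0 + e1 := by
  obtain ⟨hupA, hupB⟩ := LevelOne_up_sub k (2 * L ^ (v + 4)) ha hma hb hmb hab hmf
  have hone := hkill v L hL a f ha hma hH
  generalize 2 * L ^ (v + 4) = G at *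
  have e : up k G a b a - up k G a a b - a ^ G * Rem k a f * a ^ G =
      (up k G a b a - a ^ G * pval a f (wC k) * a ^ G) -
        (up k G a a b - a ^ G * pval a f (wT k) * a ^ G) +
        (a ^ G * (∑ i ∈ range (4 ^ k), tm i • (a ^ i * f * a ^ (4 ^ k - 1 - i))) * a ^ G) := by
    unfold Rem; noncomm_ring
  rw [e]
  refine (n1_add_le _ _).trans ?_
  have h1 := n1_sub_le (up k G a b a - a ^ G * pval a f (wC k) * a ^ G)
    (up k G a a b - a ^ G * pval a f (wT k) * a ^ G)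
  have h2 : C2 * n1 f / (L : ℝ) ^ (2 * k) ≤ C2 / (L : ℝ) ^ (2 * k) := by
    apply div_le_div_of_nonneg_right _ (by positivity)
    nlinarith
  linarith

set_option maxHeartbeats 800000 in
/-- LEVEL ONE STEP. Parameters: `h = T' + w + 10`, `x = 16 h^2 L^(-w)`,
`β = C x^2`, `s = C' L / L^w`, coins `H = L^4` for the one-body part (`tm_kill`),
`dom_of_close` + `convert_dom` (`Λ = 2`) to pass from `a^M` to `up k G a a b`, and `h1_step`. -/
theorem astep_one (k v w T' : ℕ) (hvw : v + 4 ≤ w) (hk : T' + 2 * w + 6 ≤ 2 * k) :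
    ∃ T0 L0 : ℕ, ∀ T L : ℕ, T0 ≤ T → L0 ≤ L → ∀ a b : Alg, ASt L v w T a b →
    ASt L (2 * v + 7) (2 * w - 3) T' (up k (2 * L ^ (v + 4)) a a b)
      (up k (2 * L ^ (v + 4)) a b a) := by
  obtain ⟨C1, hC1, hbd⟩ := lvl1_bd k
  obtain ⟨C2, hC2, hkill⟩ := LevelOne_kill k
  obtain ⟨L1, hL1⟩ := h1_step k v w hvw
  obtain ⟨h, hh⟩ : ∃ h : ℕ, h = T' + w + 10 := ⟨_, rfl⟩
  have hh1 : 1 ≤ h := by omega
  obtain ⟨C3, hC3⟩ : ∃ C3 : ℝ, C3 = C1 * (16 * (h : ℝ) ^ 2) := ⟨_, rfl⟩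
  obtain ⟨C4, hC4⟩ : ∃ C4 : ℝ, C4 = 4 ^ k * 2 ^ (4 ^ k) := ⟨_, rfl⟩
  obtain ⟨C5, hC5⟩ : ∃ C5 : ℝ, C5 = 2 ^ (4 ^ k) * (16 * (h : ℝ) ^ 2) := ⟨_, rfl⟩
  have hhR : (1 : ℝ) ≤ (h : ℝ) := by exact_mod_cast hh1
  have h16 : (1 : ℝ) ≤ 16 * (h : ℝ) ^ 2 := by nlinarith
  have hC3' : 1 ≤ C3 := by rw [hC3]; nlinarith
  have hC3h : 16 * (h : ℝ) ^ 2 ≤ C3 := by rw [hC3]; nlinarith
  have hC4' : 1 ≤ C4 := by
    rw [hC4]
    have a1 : (1 : ℝ) ≤ 4 ^ k := one_le_pow₀ (by norm_num)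
    have a2 : (1 : ℝ) ≤ 2 ^ (4 ^ k) := one_le_pow₀ (by norm_num)
    nlinarith
  have hC5' : 1 ≤ C5 := by
    rw [hC5]
    have a2 : (1 : ℝ) ≤ 2 ^ (4 ^ k) := one_le_pow₀ (by norm_num)
    nlinarith
  obtain ⟨L2, hL2⟩ := exists_nat_ge (10 + 2 * C4 + C2 + 9 * C3 ^ 2 + C3 + 16 * C5)
  refine ⟨T' + w + 2 * v + 12, max L1 L2, ?_⟩
  intro T L hT hL a b hst
  have hLL1 : L1 ≤ L := (le_max_left _ _).trans hL
  have hLL2 : L2 ≤ L := (le_max_right _ _).trans hL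
  have hRbig : 10 + 2 * C4 + C2 + 9 * C3 ^ 2 + C3 + 16 * C5 ≤ (L : ℝ) :=
    hL2.trans (by exact_mod_cast hLL2)
  obtain ⟨hR10, hRC4, hRC2, hRC9, hRC3, hRC5⟩ := LevelOne_bigR hC2 hC3' hC4' hC5' hRbig
  clear hRbig hL2 hLL2
  obtain ⟨ha, hma, hb, hmb, hH, f, σ, hσ0, hσw, hdom, hmf, herr⟩ := hst
  have hcoin := hL1 L hLL1 a f σ ha hma
  obtain ⟨R, hR⟩ : ∃ R : ℝ, R = (L : ℝ) := ⟨_, rfl⟩
  have hLnat : 1 ≤ L := by
    have : (1 : ℝ) ≤ (L : ℝ) := by linarith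
    exact_mod_cast this
  have hdiff := fun (e0 e1 : ℝ) => LevelOne_diff k v L hLnat hC2 hkill (f := f) (e0 := e0)
    (e1 := e1) ha hma hb hmb
  have hH' := hH
  rw [← hR] at hR10 hRC4 hRC2 hRC9 hRC3 hRC5 hσw herr hcoin hH'
  have hR1 : 1 ≤ R := by linarith
  have hR0 : 0 < R := by linarith
  have hRw : (1 : ℝ) ≤ R ^ w := one_le_pow₀ hR1
  have hσ1 : σ ≤ 1 := by
    by_contra hcon
    push Not at hcon
    nlinarith
  have hnab : nn (a + f) := LevelOne_nn_add ha hσ1 hdom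
  -- the context
  obtain ⟨x, hx⟩ : ∃ x : ℝ, x = 16 * (h : ℝ) ^ 2 / R ^ w := ⟨_, rfl⟩
  have hx0 : 0 < x := by rw [hx]; positivity
  have hσx : σ ^ 2 ≤ 1 / R ^ w := by
    rw [le_div_iff₀ (by positivity)]; exact hσw
  have hctx : Ctx h a f σ x := by
    refine ⟨hh1, ha, hma, hnab, hσ0, hdom, hmf, ?_⟩
    rw [hx]
    calc 16 * (h : ℝ) ^ 2 * σ ^ 2 ≤ 16 * (h : ℝ) ^ 2 * (1 / R ^ w) :=
          mul_le_mul_of_nonneg_left hσx (by positivity)
      _ = 16 * (h : ℝ) ^ 2 / R ^ w := by ring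
  have hRRw : R ≤ R ^ w := by
    calc R = R ^ 1 := (pow_one R).symm
      _ ≤ R ^ w := pow_le_pow_right₀ hR1 (by omega)
  have hx1 : x ≤ 1 := by
    rw [hx, div_le_one (by positivity)]; linarith
  have hn1f : n1 f ≤ 1 := by
    have := n1_le_of_Dom hdom
    rw [hma] at this; linarith
  have he00 : 0 ≤ n1 (b - a - f) := n1_nonneg _
  obtain ⟨hupA, hupB⟩ := LevelOne_up_sub k (2 * L ^ (v + 4)) ha hma hb hmb hnab hmf
  -- size of the initial error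
  have hC4e0 : 4 ^ k * 2 ^ (4 ^ k) * n1 (b - a - f) ≤ 1 / R ^ (T' + w + 2 * v + 11) := by
    rw [← hC4]
    have h1 : n1 (b - a - f) ≤ 1 / R ^ (T' + w + 2 * v + 11 + 1) := by
      have h1 : n1 (b - a - f) ≤ 1 / R ^ T := by
        rw [le_div_iff₀ (by positivity)]; exact herr
      exact h1.trans (LevelOne_inv_le hR1 (by omega))
    calc C4 * n1 (b - a - f) ≤ C4 * (1 / R ^ (T' + w + 2 * v + 11 + 1)) :=
          mul_le_mul_of_nonneg_left h1 (by linarith)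
      _ = C4 / R ^ (T' + w + 2 * v + 11 + 1) := by ring
      _ ≤ 1 / R ^ (T' + w + 2 * v + 11) := LevelOne_shift hR1 (by linarith) _
  have hC2k : C2 / (L : ℝ) ^ (2 * k) ≤ 1 / R ^ (T' + w + 2) := by
    rw [← hR]
    have e : 2 * k = (2 * k - 1) + 1 := by omega
    rw [e]
    exact (LevelOne_shift hR1 hRC2 _).trans (LevelOne_inv_le hR1 (by omega))
  have hDF := hdiff _ _ hnab hmf hH hn1f hC4e0 hC2k
  have hFbd := hbd h a f σ x hctx hx1 (2 * L ^ (v + 4))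
  have hEbd := lvl1_lr k hctx (2 * L ^ (v + 4))
  obtain ⟨hA1n, hA1m⟩ := LevelOne_nn_up k (2 * L ^ (v + 4)) ha hma ha hb hma hmb
  obtain ⟨hB1n, hB1m⟩ := LevelOne_nn_up k (2 * L ^ (v + 4)) ha hma hb ha hmb hma
  have hcoin' := hcoin hnab hmf hdom hσ0 hσw hH' (up k (2 * L ^ (v + 4)) a a b) hA1n hA1m
  clear hcoin hdiff hbd hkill hL1
  generalize 2 * L ^ (v + 4) = G at *
  generalize hA1 : up k G a a b = A1 at *
  generalize hB1 : up k G a b a = B1 at *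
  have hqn : nn (a ^ (2 * G + 4 ^ k)) := nn_pow ha _
  -- Bd for E with δ
  have hδ0 : 0 ≤ C5 / R ^ w := by positivity
  have hEbd' : Bd h (a ^ G * pval a f (wT k) * a ^ G - a ^ (2 * G + 4 ^ k)) (a ^ (2 * G + 4 ^ k))
      ((C5 / R ^ w) ^ h) := by
    refine Bd_le hEbd ?_
    apply pow_le_pow_left₀
    · have : (1 : ℝ) ≤ (1 + x) ^ (4 ^ k) := one_le_pow₀ (by linarith)
      linarith
    · have h1 := LevelOne_pow_le (4 ^ k) hx0.le hx1
      have h3 : 2 ^ (4 ^ k) * x = C5 / R ^ w := by rw [hC5, hx]; ring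
      linarith
  have hcloseA : n1 (A1 - a ^ (2 * G + 4 ^ k) -
      (a ^ G * pval a f (wT k) * a ^ G - a ^ (2 * G + 4 ^ k))) ≤
      1 / R ^ (T' + w + 2 * v + 11) := by
    have : A1 - a ^ (2 * G + 4 ^ k) - (a ^ G * pval a f (wT k) * a ^ G - a ^ (2 * G + 4 ^ k)) =
      A1 - a ^ G * pval a f (wT k) * a ^ G := by abel
    rw [this]; exact hupA.trans hC4e0
  obtain ⟨g, hgn, hgm, hgdom⟩ := dom_of_close hh1 hqn hA1n hδ0 hEbd' hcloseA
  -- mass of g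
  have hδh : (C5 / R ^ w) ^ h * 4 ^ (2 * h - 1) ≤ 1 / R ^ (T' + w + 2) :=
    (LevelOne_delta hR1 (by omega) (by linarith) hRC5).trans (LevelOne_inv_le hR1 (by omega))
  have hinv : 1 / R ^ (T' + w + 2 * v + 11) ≤ 1 / R ^ (T' + w + 2) :=
    LevelOne_inv_le hR1 (by omega)
  have hgm' : mass g ≤ 4 * (1 / R ^ (T' + w + 2)) := by linarith
  have hDm : mass (B1 - A1) = 0 := by rw [mass_sub, hA1m, hB1m, sub_self]
  -- conversion
  have hβ0 : 0 ≤ C1 * x ^ 2 := by positivity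
  obtain ⟨s, hs⟩ : ∃ s : ℝ, s = C3 / R ^ w * R := ⟨_, rfl⟩
  have hs0 : 0 < s := by rw [hs]; positivity
  obtain ⟨f', hf'm, hf'dom, hf'err⟩ := convert_dom hh1 hqn hA1n hA1m hgn (by norm_num : (0:ℝ) ≤ 2)
    hβ0 hs0 hgdom hFbd hDm hDF
  have hβs : (C1 * x ^ 2) ^ h / s ^ (2 * h - 1) ≤ 1 / R ^ (T' + w + 2) := by
    rw [hs]
    exact (LevelOne_beta hh1 hR1 hC3 hC1 hx hRC3).trans (LevelOne_inv_le hR1 (by omega))
  have hsle : s ≤ 1 := by
    have h2 : R * R ≤ R ^ w := by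
      calc R * R = R ^ 2 := by ring
        _ ≤ R ^ w := pow_le_pow_right₀ hR1 (by omega)
    rw [hs, div_mul_eq_mul_div, div_le_one (by positivity)]
    exact (mul_le_mul_of_nonneg_right hRC3 hR0.le).trans h2
  have hgm0 : 0 ≤ mass g := mass_nonneg hgn
  have hsg : s * mass g ≤ 4 * (1 / R ^ (T' + w + 2)) := by
    calc s * mass g ≤ 1 * mass g := mul_le_mul_of_nonneg_right hsle hgm0
      _ ≤ _ := by rw [one_mul]; exact hgm'
  obtain ⟨εt, hεt⟩ : ∃ εt : ℝ, εt = 2 * (1 / R ^ (T' + w + 2 * v + 11)) + 1 / R ^ (T' + w + 2) +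
      (C1 * x ^ 2) ^ h / s ^ (2 * h - 1) + s * mass g := ⟨_, rfl⟩
  rw [← hεt] at hf'dom hf'err
  have hεt0 : 0 ≤ εt := by rw [hεt]; positivity
  have hεt2 : 2 * εt ≤ 1 / R ^ (T' + w) := by
    have h1 : 16 ≤ R * R := by nlinarith
    have h2 : εt ≤ 8 * (1 / R ^ (T' + w + 2)) := by rw [hεt]; linarith
    calc 2 * εt ≤ 16 / R ^ (T' + w + 1 + 1) := by
          have : 16 / R ^ (T' + w + 1 + 1) = 2 * (8 * (1 / R ^ (T' + w + 2))) := by ring
          rw [this]; linarith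
      _ ≤ (R * R) / R ^ (T' + w + 1 + 1) := div_le_div_of_nonneg_right h1 (by positivity)
      _ = 1 / R ^ (T' + w) := by
          rw [pow_succ, pow_succ]; field_simp
  -- assemble
  refine ⟨hA1n, hA1m, hB1n, hB1m, ?_, f', s * 2 + εt, by positivity, ?_, hf'dom, hf'm, ?_⟩
  · -- coins
    rw [← hR]
    apply hcoin'
    have h2 : 1 / R ^ (T' + w + 2 * v + 11) ≤ 1 / R ^ (2 * v + 8) :=
      LevelOne_inv_le hR1 (by omega)
    calc n1 (A1 - a ^ G * pval a f (wT k) * a ^ G) * R ^ (2 * v + 8)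
        ≤ (1 / R ^ (2 * v + 8)) * R ^ (2 * v + 8) :=
          mul_le_mul_of_nonneg_right (hupA.trans (hC4e0.trans h2)) (by positivity)
      _ = 1 := by field_simp
  · rw [← hR]
    exact LevelOne_sigma hR1 hC3' hRC9 (by omega) hs hεt0 hεt2
  · rw [← hR]
    calc n1 (B1 - A1 - f') * R ^ T' ≤ (1 / R ^ (T' + w)) * R ^ T' := by
          apply mul_le_mul_of_nonneg_right _ (by positivity)
          exact hf'err.trans hεt2
      _ = 1 / R ^ w := by rw [pow_add]; field_simp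
      _ ≤ 1 := by rw [div_le_one (by positivity)]; exact hRw

end Vale.Agent.P321
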