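import Vale.Agent.P321.LevelOne

namespace Vale.Agent.P321

open Finset

theorem tower_smul_sum {ι : Type*} (s : Finset ι) (a w : Alg) (W : ℕ) (ε : ι → ℝ) (T : ι → Alg)
    (n : ℕ) : tower a w W (∑ i ∈ s, ε i • T i) n = ∑ i ∈ s, ε i • tower a w W (T i) n := by
  induction n with
  | zero => rfl
  | succ n ih =>
    simp only [tower]
    rw [ih, Finset.mul_sum, Finset.sum_mul, Finset.sum_mul]
    refine Finset.sum_congr rfl fun i _ => ?_
    rw [mul_smul_comm, smul_mul_assoc, smul_mul_assoc]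

theorem LevelTwoA_recB_nonneg {y : ℝ} (hy : 0 ≤ y) (P : ℕ) {b0 : ℤ → ℝ} (hb0 : ∀ D, 0 ≤ b0 D)
    (n : ℕ) (D : ℤ) : 0 ≤ recB y P b0 n D := by
  induction n generalizing D with
  | zero => exact hb0 D
  | succ n ih =>
    simp only [recB]
    have h1 : 0 ≤ bump y P D := by
      unfold bump
      split_ifs <;> linarith
    have h2 : 0 ≤ opQ (opQ (recB y P b0 n)) D := by
      unfold opQ
      have := ih (D - 1 - 1)
      have := ih (D - 1)
      have := ih (D - 1 + 1)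
      have := ih D
      have := ih (D + 1)
      have := ih (D + 1 + 1)
      have := ih (D + 1 - 1)
      linarith
    exact mul_nonneg h1 h2

theorem LevelTwoA_recB_ge_one {y : ℝ} (hy : 0 ≤ y) (P : ℕ) {b0 : ℤ → ℝ} (hb0 : ∀ D, 1 ≤ b0 D)
    (n : ℕ) (D : ℤ) : 1 ≤ recB y P b0 n D := by
  induction n generalizing D with
  | zero => exact hb0 D
  | succ n ih =>
    simp only [recB]
    have h1 : 1 ≤ bump y P D := by
      unfold bump
      split_ifs <;> linarith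
    have h2 : 1 ≤ opQ (opQ (recB y P b0 n)) D := by
      unfold opQ
      have := ih (D - 1 - 1)
      have := ih (D - 1)
      have := ih (D - 1 + 1)
      have := ih D
      have := ih (D + 1)
      have := ih (D + 1 + 1)
      have := ih (D + 1 - 1)
      linarith
    nlinarith

theorem LevelTwoA_middle (k G g G1 : ℕ) (hg : g ≤ G1) (a f c X : Alg)
    (hX : X = a ^ G * c * a ^ G) :
    (a ^ G * pval a f (wT k) * a ^ G) ^ G1 * X * (a ^ G * pval a f (wT k) * a ^ G) ^ G1 =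
      (a ^ G * pval a f (wT k) * a ^ G) ^ (G1 - g) *
        (a ^ G * tower a (pval a f (wT k)) (2 * G) c g * a ^ G) *
        (a ^ G * pval a f (wT k) * a ^ G) ^ (G1 - g) := by
  rw [← tower_eq, hX]
  set u := a ^ G * pval a f (wT k) * a ^ G with hu
  have e1 : u ^ G1 = u ^ (G1 - g) * u ^ g := by rw [← pow_add, Nat.sub_add_cancel hg]
  have e2 : u ^ G1 = u ^ g * u ^ (G1 - g) := by rw [← pow_add, Nat.add_sub_cancel' hg]
  calc u ^ G1 * (a ^ G * c * a ^ G) * u ^ G1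
      = (u ^ (G1 - g) * u ^ g) * (a ^ G * c * a ^ G) * (u ^ g * u ^ (G1 - g)) := by
        rw [← e1, ← e2]
    _ = _ := by simp only [mul_assoc]

theorem LevelTwoA_expo (k G g : ℕ) :
    G + G + (4 ^ k * 4 ^ k + (4 ^ k - 1) * (2 * G) + g * (2 * (2 * G) + 2 * 4 ^ k)) =
      (2 * g + 4 ^ k) * (2 * G + 4 ^ k) := by
  obtain ⟨m, hm⟩ : ∃ m, 4 ^ k = m + 1 :=
    ⟨4 ^ k - 1, by have : 0 < 4 ^ k := by positivity
                   omega⟩
  rw [hm, Nat.add_sub_cancel]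
  ring

/-- THE GAIN. `a1 = a^G (pval wT) a^G`, `f1 = a^G (Rem k a f) a^G`; `expand_core`, then `window`
with `c = 0`, `core_zero` with `k = 4` and `recB_zero` for each list, then `Bd_sum`. -/
theorem lvl2_gain (k : ℕ) : ∃ C : ℝ, 1 ≤ C ∧ ∀ (h : ℕ) (a f : Alg) (σ x lam : ℝ)
    (K G d J g G1 : ℕ), Ctx h a f σ x → H1 a K lam → 0 < lam → lam ≤ 1 → n1 f ≤ 1 → x ≤ 1 →
    (1 + x) ^ (4 ^ k * 4 ^ k) ≤ 2 →
    16 * (4 ^ k : ℝ) * ((1 + x) ^ (2 * 4 ^ k) - 1) * Real.sqrt ((g : ℝ) + 1) ≤ 1 →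
    1 ≤ J → 2 * d + 1 + 2 * J * (K + 1) ≤ 2 * G → 1 ≤ g → g ≤ G1 →
    ∃ Y : Alg,
      Bd h Y ((a ^ G * pval a f (wT k) * a ^ G) ^ (G1 - g) *
          a ^ ((2 * g + 4 ^ k) * (2 * G + 4 ^ k)) *
          (a ^ G * pval a f (wT k) * a ^ G) ^ (G1 - g))
        ((C * x ^ 4 / Real.sqrt ((g : ℝ) + 1)) ^ h) ∧
      n1 ((a ^ G * pval a f (wT k) * a ^ G) ^ G1 *
          Rem k (a ^ G * pval a f (wT k) * a ^ G) (a ^ G * Rem k a f * a ^ G) *
          (a ^ G * pval a f (wT k) * a ^ G) ^ G1 - Y) ≤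
        C * (4 * Real.exp (-((d : ℝ) ^ 2 / g)) + 4 * g * (1 - lam ^ 2) ^ J) := by
  obtain ⟨Nk, hNk⟩ := expand_core k
  have hP1 : (1 : ℝ) ≤ 4 ^ k := one_le_pow₀ (by norm_num)
  refine ⟨((Nk : ℝ) + 1) ^ 2 * (8 * 4 ^ k), ?_, ?_⟩
  · have : (1 : ℝ) ≤ ((Nk : ℝ) + 1) ^ 2 := by
      have : (0 : ℝ) ≤ Nk := Nat.cast_nonneg _
      nlinarith
    nlinarith
  intro h a f σ x lam K G d J g G1 hctx hH hlam0 hlam1 hf hx1 hx2 hz hJ hW hg hgG
  obtain ⟨n, ε, l, hn, hl, hexp⟩ := hNk G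
  have hx0 : 0 ≤ x := le_trans (by positivity) hctx.hx
  have hna : ∀ n, nn (a ^ n) := fun n => nn_pow hctx.nna n
  have hma : ∀ n, mass (a ^ n) = 1 := fun n => by rw [mass_pow, hctx.ma, one_pow]
  obtain ⟨hnw, hmw⟩ := nn_pval hctx (wT k) (nPsi_wT k)
  have hy0 : 0 ≤ (1 + x) ^ (2 * 4 ^ k) - 1 := by
    have : (1 : ℝ) ≤ (1 + x) ^ (2 * 4 ^ k) := one_le_pow₀ (by linarith)
    linarith
  have hJK : 1 ≤ J * (K + 1) := Nat.one_le_iff_ne_zero.2 (by positivity)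
  have hJK2 : 2 * J * (K + 1) = 2 * (J * (K + 1)) := by ring
  have hdG : d + 1 ≤ G := by omega
  set err := 4 * Real.exp (-((d : ℝ) ^ 2 / g)) + 4 * g * (1 - lam ^ 2) ^ J with herr
  set ref := a ^ ((2 * g + 4 ^ k) * (2 * G + 4 ^ k)) with href
  set β := 8 * 4 ^ k * x ^ 4 / Real.sqrt ((g : ℝ) + 1) with hβ
  have hβ0 : 0 ≤ β := by positivity
  -- the window theorem for each list
  have hterm : ∀ i : Fin n, ∃ Y : Alg, Bd h Y ref (β ^ h) ∧
      n1 (a ^ G * tower a (pval a f (wT k)) (2 * G) (pval a f (l i)) g * a ^ G - Y) ≤ err := by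
    intro i
    obtain ⟨hε, hlen, hps, hnb, hcl⟩ := hl i
    have hcore := core_zero (d := d) hctx hx1 hf (l i) (4 ^ k) (2 * G + 4 ^ k) (4 ^ k * 4 ^ k) 4
      (by norm_num) hps hcl (by omega) hnb
    obtain ⟨Y, hY1, hY2⟩ := window hctx hH hlam0 hlam1 (Or.inl rfl) (wT k) (wT_length k)
      (nPsi_wT k) (n1_pval_le hctx hf (l i)) hcore hJ hW g hg G G hdG hdG
    refine ⟨Y, ?_, hY2⟩
    rw [zero_smul, sub_zero, hlen, LevelTwoA_expo] at hY1
    refine Bd_le hY1 ?_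
    have hB0 : (0 : ℝ) ≤ x ^ 4 * (1 + x) ^ (4 ^ k * 4 ^ k) := by positivity
    have h1 := recB_zero ((1 + x) ^ (2 * 4 ^ k) - 1) hy0 (4 ^ k)
      (fun D => if |D| < ((4 ^ k : ℕ) : ℤ) then x ^ 4 * (1 + x) ^ (4 ^ k * 4 ^ k) else 0)
      (x ^ 4 * (1 + x) ^ (4 ^ k * 4 ^ k)) hB0 (fun D => le_rfl)
      (fun D => by
        show 0 ≤ (if |D| < ((4 ^ k : ℕ) : ℤ) then x ^ 4 * (1 + x) ^ (4 ^ k * 4 ^ k) else 0)
        split_ifs
        · exact hB0
        · exact le_rfl) g (by push_cast; exact hz) 0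
    have h2 := LevelTwoA_recB_nonneg hy0 (4 ^ k)
      (b0 := fun D => if |D| < ((4 ^ k : ℕ) : ℤ) then x ^ 4 * (1 + x) ^ (4 ^ k * 4 ^ k) else 0)
      (fun D => by
        show 0 ≤ (if |D| < ((4 ^ k : ℕ) : ℤ) then x ^ 4 * (1 + x) ^ (4 ^ k * 4 ^ k) else 0)
        split_ifs
        · exact hB0
        · exact le_rfl) g 0
    apply pow_le_pow_left₀
    · rw [zero_pow (by norm_num), sub_zero]
      exact h2
    · rw [zero_pow (by norm_num), sub_zero]
      refine h1.trans ?_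
      rw [hβ]
      apply div_le_div_of_nonneg_right _ (Real.sqrt_nonneg _)
      push_cast
      have h3 : x ^ 4 * (1 + x) ^ (4 ^ k * 4 ^ k) ≤ x ^ 4 * 2 :=
        mul_le_mul_of_nonneg_left hx2 (by positivity)
      have h4 : (0 : ℝ) ≤ 4 * 4 ^ k := by positivity
      nlinarith [mul_le_mul_of_nonneg_left h3 h4]
  choose Y hY1 hY2 using hterm
  have hnref : nn ref := hna _
  have hsum : Bd h (∑ i, ε i • Y i) ref ((((Nk : ℝ)) ^ 2 * β) ^ h) := by
    apply Bd_sum Finset.univ (fun i => ε i • Y i) hβ0 hctx.hh hnref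
    · simpa using hn
    · intro i _
      obtain ⟨hε, -⟩ := hl i
      refine Bd_le (Bd_smul (ε i) (hY1 i)) ?_
      have h3 : (ε i) ^ (2 * h) ≤ 1 := by
        rw [pow_mul]
        apply pow_le_one₀ (sq_nonneg _)
        rw [sq_le_one_iff_abs_le_one]; exact hε
      have h6 : 0 ≤ β ^ h := by positivity
      nlinarith
  set u := a ^ G * pval a f (wT k) * a ^ G with hu
  have hnu : nn u := nn_mul (nn_mul (hna G) hnw) (hna G)
  have hmu : mass u = 1 := by rw [hu, mass_mul, mass_mul, hma, hmw]; norm_num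
  have hnup : nn (u ^ (G1 - g)) := nn_pow hnu _
  have hmup : mass (u ^ (G1 - g)) = 1 := by rw [mass_pow, hmu, one_pow]
  refine ⟨u ^ (G1 - g) * (∑ i, ε i • Y i) * u ^ (G1 - g), ?_, ?_⟩
  · have h7 := Bd_mul_left hnup hnref hsum
    have h8 := Bd_mul_right hnup (nn_mul hnup hnref) h7
    rw [hmup, one_mul, mul_one] at h8
    refine Bd_le h8 ?_
    apply pow_le_pow_left₀ (by positivity)
    have e : ((Nk : ℝ) + 1) ^ 2 * (8 * 4 ^ k) * x ^ 4 / Real.sqrt ((g : ℝ) + 1) =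
        ((Nk : ℝ) + 1) ^ 2 * β := by
      rw [hβ]; ring
    rw [e]
    apply mul_le_mul_of_nonneg_right _ hβ0
    have : (0 : ℝ) ≤ Nk := Nat.cast_nonneg _
    nlinarith
  · rw [LevelTwoA_middle k G g G1 hgG a f _ _ (hexp a f), tower_smul_sum, ← hu]
    have e : u ^ (G1 - g) * (a ^ G * (∑ i, ε i • tower a (pval a f (wT k)) (2 * G)
        (pval a f (l i)) g) * a ^ G) * u ^ (G1 - g) -
        u ^ (G1 - g) * (∑ i, ε i • Y i) * u ^ (G1 - g) =
        u ^ (G1 - g) * (∑ i, ε i • (a ^ G * tower a (pval a f (wT k)) (2 * G)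
        (pval a f (l i)) g * a ^ G - Y i)) * u ^ (G1 - g) := by
      rw [← sub_mul, ← mul_sub]
      congr 2
      rw [Finset.mul_sum, Finset.sum_mul, ← Finset.sum_sub_distrib]
      refine Finset.sum_congr rfl fun i _ => ?_
      rw [smul_sub, mul_smul_comm, smul_mul_assoc]
    rw [e]
    refine (n1_mul_right_le hnup hmup.le _).trans ?_
    refine (n1_mul_left_le hnup hmup.le _).trans ?_
    refine (n1_sum_le _ _).trans ?_
    have herr0 : 0 ≤ err := by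
      rw [herr]
      have : 0 ≤ 1 - lam ^ 2 := by nlinarith
      positivity
    have h9 : ∑ i, n1 (ε i • (a ^ G * tower a (pval a f (wT k)) (2 * G)
        (pval a f (l i)) g * a ^ G - Y i)) ≤ ∑ _i : Fin n, err := by
      refine Finset.sum_le_sum fun i _ => ?_
      rw [n1_smul]
      obtain ⟨hε, -⟩ := hl i
      calc |ε i| * n1 (a ^ G * tower a (pval a f (wT k)) (2 * G)
          (pval a f (l i)) g * a ^ G - Y i) ≤ 1 * err :=
            mul_le_mul hε (hY2 i) (n1_nonneg _) zero_le_one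
        _ = err := one_mul _
    refine h9.trans ?_
    rw [Finset.sum_const, Finset.card_univ, Fintype.card_fin, nsmul_eq_mul]
    apply mul_le_mul_of_nonneg_right _ herr0
    have h10 : (n : ℝ) ≤ Nk := by exact_mod_cast hn
    have h11 : (0 : ℝ) ≤ Nk := Nat.cast_nonneg _
    nlinarith [mul_nonneg h11 h11]

/-- Closeness of the second level word to the reference; `core_list`, `window` with `c = 1`,
`core_one`, `recB_one`. -/
theorem lvl2_lr (k : ℕ) : ∃ C : ℝ, 1 ≤ C ∧ ∀ (h : ℕ) (a f : Alg) (σ x lam : ℝ)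
    (K G d J g G1 : ℕ), Ctx h a f σ x → H1 a K lam → 0 < lam → lam ≤ 1 →
    C * x * (1 + Real.sqrt g) ≤ 1 →
    1 ≤ J → 2 * d + 1 + 2 * J * (K + 1) ≤ 2 * G → 1 ≤ g → g ≤ G1 →
    ∃ E : Alg,
      Bd h E ((a ^ G * pval a f (wT k) * a ^ G) ^ (G1 - g) *
          a ^ ((2 * g + 4 ^ k) * (2 * G + 4 ^ k)) *
          (a ^ G * pval a f (wT k) * a ^ G) ^ (G1 - g))
        ((C * x * (1 + Real.sqrt g)) ^ h) ∧
      n1 ((a ^ G * pval a f (wT k) * a ^ G) ^ G1 *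
          prodTM k (a ^ G * pval a f (wT k) * a ^ G) (a ^ G * pval a f (wC k) * a ^ G) *
          (a ^ G * pval a f (wT k) * a ^ G) ^ G1 -
          (a ^ G * pval a f (wT k) * a ^ G) ^ (G1 - g) *
          a ^ ((2 * g + 4 ^ k) * (2 * G + 4 ^ k)) *
          (a ^ G * pval a f (wT k) * a ^ G) ^ (G1 - g) - E) ≤
        4 * Real.exp (-((d : ℝ) ^ 2 / g)) + 4 * g * (1 - lam ^ 2) ^ J := by
  obtain ⟨m, hm⟩ : ∃ m : ℕ, m = 2 * 4 ^ k + 4 ^ k * 4 ^ k := ⟨_, rfl⟩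
  have hP1 : (1 : ℝ) ≤ 4 ^ k := one_le_pow₀ (by norm_num)
  have hm1 : (1 : ℝ) ≤ 2 ^ m := one_le_pow₀ (by norm_num)
  refine ⟨8 * 4 ^ k * 2 ^ m, ?_, ?_⟩
  · nlinarith
  intro h a f σ x lam K G d J g G1 hctx hH hlam0 hlam1 hC hJ hW hg hgG
  obtain ⟨l, hlen, hps, hnb, hcl, hexp⟩ := core_list k G
  have hx0 : 0 ≤ x := le_trans (by positivity) hctx.hx
  have hna : ∀ n, nn (a ^ n) := fun n => nn_pow hctx.nna n
  have hma : ∀ n, mass (a ^ n) = 1 := fun n => by rw [mass_pow, hctx.ma, one_pow]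
  obtain ⟨hnw, hmw⟩ := nn_pval hctx (wT k) (nPsi_wT k)
  obtain ⟨hnl, hml⟩ := nn_pval hctx l hps
  have hsq : 0 ≤ Real.sqrt (g : ℝ) := Real.sqrt_nonneg _
  have hx1 : x ≤ 1 := by
    have h1 : 1 * x * 1 ≤ 8 * 4 ^ k * 2 ^ m * x * (1 + Real.sqrt g) := by
      apply mul_le_mul _ (by linarith) zero_le_one (by positivity)
      apply mul_le_mul_of_nonneg_right _ hx0
      nlinarith
    linarith
  have hy0 : 0 ≤ (1 + x) ^ (2 * 4 ^ k) - 1 := by
    have : (1 : ℝ) ≤ (1 + x) ^ (2 * 4 ^ k) := one_le_pow₀ (by linarith)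
    linarith
  have hb0 : 0 ≤ (1 + x) ^ (4 ^ k * 4 ^ k) - 1 := by
    have : (1 : ℝ) ≤ (1 + x) ^ (4 ^ k * 4 ^ k) := one_le_pow₀ (by linarith)
    linarith
  have hyy : (1 + x) ^ (2 * 4 ^ k) - 1 ≤ (1 + x) ^ m - 1 := by
    have : (1 + x) ^ (2 * 4 ^ k) ≤ (1 + x) ^ m :=
      pow_le_pow_right₀ (by linarith) (by rw [hm]; exact Nat.le_add_right _ _)
    linarith
  have hby : (1 + x) ^ (4 ^ k * 4 ^ k) - 1 ≤ (1 + x) ^ m - 1 := by
    have : (1 + x) ^ (4 ^ k * 4 ^ k) ≤ (1 + x) ^ m :=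
      pow_le_pow_right₀ (by linarith) (by rw [hm]; exact Nat.le_add_left _ _)
    linarith
  have hym : (1 + x) ^ m - 1 ≤ 2 ^ m * x := by
    have := LevelOne_pow_le m hx0 hx1
    nlinarith
  have hJK : 1 ≤ J * (K + 1) := Nat.one_le_iff_ne_zero.2 (by positivity)
  have hJK2 : 2 * J * (K + 1) = 2 * (J * (K + 1)) := by ring
  have hdG : d + 1 ≤ G := by omega
  set err := 4 * Real.exp (-((d : ℝ) ^ 2 / g)) + 4 * g * (1 - lam ^ 2) ^ J with herr
  set ref := a ^ ((2 * g + 4 ^ k) * (2 * G + 4 ^ k)) with href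
  have hnref : nn ref := hna _
  have hcore := core_one (d := d) hctx l (4 ^ k) (2 * G + 4 ^ k) (4 ^ k * 4 ^ k) hps hcl
    (by omega) hnb
  have hTn : n1 (pval a f l) ≤ 1 := by rw [n1_of_nn hnl, hml]
  obtain ⟨Y, hY1, hY2⟩ := window hctx hH hlam0 hlam1 (Or.inr rfl) (wT k) (wT_length k)
    (nPsi_wT k) hTn hcore hJ hW g hg G G hdG hdG
  rw [one_smul, hlen, LevelTwoA_expo, ← href, one_pow] at hY1
  have hyP : 8 * 4 ^ k * ((1 + x) ^ m - 1) * (1 + Real.sqrt g) ≤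
      8 * 4 ^ k * 2 ^ m * x * (1 + Real.sqrt g) := by
    apply mul_le_mul_of_nonneg_right _ (by linarith)
    have : (0 : ℝ) ≤ 8 * 4 ^ k := by positivity
    nlinarith [mul_le_mul_of_nonneg_left hym this]
  have hY3 : Bd h (Y - ref) ref ((8 * 4 ^ k * 2 ^ m * x * (1 + Real.sqrt g)) ^ h) := by
    refine Bd_le hY1 ?_
    have h1 := recB_one ((1 + x) ^ (2 * 4 ^ k) - 1) ((1 + x) ^ m - 1) hy0 hyy (4 ^ k)
      (bump ((1 + x) ^ (4 ^ k * 4 ^ k) - 1) (4 ^ k))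
      (fun D => by
        unfold bump
        split_ifs <;> linarith) g (by push_cast; linarith) 0
    have h2 := LevelTwoA_recB_ge_one hy0 (4 ^ k)
      (b0 := bump ((1 + x) ^ (4 ^ k * 4 ^ k) - 1) (4 ^ k))
      (fun D => by
        unfold bump
        split_ifs <;> linarith) g 0
    apply pow_le_pow_left₀
    · linarith
    · push_cast at h1
      linarith
  set u := a ^ G * pval a f (wT k) * a ^ G with hu
  have hnu : nn u := nn_mul (nn_mul (hna G) hnw) (hna G)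
  have hmu : mass u = 1 := by rw [hu, mass_mul, mass_mul, hma, hmw]; norm_num
  have hnup : nn (u ^ (G1 - g)) := nn_pow hnu _
  have hmup : mass (u ^ (G1 - g)) = 1 := by rw [mass_pow, hmu, one_pow]
  refine ⟨u ^ (G1 - g) * (Y - ref) * u ^ (G1 - g), ?_, ?_⟩
  · have h7 := Bd_mul_left hnup hnref hY3
    have h8 := Bd_mul_right hnup (nn_mul hnup hnref) h7
    rw [hmup, one_mul, mul_one] at h8
    exact h8
  · rw [LevelTwoA_middle k G g G1 hgG a f _ _ (hexp a f), ← hu]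
    have e : u ^ (G1 - g) * (a ^ G * tower a (pval a f (wT k)) (2 * G)
        (pval a f l) g * a ^ G) * u ^ (G1 - g) - u ^ (G1 - g) * ref * u ^ (G1 - g) -
        u ^ (G1 - g) * (Y - ref) * u ^ (G1 - g) =
        u ^ (G1 - g) * (a ^ G * tower a (pval a f (wT k)) (2 * G)
        (pval a f l) g * a ^ G - Y) * u ^ (G1 - g) := by
      noncomm_ring
    rw [e]
    refine (n1_mul_right_le hnup hmup.le _).trans ?_
    exact (n1_mul_left_le hnup hmup.le _).trans hY2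

end Vale.Agent.P321
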