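import Vale.Agent.P321.LevelTwoA

namespace Vale.Agent.P321

open Finset

theorem LTB_exp_small (n m : ℕ) (C : ℝ) : ∃ L0 : ℕ, ∀ L : ℕ, L0 ≤ L →
    C * ((L : ℝ) ^ n * Real.exp (-(L : ℝ))) ≤ 1 / (L : ℝ) ^ m := by
  have h1 : Filter.Tendsto (fun x : ℝ => x ^ (n + m) * Real.exp (-x)) Filter.atTop (nhds 0) :=
    Real.tendsto_pow_mul_exp_neg_atTop_nhds_zero (n + m)
  have h2 : Filter.Tendsto (fun x : ℝ => C * (x ^ (n + m) * Real.exp (-x))) Filter.atTop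
      (nhds 0) := by
    have := h1.const_mul C
    simpa using this
  have h3 : ∀ᶠ x : ℝ in Filter.atTop, C * (x ^ (n + m) * Real.exp (-x)) ≤ 1 :=
    (h2.eventually (gt_mem_nhds zero_lt_one)).mono fun x hx => hx.le
  have h4 : ∀ᶠ L : ℕ in Filter.atTop, C * ((L : ℝ) ^ (n + m) * Real.exp (-(L : ℝ))) ≤ 1 :=
    tendsto_natCast_atTop_atTop.eventually h3
  obtain ⟨L0, hL0⟩ := Filter.eventually_atTop.1 h4
  refine ⟨max L0 1, fun L hL => ?_⟩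
  have hL1 : 1 ≤ L := (le_max_right _ _).trans hL
  have hL2 : L0 ≤ L := (le_max_left _ _).trans hL
  have hR : (0 : ℝ) < (L : ℝ) := by exact_mod_cast hL1
  rw [le_div_iff₀ (by positivity)]
  have := hL0 L hL2
  calc C * ((L : ℝ) ^ n * Real.exp (-(L : ℝ))) * (L : ℝ) ^ m
      = C * ((L : ℝ) ^ (n + m) * Real.exp (-(L : ℝ))) := by rw [pow_add]; ring
    _ ≤ 1 := this

/-- The window errors are smaller than any power. -/
theorem LTB_window_err (v m : ℕ) (C : ℝ) (hC : 0 ≤ C) : ∃ L0 : ℕ, ∀ L : ℕ, L0 ≤ L →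
    C * (4 * Real.exp (-(((L ^ (v + 4) : ℕ) : ℝ) ^ 2 / ((L ^ (2 * v + 6) : ℕ) : ℝ))) +
      4 * ((L ^ (2 * v + 6) : ℕ) : ℝ) * (1 - (1 / (L : ℝ)) ^ 2) ^ (L ^ 3)) ≤
      1 / (L : ℝ) ^ m := by
  obtain ⟨L0, hL0⟩ := LTB_exp_small (2 * v + 6) m (8 * C)
  refine ⟨max L0 1, fun L hL => ?_⟩
  have hL1 : 1 ≤ L := (le_max_right _ _).trans hL
  have hL2 : L0 ≤ L := (le_max_left _ _).trans hL
  refine le_trans ?_ (hL0 L hL2)
  have hR1 : (1 : ℝ) ≤ (L : ℝ) := by exact_mod_cast hL1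
  obtain ⟨R, hR⟩ : ∃ R : ℝ, R = (L : ℝ) := ⟨_, rfl⟩
  push_cast
  rw [← hR] at hR1 ⊢
  have hR0 : 0 < R := by linarith
  have e1 : (R ^ (v + 4)) ^ 2 / R ^ (2 * v + 6) = R ^ 2 := by
    rw [div_eq_iff (by positivity), ← pow_mul, ← pow_add]; congr 1; ring
  rw [e1]
  have h1 : Real.exp (-R ^ 2) ≤ Real.exp (-R) := by
    apply Real.exp_le_exp.2; nlinarith
  have h2 : (1 - (1 / R) ^ 2) ^ (L ^ 3) ≤ Real.exp (-R) := by
    have h3 : 1 - (1 / R) ^ 2 ≤ Real.exp (-(1 / R) ^ 2) := by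
      have := Real.add_one_le_exp (-(1 / R) ^ 2); linarith
    have h4 : 0 ≤ 1 - (1 / R) ^ 2 := by
      have : (1 / R) ≤ 1 := by rw [div_le_one hR0]; exact hR1
      have h0 : 0 ≤ 1 / R := by positivity
      nlinarith
    calc (1 - (1 / R) ^ 2) ^ (L ^ 3) ≤ (Real.exp (-(1 / R) ^ 2)) ^ (L ^ 3) :=
          pow_le_pow_left₀ h4 h3 _
      _ = Real.exp (-R) := by
          rw [← Real.exp_nat_mul]; congr 1
          push_cast
          rw [← hR]; field_simp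
  have h5 : (1 : ℝ) ≤ R ^ (2 * v + 6) := one_le_pow₀ hR1
  have h6 : 0 < Real.exp (-R) := Real.exp_pos _
  have h7 : 4 * R ^ (2 * v + 6) * (1 - (1 / R) ^ 2) ^ (L ^ 3) ≤
      4 * R ^ (2 * v + 6) * Real.exp (-R) := mul_le_mul_of_nonneg_left h2 (by positivity)
  have h8 : 4 * Real.exp (-R ^ 2) ≤ 4 * (R ^ (2 * v + 6) * Real.exp (-R)) := by nlinarith
  have h9 : 4 * Real.exp (-R ^ 2) + 4 * R ^ (2 * v + 6) * (1 - (1 / R) ^ 2) ^ (L ^ 3) ≤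
      8 * (R ^ (2 * v + 6) * Real.exp (-R)) := by linarith
  calc C * (4 * Real.exp (-R ^ 2) + 4 * R ^ (2 * v + 6) * (1 - (1 / R) ^ 2) ^ (L ^ 3))
      ≤ C * (8 * (R ^ (2 * v + 6) * Real.exp (-R))) := mul_le_mul_of_nonneg_left h9 hC
    _ = 8 * C * (R ^ (2 * v + 6) * Real.exp (-R)) := by ring

theorem LTB_pow_sub {u v : Alg} (hu : nn u) (hv : nn v) (hmu : mass u = 1) (hmv : mass v = 1)
    (n : ℕ) : n1 (u ^ n - v ^ n) ≤ n * n1 (u - v) := by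
  induction n with
  | zero => simp
  | succ n ih =>
    have e : u ^ (n + 1) - v ^ (n + 1) = u ^ n * (u - v) + (u ^ n - v ^ n) * v := by
      rw [pow_succ, pow_succ]; noncomm_ring
    rw [e]
    refine (n1_add_le _ _).trans ?_
    have h1 := n1_mul_left_le (nn_pow hu n) (by rw [mass_pow, hmu, one_pow]) (u - v)
    have h2 := n1_mul_right_le hv hmv.le (u ^ n - v ^ n)
    push_cast
    linarith

theorem LTB_sandwich {u v X X' : Alg} (hu : nn u) (hv : nn v) (hmu : mass u = 1)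
    (hmv : mass v = 1) (hX : n1 X ≤ 1) (G : ℕ) :
    n1 (u ^ G * X * u ^ G - v ^ G * X' * v ^ G) ≤ 2 * (G * n1 (u - v)) + n1 (X - X') := by
  have hd := LTB_pow_sub hu hv hmu hmv G
  have e : u ^ G * X * u ^ G - v ^ G * X' * v ^ G =
      (u ^ G - v ^ G) * X * u ^ G + v ^ G * X * (u ^ G - v ^ G) + v ^ G * (X - X') * v ^ G := by
    noncomm_ring
  rw [e]
  have h0 := n1_nonneg (u ^ G - v ^ G)
  have h1 : n1 ((u ^ G - v ^ G) * X * u ^ G) ≤ n1 (u ^ G - v ^ G) := by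
    refine (n1_mul_right_le (nn_pow hu G) (by rw [mass_pow, hmu, one_pow]) _).trans ?_
    refine (n1_mul_le _ _).trans ?_
    nlinarith [n1_nonneg X]
  have h2 : n1 (v ^ G * X * (u ^ G - v ^ G)) ≤ n1 (u ^ G - v ^ G) := by
    rw [mul_assoc]
    refine (n1_mul_left_le (nn_pow hv G) (by rw [mass_pow, hmv, one_pow]) _).trans ?_
    refine (n1_mul_le _ _).trans ?_
    nlinarith [n1_nonneg X]
  have h3 : n1 (v ^ G * (X - X') * v ^ G) ≤ n1 (X - X') := by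
    refine (n1_mul_right_le (nn_pow hv G) (by rw [mass_pow, hmv, one_pow]) _).trans ?_
    exact n1_mul_left_le (nn_pow hv G) (by rw [mass_pow, hmv, one_pow]) _
  have h4 := n1_add_le ((u ^ G - v ^ G) * X * u ^ G + v ^ G * X * (u ^ G - v ^ G))
    (v ^ G * (X - X') * v ^ G)
  have h5 := n1_add_le ((u ^ G - v ^ G) * X * u ^ G) (v ^ G * X * (u ^ G - v ^ G))
  linarith

/-- numerical part: the truncation loss -/
theorem LTB_beta {h : ℕ} (hh : 1 ≤ h) {R β : ℝ} (hR : 1 ≤ R) (hβ : 0 < β) (hβ1 : β ≤ 1) :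
    β ^ h / (R * Real.sqrt β) ^ (2 * h - 1) ≤ 1 / R ^ (2 * h - 1) := by
  have hR0 : 0 < R := by linarith
  have hs : 0 < Real.sqrt β := Real.sqrt_pos.2 hβ
  have h1 : β ^ h = Real.sqrt β ^ (2 * h - 1) * Real.sqrt β := by
    rw [← pow_succ]
    have : 2 * h - 1 + 1 = 2 * h := by omega
    rw [this, pow_mul, Real.sq_sqrt hβ.le]
  rw [h1, mul_pow]
  have h2 : 0 < Real.sqrt β ^ (2 * h - 1) := by positivity
  have h3 : Real.sqrt β ≤ 1 := by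
    rw [show (1 : ℝ) = Real.sqrt 1 by simp]; exact Real.sqrt_le_sqrt hβ1
  calc Real.sqrt β ^ (2 * h - 1) * Real.sqrt β / (R ^ (2 * h - 1) * Real.sqrt β ^ (2 * h - 1))
      = Real.sqrt β / R ^ (2 * h - 1) := by
        rw [mul_comm (R ^ (2 * h - 1)), mul_div_mul_left _ _ h2.ne']
    _ ≤ 1 / R ^ (2 * h - 1) := div_le_div_of_nonneg_right h3 (by positivity)

theorem LTB_sigma {n T' : ℕ} {R C s εt β : ℝ} (hR : 1 ≤ R) (hC : 1 ≤ C)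
    (h9 : 9 * C ≤ R) (hβ : β = C / R ^ (n + 3)) (hs : s = R * Real.sqrt β) (hε0 : 0 ≤ εt)
    (hε : 2 * εt ≤ 1 / R ^ (T' + n + 3)) :
    (s * 2 + εt) ^ 2 * R ^ n ≤ 1 := by
  have hR0 : 0 < R := by linarith
  have hβ0 : 0 < β := by rw [hβ]; positivity
  have hs0 : 0 < s := by rw [hs]; positivity
  have hs2 : s ^ 2 = R ^ 2 * β := by rw [hs, mul_pow, Real.sq_sqrt hβ0.le]
  have h1 : εt ≤ s := by
    have h2 : εt ^ 2 ≤ s ^ 2 := by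
      have h3 : εt ≤ 1 / R ^ (n + 3) := by
        have : 1 / R ^ (T' + n + 3) ≤ 1 / R ^ (n + 3) := LevelOne_inv_le hR (by omega)
        linarith
      have h4 : 1 / R ^ (n + 3) ≤ 1 := by
        rw [div_le_one (by positivity)]; exact one_le_pow₀ hR
      have h5 : 1 / R ^ (n + 3) ≤ β := by
        rw [hβ]; exact div_le_div_of_nonneg_right hC (by positivity)
      have h6 : β ≤ R ^ 2 * β := by
        have h7 : (1 : ℝ) ≤ R ^ 2 := one_le_pow₀ hR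
        nlinarith
      rw [hs2]
      nlinarith
    exact abs_le_of_sq_le_sq' h2 hs0.le |>.2
  have h2 : (s * 2 + εt) ^ 2 ≤ 9 * s ^ 2 := by nlinarith
  have h3 : s ^ 2 * R ^ n = C / R := by
    rw [hs2, hβ, show n + 3 = n + 1 + 2 by ring, pow_add, pow_add]
    field_simp
  calc (s * 2 + εt) ^ 2 * R ^ n ≤ 9 * s ^ 2 * R ^ n :=
        mul_le_mul_of_nonneg_right h2 (by positivity)
    _ = 9 * (s ^ 2 * R ^ n) := by ring
    _ = 9 * C / R := by rw [h3]; ring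
    _ ≤ 1 := by rw [div_le_one hR0]; exact h9

/-- The difference of the level two words. -/
theorem LTB_diff (k G1 : ℕ) {u f1 one b1 A1 B1 : Alg} {e δ1 : ℝ} (hu : nn u) (hmu : mass u = 1)
    (hb1 : nn b1) (hmb1 : mass b1 = 1) (hA1 : nn A1) (hmA1 : mass A1 = 1) (hB1 : nn B1)
    (hmB1 : mass B1 = 1) (hdec : b1 = u + f1 + one) (hone : n1 one ≤ δ1) (hδ1 : δ1 ≤ 1)
    (heA : n1 (A1 - u) ≤ e) (heB : n1 (B1 - b1) ≤ e) :
    n1 (up k G1 A1 B1 A1 - up k G1 A1 A1 B1 - u ^ G1 * Rem k u f1 * u ^ G1) ≤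
      2 * (2 * (G1 * e) + 4 ^ k * 2 ^ (4 ^ k) * (e + δ1)) +
      n1 (u ^ G1 * (∑ i ∈ range (4 ^ k), tm i • (u ^ i * f1 * u ^ (4 ^ k - 1 - i))) * u ^ G1) := by
  have hn1u : n1 u = 1 := by rw [n1_of_nn hu, hmu]
  have hn1A : n1 A1 = 1 := by rw [n1_of_nn hA1, hmA1]
  have hn1B : n1 B1 = 1 := by rw [n1_of_nn hB1, hmB1]
  have hn1b : n1 b1 = 1 := by rw [n1_of_nn hb1, hmb1]
  have hone0 : 0 ≤ n1 one := n1_nonneg _
  have he0 : 0 ≤ e := (n1_nonneg _).trans heA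
  have huf : u + f1 = b1 - one := by rw [hdec]; abel
  have hn1uf : n1 (u + f1) ≤ 2 := by
    rw [huf]; have := n1_sub_le b1 one; linarith
  have hBuf : n1 (B1 - (u + f1)) ≤ e + δ1 := by
    rw [huf]
    have : B1 - (b1 - one) = (B1 - b1) + one := by abel
    rw [this]; have := n1_add_le (B1 - b1) one; linarith
  have heA' : n1 (A1 - u) ≤ e + δ1 := by linarith
  have hX1 := n1_prodTM_sub_le k (u := B1) (v := A1) (u' := u + f1) (v' := u)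
    (by linarith) (by linarith) hn1uf (by linarith) hBuf heA'
  have hX2 := n1_prodTM_sub_le k (u := A1) (v := B1) (u' := u) (v' := u + f1)
    (by linarith) (by linarith) (by linarith) hn1uf heA' hBuf
  obtain ⟨h1n, h1m⟩ := nn_prodTM k hB1 hA1 hmB1 hmA1
  obtain ⟨h2n, h2m⟩ := nn_prodTM k hA1 hB1 hmA1 hmB1
  have hs1 := LTB_sandwich (X' := prodTM k (u + f1) u) hA1 hu hmA1 hmu
    (by rw [n1_of_nn h1n, h1m]) G1 (X := prodTM k B1 A1)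
  have hs2 := LTB_sandwich (X' := prodTM k u (u + f1)) hA1 hu hmA1 hmu
    (by rw [n1_of_nn h2n, h2m]) G1 (X := prodTM k A1 B1)
  have hGe : (G1 : ℝ) * n1 (A1 - u) ≤ G1 * e := mul_le_mul_of_nonneg_left heA (by positivity)
  have e1 : up k G1 A1 B1 A1 - up k G1 A1 A1 B1 - u ^ G1 * Rem k u f1 * u ^ G1 =
      (A1 ^ G1 * prodTM k B1 A1 * A1 ^ G1 - u ^ G1 * prodTM k (u + f1) u * u ^ G1) -
      (A1 ^ G1 * prodTM k A1 B1 * A1 ^ G1 - u ^ G1 * prodTM k u (u + f1) * u ^ G1) +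
      (u ^ G1 * (∑ i ∈ range (4 ^ k), tm i • (u ^ i * f1 * u ^ (4 ^ k - 1 - i))) * u ^ G1) := by
    unfold up Rem
    rw [prodTM_eq_pval, prodTM_eq_pval']
    noncomm_ring
  rw [e1]
  refine (n1_add_le _ _).trans ?_
  have h3 := n1_sub_le
    (A1 ^ G1 * prodTM k B1 A1 * A1 ^ G1 - u ^ G1 * prodTM k (u + f1) u * u ^ G1)
    (A1 ^ G1 * prodTM k A1 B1 * A1 ^ G1 - u ^ G1 * prodTM k u (u + f1) * u ^ G1)
  linarith

theorem LTB_a2 (k G1 : ℕ) {u b1 A1 B1 : Alg} {e : ℝ} (hu : nn u) (hmu : mass u = 1)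
    (hb1 : nn b1) (hmb1 : mass b1 = 1) (hA1 : nn A1) (hmA1 : mass A1 = 1) (hB1 : nn B1)
    (hmB1 : mass B1 = 1) (heA : n1 (A1 - u) ≤ e) (heB : n1 (B1 - b1) ≤ e) :
    n1 (up k G1 A1 A1 B1 - u ^ G1 * prodTM k u b1 * u ^ G1) ≤
      2 * (G1 * e) + 4 ^ k * 2 ^ (4 ^ k) * e := by
  have hn1u : n1 u = 1 := by rw [n1_of_nn hu, hmu]
  have hn1A : n1 A1 = 1 := by rw [n1_of_nn hA1, hmA1]
  have hn1B : n1 B1 = 1 := by rw [n1_of_nn hB1, hmB1]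
  have hn1b : n1 b1 = 1 := by rw [n1_of_nn hb1, hmb1]
  have hX2 := n1_prodTM_sub_le k (u := A1) (v := B1) (u' := u) (v' := b1)
    (by linarith) (by linarith) (by linarith) (by linarith) heA heB
  obtain ⟨h2n, h2m⟩ := nn_prodTM k hA1 hB1 hmA1 hmB1
  have hs2 := LTB_sandwich (X' := prodTM k u b1) hA1 hu hmA1 hmu
    (by rw [n1_of_nn h2n, h2m]) G1 (X := prodTM k A1 B1)
  have hGe : (G1 : ℝ) * n1 (A1 - u) ≤ G1 * e := mul_le_mul_of_nonneg_left heA (by positivity)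
  unfold up
  linarith

/-- Data at level one. -/
theorem LTB_level1 (k v L : ℕ) (hL : 1 ≤ L) {C2 : ℝ} (hC2 : 1 ≤ C2)
    (hkill : ∀ (v L : ℕ), 1 ≤ L → ∀ a c : Alg, nn a →
    mass a = 1 → H1 a (L ^ v) (1 / L) →
    n1 (a ^ (2 * L ^ (v + 4)) * (∑ i ∈ range (4 ^ k), tm i • (a ^ i * c * a ^ (4 ^ k - 1 - i))) *
      a ^ (2 * L ^ (v + 4))) ≤ C2 * n1 c / (L : ℝ) ^ (2 * k)) {a f : Alg} {σ x : ℝ} {h : ℕ}
    (hctx : Ctx h a f σ x) (hH : H1 a (L ^ v) (1 / L)) (hf1 : n1 f ≤ 1)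
    (hsm : C2 / (L : ℝ) ^ (2 * k) ≤ 1) :
    ∃ u f1 one b1 : Alg,
      u = a ^ (2 * L ^ (v + 4)) * pval a f (wT k) * a ^ (2 * L ^ (v + 4)) ∧
      f1 = a ^ (2 * L ^ (v + 4)) * Rem k a f * a ^ (2 * L ^ (v + 4)) ∧
      b1 = a ^ (2 * L ^ (v + 4)) * pval a f (wC k) * a ^ (2 * L ^ (v + 4)) ∧
      nn u ∧ mass u = 1 ∧ nn b1 ∧ mass b1 = 1 ∧ b1 = u + f1 + one ∧
      n1 one ≤ C2 / (L : ℝ) ^ (2 * k) ∧ n1 f1 ≤ 3 := by
  have ha := hctx.nna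
  have hma := hctx.ma
  have hG : ∀ n, nn (a ^ n) := fun n => nn_pow ha n
  have hmG : ∀ n, mass (a ^ n) = 1 := fun n => by rw [mass_pow, hma, one_pow]
  obtain ⟨hT1, hT2⟩ := nn_pval hctx (wT k) (nPsi_wT k)
  obtain ⟨hC1, hC2'⟩ := nn_pval hctx (wC k) (nPsi_wC k)
  have hone := hkill v L hL a f ha hma hH
  generalize 2 * L ^ (v + 4) = G at *
  have h2 : C2 * n1 f / (L : ℝ) ^ (2 * k) ≤ C2 / (L : ℝ) ^ (2 * k) := by
    apply div_le_div_of_nonneg_right _ (by positivity)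
    nlinarith
  have hdec : a ^ G * pval a f (wC k) * a ^ G = a ^ G * pval a f (wT k) * a ^ G +
      a ^ G * Rem k a f * a ^ G +
      a ^ G * (∑ i ∈ range (4 ^ k), tm i • (a ^ i * f * a ^ (4 ^ k - 1 - i))) * a ^ G := by
    unfold Rem; noncomm_ring
  have hu1 : nn (a ^ G * pval a f (wT k) * a ^ G) := nn_mul (nn_mul (hG G) hT1) (hG G)
  have hu2 : mass (a ^ G * pval a f (wT k) * a ^ G) = 1 := by
    rw [mass_mul, mass_mul, hmG, hT2]; norm_num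
  have hb1 : nn (a ^ G * pval a f (wC k) * a ^ G) := nn_mul (nn_mul (hG G) hC1) (hG G)
  have hb2 : mass (a ^ G * pval a f (wC k) * a ^ G) = 1 := by
    rw [mass_mul, mass_mul, hmG, hC2']; norm_num
  refine ⟨_, _, a ^ G * (∑ i ∈ range (4 ^ k), tm i • (a ^ i * f * a ^ (4 ^ k - 1 - i))) * a ^ G,
    _, rfl, rfl, rfl, hu1, hu2, hb1, hb2, hdec, hone.trans h2, ?_⟩
  have e : a ^ G * Rem k a f * a ^ G = a ^ G * pval a f (wC k) * a ^ G -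
      a ^ G * pval a f (wT k) * a ^ G -
      a ^ G * (∑ i ∈ range (4 ^ k), tm i • (a ^ i * f * a ^ (4 ^ k - 1 - i))) * a ^ G := by
    rw [hdec]; abel
  rw [e]
  have h3 := n1_sub_le (a ^ G * pval a f (wC k) * a ^ G - a ^ G * pval a f (wT k) * a ^ G)
    (a ^ G * (∑ i ∈ range (4 ^ k), tm i • (a ^ i * f * a ^ (4 ^ k - 1 - i))) * a ^ G)
  have h4 := n1_sub_le (a ^ G * pval a f (wC k) * a ^ G) (a ^ G * pval a f (wT k) * a ^ G)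
  rw [n1_of_nn hu1, n1_of_nn hb1, hu2, hb2] at h4
  linarith

theorem LTB_geom {v L : ℕ} (hL : 5 ≤ L) :
    2 * L ^ (v + 4) + 1 + 2 * L ^ 3 * (L ^ v + 1) ≤ 2 * (2 * L ^ (v + 4)) := by
  have h1 : 1 ≤ L ^ v := Nat.one_le_pow _ _ (by omega)
  have h3 : 1 ≤ L ^ 3 := Nat.one_le_pow _ _ (by omega)
  have h4 : L ^ (v + 4) = L * (L ^ 3 * L ^ v) := by ring
  have h5 : L ^ 3 ≤ L ^ 3 * L ^ v := Nat.le_mul_of_pos_right _ h1
  have h6 : 5 * (L ^ 3 * L ^ v) ≤ L * (L ^ 3 * L ^ v) := Nat.mul_le_mul_right _ hL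
  have h7 : 2 * L ^ 3 * (L ^ v + 1) = 2 * (L ^ 3 * L ^ v) + 2 * L ^ 3 := by ring
  rw [h4, h7]
  omega

/-- numerical conditions of the window theorem at level two -/
theorem LTB_cond (k : ℕ) {v w h L : ℕ} {x Cx : ℝ} (hvw : v + 7 ≤ w) (hL : 1 ≤ L)
    (hCx : 1 ≤ Cx) (hx : x = 16 * (h : ℝ) ^ 2 / (L : ℝ) ^ w) (hh : 1 ≤ h)
    (hbig : Cx * (16 * (h : ℝ) ^ 2) * 4 ≤ L)
    (hbig2 : 64 * (4 ^ k : ℝ) * 2 ^ (4 ^ k * 4 ^ k + 2 * 4 ^ k) * (16 * (h : ℝ) ^ 2) ≤ L) :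
    0 < x ∧ x ≤ 1 ∧ (1 + x) ^ (4 ^ k * 4 ^ k) ≤ 2 ∧
    16 * (4 ^ k : ℝ) * ((1 + x) ^ (2 * 4 ^ k) - 1) *
      Real.sqrt (((L ^ (2 * v + 6) : ℕ) : ℝ) + 1) ≤ 1 ∧
    Cx * x * (1 + Real.sqrt ((L ^ (2 * v + 6) : ℕ) : ℝ)) ≤ 1 ∧
    Cx * x * (1 + Real.sqrt ((L ^ (2 * v + 6) : ℕ) : ℝ)) ≤
      (Cx * (16 * (h : ℝ) ^ 2) * 2) / (L : ℝ) ^ 4 ∧
    1 / Real.sqrt (((L ^ (2 * v + 6) : ℕ) : ℝ) + 1) ≤ 1 / (L : ℝ) ^ (v + 3) := by
  obtain ⟨R, hR⟩ : ∃ R : ℝ, R = (L : ℝ) := ⟨_, rfl⟩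
  have hR1 : 1 ≤ R := by rw [hR]; exact_mod_cast hL
  have hR0 : 0 < R := by linarith
  push_cast
  rw [← hR] at hx hbig hbig2 ⊢
  have hhR : (1 : ℝ) ≤ (h : ℝ) := by exact_mod_cast hh
  obtain ⟨c, hc⟩ : ∃ c : ℝ, c = 16 * (h : ℝ) ^ 2 := ⟨_, rfl⟩
  rw [← hc] at hx hbig hbig2 ⊢
  have hc1 : 1 ≤ c := by rw [hc]; nlinarith
  have hx0 : 0 < x := by rw [hx]; positivity
  have hsq : Real.sqrt (R ^ (2 * v + 6)) = R ^ (v + 3) := by
    rw [show 2 * v + 6 = (v + 3) * 2 by ring, pow_mul, Real.sqrt_sq (by positivity)]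
  have hRv : 1 ≤ R ^ (v + 3) := one_le_pow₀ hR1
  have hsq1 : Real.sqrt (R ^ (2 * v + 6) + 1) ≤ 2 * R ^ (v + 3) := by
    rw [Real.sqrt_le_left (by positivity)]
    have : (R ^ (v + 3)) ^ 2 = R ^ (2 * v + 6) := by rw [← pow_mul]; congr 1; ring
    nlinarith
  have hsq2 : R ^ (v + 3) ≤ Real.sqrt (R ^ (2 * v + 6) + 1) := by
    rw [← hsq]; exact Real.sqrt_le_sqrt (by linarith)
  -- x R^(v+3) ≤ c / R^4
  have hxv : x * R ^ (v + 3) ≤ c / R ^ 4 := by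
    rw [hx, div_mul_eq_mul_div, div_le_div_iff₀ (by positivity) (by positivity), mul_assoc,
      ← pow_add]
    apply mul_le_mul_of_nonneg_left _ (by linarith)
    exact pow_le_pow_right₀ hR1 (by omega)
  have hR4 : R ≤ R ^ 4 := by
    calc R = R ^ 1 := (pow_one R).symm
      _ ≤ R ^ 4 := pow_le_pow_right₀ hR1 (by norm_num)
  have hxx : x ≤ c / R ^ 4 := by
    have : x * 1 ≤ x * R ^ (v + 3) := mul_le_mul_of_nonneg_left hRv hx0.le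
    linarith
  have hcR : c / R ^ 4 ≤ c / R := div_le_div_of_nonneg_left (by linarith) hR0 hR4
  have h4k : (1 : ℝ) ≤ 4 ^ k := one_le_pow₀ (by norm_num)
  have h2p : (1 : ℝ) ≤ 2 ^ (4 ^ k * 4 ^ k + 2 * 4 ^ k) := one_le_pow₀ (by norm_num)
  have hcle : 4 * c ≤ R := by nlinarith
  have hx1 : x ≤ 1 := by
    have : c / R ≤ 1 := by rw [div_le_one hR0]; linarith
    linarith
  have key : ∀ n : ℕ, (1 + x) ^ n - 1 ≤ 2 ^ n * x := fun n => by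
    have := LevelOne_pow_le n hx0.le hx1
    nlinarith
  refine ⟨hx0, hx1, ?_, ?_, ?_, ?_, ?_⟩
  · have h1 := key (4 ^ k * 4 ^ k)
    have h2 : (2 : ℝ) ^ (4 ^ k * 4 ^ k) ≤ 2 ^ (4 ^ k * 4 ^ k + 2 * 4 ^ k) :=
      pow_le_pow_right₀ (by norm_num) (by omega)
    have h3 : 2 ^ (4 ^ k * 4 ^ k) * x ≤ 2 ^ (4 ^ k * 4 ^ k + 2 * 4 ^ k) * (c / R) :=
      mul_le_mul h2 (hxx.trans hcR) hx0.le (by positivity)
    have h4 : 2 ^ (4 ^ k * 4 ^ k + 2 * 4 ^ k) * (c / R) ≤ 1 := by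
      rw [← mul_div_assoc, div_le_one hR0]
      have h5 : 0 ≤ (2 : ℝ) ^ (4 ^ k * 4 ^ k + 2 * 4 ^ k) * c := by positivity
      nlinarith
    linarith
  · have h1 := key (2 * 4 ^ k)
    have h2 : (2 : ℝ) ^ (2 * 4 ^ k) ≤ 2 ^ (4 ^ k * 4 ^ k + 2 * 4 ^ k) :=
      pow_le_pow_right₀ (by norm_num) (by omega)
    have h0 : 0 ≤ (1 + x) ^ (2 * 4 ^ k) - 1 := by
      have : (1 : ℝ) ≤ (1 + x) ^ (2 * 4 ^ k) := one_le_pow₀ (by linarith)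
      linarith
    have h3 : (1 + x) ^ (2 * 4 ^ k) - 1 ≤ 2 ^ (4 ^ k * 4 ^ k + 2 * 4 ^ k) * x :=
      h1.trans (mul_le_mul_of_nonneg_right h2 hx0.le)
    calc 16 * (4 ^ k : ℝ) * ((1 + x) ^ (2 * 4 ^ k) - 1) * Real.sqrt (R ^ (2 * v + 6) + 1)
        ≤ 16 * (4 ^ k : ℝ) * (2 ^ (4 ^ k * 4 ^ k + 2 * 4 ^ k) * x) * (2 * R ^ (v + 3)) := by
          apply mul_le_mul _ hsq1 (Real.sqrt_nonneg _) (by positivity)
          exact mul_le_mul_of_nonneg_left h3 (by positivity)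
      _ = 32 * (4 ^ k : ℝ) * 2 ^ (4 ^ k * 4 ^ k + 2 * 4 ^ k) * (x * R ^ (v + 3)) := by ring
      _ ≤ 32 * (4 ^ k : ℝ) * 2 ^ (4 ^ k * 4 ^ k + 2 * 4 ^ k) * (c / R) :=
          mul_le_mul_of_nonneg_left (hxv.trans hcR) (by positivity)
      _ ≤ 1 := by
          rw [← mul_div_assoc, div_le_one hR0]
          have h5 : 0 ≤ 32 * (4 ^ k : ℝ) * 2 ^ (4 ^ k * 4 ^ k + 2 * 4 ^ k) * c := by positivity
          nlinarith
  · rw [hsq]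
    have h1 : Cx * x * (1 + R ^ (v + 3)) ≤ Cx * x * (2 * R ^ (v + 3)) :=
      mul_le_mul_of_nonneg_left (by linarith) (by positivity)
    have h2 : Cx * x * (2 * R ^ (v + 3)) = 2 * Cx * (x * R ^ (v + 3)) := by ring
    have h3 : 2 * Cx * (x * R ^ (v + 3)) ≤ 2 * Cx * (c / R) :=
      mul_le_mul_of_nonneg_left (hxv.trans hcR) (by positivity)
    have h4 : 2 * Cx * (c / R) ≤ 1 := by
      rw [← mul_div_assoc, div_le_one hR0]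
      have h5 : 0 ≤ Cx * c := by positivity
      nlinarith
    linarith
  · rw [hsq]
    have h1 : Cx * x * (1 + R ^ (v + 3)) ≤ Cx * x * (2 * R ^ (v + 3)) :=
      mul_le_mul_of_nonneg_left (by linarith) (by positivity)
    have h2 : Cx * x * (2 * R ^ (v + 3)) = 2 * Cx * (x * R ^ (v + 3)) := by ring
    have h3 : 2 * Cx * (x * R ^ (v + 3)) ≤ 2 * Cx * (c / R ^ 4) :=
      mul_le_mul_of_nonneg_left hxv (by positivity)
    have h4 : 2 * Cx * (c / R ^ 4) = Cx * c * 2 / R ^ 4 := by ring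
    linarith
  · exact one_div_le_one_div_of_le (by positivity) hsq2

theorem LTB_finish {h N0 T' n : ℕ} {L C Cδ β ρ : ℝ} {q A2 B2 E Y : Alg} (hh1 : 1 ≤ h)
    (hN0 : N0 = T' + n + 4) (hh : N0 ≤ h) (hL64 : 64 ≤ L) (hC : 1 ≤ C) (hC9 : 9 * C ≤ L)
    (hCδ0 : 0 ≤ Cδ) (hCδ : 16 * Cδ ≤ L) (hβ : β = C / L ^ (n + 3)) (hρ : ρ = 1 / L ^ N0)
    (hqn : nn q) (hA2n : nn A2) (hA2m : mass A2 = 1) (hB2m : mass B2 = 1)
    (hEbd' : Bd h E q ((Cδ / L ^ 4) ^ h)) (hcloseA : n1 (A2 - q - E) ≤ 3 * ρ)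
    (hYbd' : Bd h Y q (β ^ h)) (hDF : n1 (B2 - A2 - Y) ≤ 8 * ρ) :
    ∃ (F' : Alg) (σ : ℝ), 0 ≤ σ ∧ σ ^ 2 * L ^ n ≤ 1 ∧ Dom σ F' A2 ∧ mass F' = 0 ∧
      n1 (B2 - A2 - F') * L ^ T' ≤ 1 := by
  have hR1 : (1 : ℝ) ≤ L := by linarith
  have hR0 : (0 : ℝ) < L := by linarith
  have hρ0 : 0 < ρ := by rw [hρ]; positivity
  have hδ0 : 0 ≤ Cδ / L ^ 4 := by positivity
  obtain ⟨g, hgn, hgm, hgdom⟩ := dom_of_close hh1 hqn hA2n hδ0 hEbd' hcloseA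
  have hδh : (Cδ / L ^ 4) ^ h * 4 ^ (2 * h - 1) ≤ ρ := by
    rw [hρ]
    exact (LevelOne_delta hR1 (by norm_num) hCδ0 hCδ).trans (LevelOne_inv_le hR1 hh)
  have hgm' : mass g ≤ 8 * ρ := by linarith
  have hDm : mass (B2 - A2) = 0 := by rw [mass_sub, hA2m, hB2m, sub_self]
  have hβ0 : 0 < β := by rw [hβ]; positivity
  have hβ1 : β ≤ 1 := by
    rw [hβ, div_le_one (by positivity)]
    have h1 : L ≤ L ^ (n + 3) := by
      calc L = L ^ 1 := (pow_one _).symm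
        _ ≤ _ := pow_le_pow_right₀ hR1 (by omega)
    linarith
  obtain ⟨s, hs⟩ : ∃ s : ℝ, s = L * Real.sqrt β := ⟨_, rfl⟩
  have hs0 : 0 < s := by rw [hs]; exact mul_pos hR0 (Real.sqrt_pos.2 hβ0)
  obtain ⟨F', hF'm, hF'dom, hF'err⟩ := convert_dom hh1 hqn hA2n hA2m hgn
    (by norm_num : (0:ℝ) ≤ 2) hβ0.le hs0 hgdom hYbd' hDm hDF
  have hβs : β ^ h / s ^ (2 * h - 1) ≤ ρ := by
    rw [hs, hρ]
    exact (LTB_beta hh1 hR1 hβ0 hβ1).trans (LevelOne_inv_le hR1 (by omega))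
  have hsle : s ≤ 1 := by
    have h1 : s ^ 2 ≤ 1 := by
      rw [hs, mul_pow, Real.sq_sqrt hβ0.le, hβ]
      have h2 : L ^ 2 * (C / L ^ (n + 3)) = C / L ^ (n + 1) := by
        rw [show n + 3 = (n + 1) + 2 by ring, pow_add L (n + 1) 2]
        field_simp
      rw [h2, div_le_one (by positivity)]
      have h1 : L ≤ L ^ (n + 1) := by
        calc L = L ^ 1 := (pow_one _).symm
          _ ≤ _ := pow_le_pow_right₀ hR1 (by omega)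
      linarith
    nlinarith
  have hgm0 : 0 ≤ mass g := mass_nonneg hgn
  have hsg : s * mass g ≤ 8 * ρ := by
    calc s * mass g ≤ 1 * mass g := mul_le_mul_of_nonneg_right hsle hgm0
      _ ≤ _ := by rw [one_mul]; exact hgm'
  obtain ⟨εt, hεt⟩ : ∃ εt : ℝ, εt = 8 * ρ + β ^ h / s ^ (2 * h - 1) + s * mass g := ⟨_, rfl⟩
  rw [← hεt] at hF'dom hF'err
  have hεt0 : 0 ≤ εt := by rw [hεt]; positivity
  have hεt2 : 2 * εt ≤ 1 / L ^ (T' + n + 3) := by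
    have h2 : 2 * εt ≤ 34 * ρ := by rw [hεt]; linarith
    refine h2.trans ?_
    rw [hρ, hN0]
    have e1 : 34 * (1 / L ^ (T' + n + 4)) = 34 / L ^ (T' + n + 3 + 1) := by ring
    rw [e1]
    exact LevelOne_shift hR1 (by linarith) _
  refine ⟨F', s * 2 + εt, by positivity, ?_, hF'dom, hF'm, ?_⟩
  · exact LTB_sigma hR1 hC hC9 hβ hs hεt0 hεt2
  · calc n1 (B2 - A2 - F') * L ^ T' ≤ (1 / L ^ (T' + n + 3)) * L ^ T' := by
          apply mul_le_mul_of_nonneg_right _ (by positivity)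
          exact hF'err.trans hεt2
      _ = 1 / L ^ (n + 3) := by
          rw [show T' + n + 3 = T' + (n + 3) by ring, pow_add L T']
          field_simp
      _ ≤ 1 := by rw [div_le_one (by positivity)]; exact one_le_pow₀ hR1

theorem LTB_num1 {R C4 : ℝ} {N0 v : ℕ} (hR1 : 1 ≤ R) (hC4 : 1 ≤ C4) (h : 8 * C4 ≤ R) :
    2 * (2 * R ^ (2 * v + 11) * (C4 / R ^ (N0 + 2 * v + 14))) ≤ 1 / R ^ N0 := by
  have hR0 : 0 < R := by linarith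
  have e1 : 2 * (2 * R ^ (2 * v + 11) * (C4 / R ^ (N0 + 2 * v + 14))) =
      (4 * C4) / R ^ (N0 + 2 + 1) := by
    rw [show N0 + 2 * v + 14 = (N0 + 2 + 1) + (2 * v + 11) by ring,
      pow_add R (N0 + 2 + 1) (2 * v + 11)]
    field_simp
    norm_num
  rw [e1]
  exact (LevelOne_shift hR1 (by linarith) _).trans (LevelOne_inv_le hR1 (by omega))

theorem LTB_num2 {R C4 : ℝ} {N0 v : ℕ} (hR1 : 1 ≤ R) (hC4 : 1 ≤ C4) (h : 2 * C4 * C4 ≤ R) :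
    C4 * (C4 / R ^ (N0 + 2 * v + 14)) ≤ 1 / R ^ N0 := by
  have e1 : C4 * (C4 / R ^ (N0 + 2 * v + 14)) = (C4 * C4) / R ^ (N0 + 2 * v + 13 + 1) := by ring
  rw [e1]
  exact (LevelOne_shift hR1 (by nlinarith) _).trans (LevelOne_inv_le hR1 (by omega))

theorem LTB_num3 {R C : ℝ} {N0 m : ℕ} (hR1 : 1 ≤ R) (hm : N0 + 1 ≤ m) (h : C ≤ R) :
    C / R ^ m ≤ 1 / R ^ N0 := by
  obtain ⟨m', rfl⟩ : ∃ m', m = m' + 1 := ⟨m - 1, by omega⟩
  exact (LevelOne_shift hR1 h _).trans (LevelOne_inv_le hR1 (by omega))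

theorem LTB_num4 {R Cg c r : ℝ} {w v : ℕ} (hR1 : 1 ≤ R) (hCg : 0 ≤ Cg) (hc : 0 ≤ c)
    (hr : 1 / r ≤ 1 / R ^ (v + 3)) :
    Cg * (c / R ^ w) ^ 4 / r ≤ (Cg * c ^ 4) / R ^ (4 * w + v + 3) := by
  have hR0 : 0 < R := by linarith
  have h1 : Cg * (c / R ^ w) ^ 4 / r = (Cg * (c / R ^ w) ^ 4) * (1 / r) := by ring
  rw [h1]
  refine (mul_le_mul_of_nonneg_left hr (by positivity)).trans (le_of_eq ?_)
  have e3 : R ^ (4 * w + v + 3) = (R ^ w) ^ 4 * R ^ (v + 3) := by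
    rw [← pow_mul, ← pow_add]; congr 1; ring
  rw [div_pow, e3]
  field_simp

theorem LTB_num5 {R : ℝ} {m n : ℕ} (hR1 : 1 ≤ R) (hmn : n ≤ m) {t : ℝ} (ht : t ≤ 1 / R ^ m) :
    t * R ^ n ≤ 1 := by
  have hR0 : 0 < R := by linarith
  calc t * R ^ n ≤ (1 / R ^ m) * R ^ n := mul_le_mul_of_nonneg_right ht (by positivity)
    _ ≤ (1 / R ^ n) * R ^ n :=
        mul_le_mul_of_nonneg_right (LevelOne_inv_le hR1 hmn) (by positivity)
    _ = 1 := by field_simp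

theorem LTB_bigR {L : ℕ} {a1 a2 a3 a4 a5 a6 a7 a8 : ℝ} (h1 : 0 ≤ a1) (h2 : 0 ≤ a2) (h3 : 0 ≤ a3)
    (h4 : 0 ≤ a4) (h5 : 0 ≤ a5) (h6 : 0 ≤ a6) (h7 : 0 ≤ a7) (h8 : 0 ≤ a8)
    (hR : 64 + a1 + a2 + a3 + a4 + a5 + a6 + a7 + a8 ≤ (L : ℝ)) :
    64 ≤ (L : ℝ) ∧ a1 ≤ L ∧ a2 ≤ L ∧ a3 ≤ L ∧ a4 ≤ L ∧ a5 ≤ L ∧ a6 ≤ L ∧ a7 ≤ L ∧ a8 ≤ L := by
  refine ⟨?_, ?_, ?_, ?_, ?_, ?_, ?_, ?_, ?_⟩ <;> linarith

set_option maxHeartbeats 1600000 in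
/-- LEVEL TWO STEP. -/
theorem astep_two (k v w T' : ℕ) (hvw : v + 7 ≤ w) (hk : T' + 8 * w + 2 * v + 20 ≤ 2 * k) :
    ∃ T0 L0 : ℕ, ∀ T L : ℕ, T0 ≤ T → L0 ≤ L → ∀ a b : Alg, ASt L v w T a b →
    ASt L (4 * v + 21) (4 * w + v) T'
      (up k (2 * L ^ (2 * v + 11)) (up k (2 * L ^ (v + 4)) a a b)
        (up k (2 * L ^ (v + 4)) a a b) (up k (2 * L ^ (v + 4)) a b a))
      (up k (2 * L ^ (2 * v + 11)) (up k (2 * L ^ (v + 4)) a a b)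
        (up k (2 * L ^ (v + 4)) a b a) (up k (2 * L ^ (v + 4)) a a b)) := by
  -- exponents
  obtain ⟨T1, hT1⟩ : ∃ T1 : ℕ, T1 = 4 * v + 24 := ⟨_, rfl⟩
  obtain ⟨N0, hN0⟩ : ∃ N0 : ℕ, N0 = T' + (4 * w + v) + 4 := ⟨_, rfl⟩
  obtain ⟨h, hh⟩ : ∃ h : ℕ, h = N0 + 1 := ⟨_, rfl⟩
  have hh1 : 1 ≤ h := by omega
  have hhR : (1 : ℝ) ≤ (h : ℝ) := by exact_mod_cast hh1
  obtain ⟨Ta, La, hone⟩ := astep_one k v w T1 (by omega) (by omega)
  obtain ⟨C2, hC2, hkill⟩ := LevelOne_kill k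
  obtain ⟨Lb, hstep1⟩ := h1_step k v w (by omega)
  obtain ⟨Lc, hstep2⟩ := h1_step k (2 * v + 7) (2 * w - 3) (by omega)
  obtain ⟨Cg, hCg, hgain⟩ := lvl2_gain k
  obtain ⟨Cl, hCl, hlr⟩ := lvl2_lr k
  obtain ⟨Ld, hwerr⟩ := LTB_window_err v N0 (max Cg 1) (by positivity)
  obtain ⟨C4, hC4⟩ : ∃ C4 : ℝ, C4 = 4 ^ k * 2 ^ (4 ^ k) := ⟨_, rfl⟩
  have hC4' : 1 ≤ C4 := by
    rw [hC4]
    have a1 : (1 : ℝ) ≤ 4 ^ k := one_le_pow₀ (by norm_num)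
    have a2 : (1 : ℝ) ≤ 2 ^ (4 ^ k) := one_le_pow₀ (by norm_num)
    nlinarith
  obtain ⟨c, hc⟩ : ∃ c : ℝ, c = 16 * (h : ℝ) ^ 2 := ⟨_, rfl⟩
  have hc1 : 1 ≤ c := by rw [hc]; nlinarith
  obtain ⟨Le, hLe⟩ := exists_nat_ge (64 + Cl * c * 4 +
    64 * (4 ^ k : ℝ) * 2 ^ (4 ^ k * 4 ^ k + 2 * 4 ^ k) * c + 16 * (Cl * c * 2) +
    9 * (Cg * c ^ 4) + 8 * C4 + 2 * C4 * C4 + 2 * C4 * C2 + 3 * C2)
  refine ⟨max Ta (N0 + 2 * v + 14), max (max La Lb) (max (max Lc Ld) Le), ?_⟩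
  intro T L hT hL a b hst
  have hTa : Ta ≤ T := (le_max_left _ _).trans hT
  have hTN : N0 + 2 * v + 14 ≤ T := (le_max_right _ _).trans hT
  have hLa : La ≤ L := (le_max_left _ _).trans ((le_max_left _ _).trans hL)
  have hLb : Lb ≤ L := (le_max_right _ _).trans ((le_max_left _ _).trans hL)
  have hLc : Lc ≤ L :=
    (le_max_left _ _).trans ((le_max_left _ _).trans ((le_max_right _ _).trans hL))
  have hLd : Ld ≤ L :=
    (le_max_right _ _).trans ((le_max_left _ _).trans ((le_max_right _ _).trans hL))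
  have hLee : Le ≤ L := (le_max_right _ _).trans ((le_max_right _ _).trans hL)
  have hbig : 64 + Cl * c * 4 +
    64 * (4 ^ k : ℝ) * 2 ^ (4 ^ k * 4 ^ k + 2 * 4 ^ k) * c + 16 * (Cl * c * 2) +
    9 * (Cg * c ^ 4) + 8 * C4 + 2 * C4 * C4 + 2 * C4 * C2 + 3 * C2 ≤ (L : ℝ) :=
    hLe.trans (by exact_mod_cast hLee)
  obtain ⟨hR64, hb1, hb2, hb3, hb4, hb5, hb6, hb7, hb8⟩ := LTB_bigR (by positivity)
    (by positivity) (by positivity) (by positivity) (by positivity) (by positivity)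
    (by positivity) (by positivity) hbig
  clear hbig hLe hLee hL
  have hLnat : 1 ≤ L := by
    have : (1 : ℝ) ≤ (L : ℝ) := by linarith
    exact_mod_cast this
  have hL5 : 5 ≤ L := by
    have : (5 : ℝ) ≤ (L : ℝ) := by linarith
    exact_mod_cast this
  -- level one state
  obtain ⟨hA1n, hA1m, hB1n, hB1m, hHA1, f', σ', hσ'0, hσ'w, hdom', hmf', herr'⟩ :=
    hone T L hTa hLa a b hst
  clear hone
  obtain ⟨ha, hma, hb, hmb, hH, f, σ, hσ0, hσw, hdom, hmf, herr⟩ := hst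
  have hR1 : (1 : ℝ) ≤ (L : ℝ) := by linarith
  have hR0 : (0 : ℝ) < (L : ℝ) := by linarith
  have hσ1 : σ ≤ 1 := by
    by_contra hcon
    push Not at hcon
    have hRw : (1 : ℝ) ≤ (L : ℝ) ^ w := one_le_pow₀ hR1
    nlinarith
  have hσ'1 : σ' ≤ 1 := by
    by_contra hcon
    push Not at hcon
    have hRw : (1 : ℝ) ≤ (L : ℝ) ^ (2 * w - 3) := one_le_pow₀ hR1
    nlinarith
  have hnab : nn (a + f) := LevelOne_nn_add ha hσ1 hdom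
  have hnab' := LevelOne_nn_add hA1n hσ'1 hdom'
  have hn1f : n1 f ≤ 1 := by
    have := n1_le_of_Dom hdom
    rw [hma] at this; linarith
  -- context
  obtain ⟨x, hx⟩ : ∃ x : ℝ, x = 16 * (h : ℝ) ^ 2 / (L : ℝ) ^ w := ⟨_, rfl⟩
  rw [hc] at hb1 hb2 hb3 hb4
  obtain ⟨hx0, hx1, hcond1, hcond2, hcond3, hcond4, hcond5⟩ :=
    LTB_cond k hvw hLnat hCl hx hh1 hb1 hb2
  have hctx : Ctx h a f σ x := by
    refine ⟨hh1, ha, hma, hnab, hσ0, hdom, hmf, ?_⟩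
    have hσx : σ ^ 2 ≤ 1 / (L : ℝ) ^ w := by
      rw [le_div_iff₀ (by positivity)]; exact hσw
    rw [hx]
    calc 16 * (h : ℝ) ^ 2 * σ ^ 2 ≤ 16 * (h : ℝ) ^ 2 * (1 / (L : ℝ) ^ w) :=
          mul_le_mul_of_nonneg_left hσx (by positivity)
      _ = 16 * (h : ℝ) ^ 2 / (L : ℝ) ^ w := by ring
  -- level one objects
  have hC2small : C2 / (L : ℝ) ^ (2 * k) ≤ 1 / (L : ℝ) ^ (2 * k - 1) := by
    have e : 2 * k = (2 * k - 1) + 1 := by omega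
    calc C2 / (L : ℝ) ^ (2 * k) = C2 / (L : ℝ) ^ ((2 * k - 1) + 1) := by rw [← e]
      _ ≤ 1 / (L : ℝ) ^ (2 * k - 1) := LevelOne_shift hR1 (by linarith) _
  have hC2one : C2 / (L : ℝ) ^ (2 * k) ≤ 1 := by
    refine hC2small.trans ?_
    rw [div_le_one (by positivity)]; exact one_le_pow₀ hR1
  obtain ⟨u, f1, one, b1, hu, hf1, hb1', hun, hum, hb1n, hb1m, hdec, honele, hn1f1⟩ :=
    LTB_level1 k v L hLnat hC2 hkill hctx hH hn1f hC2one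
  -- coins for u
  have hHu : H1 u (L ^ (2 * v + 7)) (1 / L) := by
    apply hstep1 L hLb a f σ ha hma hnab hmf hdom hσ0 hσw hH u hun hum
    rw [hu, sub_self, n1_zero, zero_mul]; norm_num
  have hkill2 := hkill (2 * v + 7) L hLnat u f1 hun hum hHu
  -- coins for A2
  have hA2s := hstep2 L hLc _ f' σ' hA1n hA1m hnab' hmf' hdom' hσ'0 hσ'w hHA1
  -- closeness of A1, B1
  obtain ⟨hupA, hupB⟩ := LevelOne_up_sub k (2 * L ^ (v + 4)) ha hma hb hmb hnab hmf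
  rw [← hu] at hupA
  rw [← hb1'] at hupB
  obtain ⟨hA2c, _⟩ := LevelOne_up_sub k (2 * L ^ (2 * v + 7 + 4)) hA1n hA1m hB1n hB1m hnab' hmf'
  -- gain and closeness
  have hlam0 : (0 : ℝ) < 1 / (L : ℝ) := by positivity
  have hlam1 : 1 / (L : ℝ) ≤ 1 := by rw [div_le_one hR0]; exact hR1
  have hJ : 1 ≤ L ^ 3 := Nat.one_le_pow _ _ hLnat
  have hg1 : 1 ≤ L ^ (2 * v + 6) := Nat.one_le_pow _ _ hLnat
  have hgG : L ^ (2 * v + 6) ≤ 2 * L ^ (2 * v + 11) := by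
    have : L ^ (2 * v + 6) ≤ L ^ (2 * v + 11) := Nat.pow_le_pow_right hLnat (by omega)
    omega
  obtain ⟨Y, hYbd, hYerr⟩ := hgain h a f σ x (1 / L) (L ^ v) (2 * L ^ (v + 4)) (L ^ (v + 4))
    (L ^ 3) (L ^ (2 * v + 6)) (2 * L ^ (2 * v + 11)) hctx hH hlam0 hlam1 hn1f hx1 hcond1 hcond2
    hJ (LTB_geom hL5) hg1 hgG
  obtain ⟨E, hEbd, hEerr⟩ := hlr h a f σ x (1 / L) (L ^ v) (2 * L ^ (v + 4)) (L ^ (v + 4))
    (L ^ 3) (L ^ (2 * v + 6)) (2 * L ^ (2 * v + 11)) hctx hH hlam0 hlam1 hcond3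
    hJ (LTB_geom hL5) hg1 hgG
  rw [← hu, ← hf1] at hYerr
  rw [← hu] at hYbd hEbd
  rw [← hu, ← hb1'] at hEerr
  -- window errors
  have hwe := hwerr L hLd
  have hwpos : 0 ≤ 4 * Real.exp (-(((L ^ (v + 4) : ℕ) : ℝ) ^ 2 / ((L ^ (2 * v + 6) : ℕ) : ℝ))) +
      4 * ((L ^ (2 * v + 6) : ℕ) : ℝ) * (1 - (1 / (L : ℝ)) ^ 2) ^ (L ^ 3) := by
    have h4 : 0 ≤ 1 - (1 / (L : ℝ)) ^ 2 := by
      have h0 : 0 ≤ 1 / (L : ℝ) := by positivity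
      nlinarith
    positivity
  have hYerr' := hYerr.trans ((mul_le_mul_of_nonneg_right (le_max_left Cg 1) hwpos).trans hwe)
  have hEerr' := hEerr.trans (((le_of_eq (one_mul _).symm).trans
    (mul_le_mul_of_nonneg_right (le_max_right Cg 1) hwpos)).trans hwe)
  clear hYerr hEerr hwe hwerr hwpos hgain hlr hkill hstep1 hstep2
  -- sizes
  have hG1R : ((2 * L ^ (2 * v + 11) : ℕ) : ℝ) = 2 * (L : ℝ) ^ (2 * v + 11) := by push_cast; ring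
  have hC4e0 : 4 ^ k * 2 ^ (4 ^ k) * n1 (b - a - f) ≤ C4 / (L : ℝ) ^ (N0 + 2 * v + 14) := by
    rw [← hC4]
    have h1 : n1 (b - a - f) ≤ 1 / (L : ℝ) ^ (N0 + 2 * v + 14) := by
      have h1 : n1 (b - a - f) ≤ 1 / (L : ℝ) ^ T := by
        rw [le_div_iff₀ (by positivity)]; exact herr
      exact h1.trans (LevelOne_inv_le hR1 hTN)
    calc C4 * n1 (b - a - f) ≤ C4 * (1 / (L : ℝ) ^ (N0 + 2 * v + 14)) :=
          mul_le_mul_of_nonneg_left h1 (by linarith)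
      _ = C4 / (L : ℝ) ^ (N0 + 2 * v + 14) := by ring
  obtain ⟨e, he⟩ : ∃ e : ℝ, e = C4 / (L : ℝ) ^ (N0 + 2 * v + 14) := ⟨_, rfl⟩
  rw [← he] at hC4e0
  have he0 : 0 ≤ e := by rw [he]; positivity
  have heA := hupA.trans hC4e0
  have heB := hupB.trans hC4e0
  -- derived numerical bounds
  obtain ⟨ρ, hρ⟩ : ∃ ρ : ℝ, ρ = 1 / (L : ℝ) ^ N0 := ⟨_, rfl⟩
  have hρ0 : 0 < ρ := by rw [hρ]; positivity
  have hGe : 2 * (((2 * L ^ (2 * v + 11) : ℕ) : ℝ) * e) ≤ ρ := by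
    rw [hG1R, he, hρ]
    exact LTB_num1 hR1 hC4' hb5
  have hCe : 4 ^ k * 2 ^ (4 ^ k) * e ≤ ρ := by
    rw [← hC4, he, hρ]
    exact LTB_num2 hR1 hC4' hb6
  have hN2k : N0 + 1 ≤ 2 * k := by omega
  have hCδ : 4 ^ k * 2 ^ (4 ^ k) * (C2 / (L : ℝ) ^ (2 * k)) ≤ ρ := by
    rw [← hC4, hρ, ← mul_div_assoc]
    have hh0 : 0 ≤ C4 * C2 := by positivity
    exact LTB_num3 hR1 hN2k (by linarith)
  have hk2 : n1 (u ^ (2 * L ^ (2 * v + 11)) *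
      (∑ i ∈ range (4 ^ k), tm i • (u ^ i * f1 * u ^ (4 ^ k - 1 - i))) *
      u ^ (2 * L ^ (2 * v + 11))) ≤ ρ := by
    have e1 : 2 * v + 7 + 4 = 2 * v + 11 := by ring
    rw [e1] at hkill2
    refine hkill2.trans ?_
    rw [hρ]
    refine LTB_num3 hR1 hN2k ?_
    nlinarith
  -- the differences
  have hdiff := LTB_diff k (2 * L ^ (2 * v + 11)) hun hum hb1n hb1m hA1n hA1m hB1n hB1m hdec
    honele hC2one heA heB
  have ha2 := LTB_a2 k (2 * L ^ (2 * v + 11)) hun hum hb1n hb1m hA1n hA1m hB1n hB1m heA heB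
  obtain ⟨hA2n, hA2m⟩ := LevelOne_nn_up k (2 * L ^ (2 * v + 11)) hA1n hA1m hA1n hB1n hA1m hB1m
  obtain ⟨hB2n, hB2m⟩ := LevelOne_nn_up k (2 * L ^ (2 * v + 11)) hA1n hA1m hB1n hA1n hB1m hA1m
  have hHA2 : H1 (up k (2 * L ^ (2 * v + 11)) (up k (2 * L ^ (v + 4)) a a b)
        (up k (2 * L ^ (v + 4)) a a b) (up k (2 * L ^ (v + 4)) a b a))
        (L ^ (4 * v + 21)) (1 / L) := by
    have e1 : 2 * v + 7 + 4 = 2 * v + 11 := by ring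
    have e2 : 2 * (2 * v + 7) + 7 = 4 * v + 21 := by ring
    rw [e1] at hA2s hA2c
    rw [e2] at hA2s
    apply hA2s _ hA2n hA2m
    have h1 : 4 ^ k * 2 ^ (4 ^ k) * n1 (up k (2 * L ^ (v + 4)) a b a -
        up k (2 * L ^ (v + 4)) a a b - f') ≤ 1 / (L : ℝ) ^ (4 * v + 23) := by
      rw [← hC4]
      have h2 : n1 (up k (2 * L ^ (v + 4)) a b a - up k (2 * L ^ (v + 4)) a a b - f') ≤
          1 / (L : ℝ) ^ (4 * v + 23 + 1) := by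
        rw [le_div_iff₀ (by positivity)]; rw [hT1] at herr'; exact herr'
      calc C4 * n1 (up k (2 * L ^ (v + 4)) a b a - up k (2 * L ^ (v + 4)) a a b - f')
          ≤ C4 * (1 / (L : ℝ) ^ (4 * v + 23 + 1)) := mul_le_mul_of_nonneg_left h2 (by linarith)
        _ = C4 / (L : ℝ) ^ (4 * v + 23 + 1) := by ring
        _ ≤ 1 / (L : ℝ) ^ (4 * v + 23) := LevelOne_shift hR1 (by linarith) _
    exact LTB_num5 hR1 (by omega) (hA2c.trans h1)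
  clear hA2s hA2c hkill2 hupA hupB heA heB herr'
  -- reference
  have hqn : nn (u ^ (2 * L ^ (2 * v + 11) - L ^ (2 * v + 6)) *
      a ^ ((2 * L ^ (2 * v + 6) + 4 ^ k) * (2 * (2 * L ^ (v + 4)) + 4 ^ k)) *
      u ^ (2 * L ^ (2 * v + 11) - L ^ (2 * v + 6))) :=
    nn_mul (nn_mul (nn_pow hun _) (nn_pow ha _)) (nn_pow hun _)
  generalize (u ^ (2 * L ^ (2 * v + 11) - L ^ (2 * v + 6)) *
      a ^ ((2 * L ^ (2 * v + 6) + 4 ^ k) * (2 * (2 * L ^ (v + 4)) + 4 ^ k)) *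
      u ^ (2 * L ^ (2 * v + 11) - L ^ (2 * v + 6))) = q at *
  generalize 2 * L ^ (2 * v + 11) = G1 at *
  generalize up k (2 * L ^ (v + 4)) a a b = A1 at *
  generalize up k (2 * L ^ (v + 4)) a b a = B1 at *
  generalize up k G1 A1 A1 B1 = A2 at *
  generalize up k G1 A1 B1 A1 = B2 at *
  have hEbd' : Bd h E q ((Cl * (16 * (h : ℝ) ^ 2) * 2 / (L : ℝ) ^ 4) ^ h) := by
    refine Bd_le hEbd ?_
    apply pow_le_pow_left₀ _ hcond4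
    have : 0 ≤ Real.sqrt ((L ^ (2 * v + 6) : ℕ) : ℝ) := Real.sqrt_nonneg _
    positivity
  have hcloseA : n1 (A2 - q - E) ≤ 3 * ρ := by
    have e1 : A2 - q - E = (A2 - u ^ G1 * prodTM k u b1 * u ^ G1) +
        (u ^ G1 * prodTM k u b1 * u ^ G1 - q - E) := by abel
    rw [e1]
    refine (n1_add_le _ _).trans ?_
    rw [← hρ] at hEerr'
    linarith
  -- D - F
  have hDF : n1 (B2 - A2 - Y) ≤ 8 * ρ := by
    have e1 : B2 - A2 - Y = (B2 - A2 - u ^ G1 * Rem k u f1 * u ^ G1) +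
        (u ^ G1 * Rem k u f1 * u ^ G1 - Y) := by abel
    rw [e1]
    refine (n1_add_le _ _).trans ?_
    rw [← hρ] at hYerr'
    have h2 : 4 ^ k * 2 ^ (4 ^ k) * (e + C2 / (L : ℝ) ^ (2 * k)) =
      4 ^ k * 2 ^ (4 ^ k) * e + 4 ^ k * 2 ^ (4 ^ k) * (C2 / (L : ℝ) ^ (2 * k)) := by ring
    rw [h2] at hdiff
    linarith
  -- the size of Y
  have hYbd' : Bd h Y q (((Cg * (16 * (h : ℝ) ^ 2) ^ 4) / (L : ℝ) ^ (4 * w + v + 3)) ^ h) := by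
    refine Bd_le hYbd ?_
    apply pow_le_pow_left₀ (by positivity)
    rw [hx]
    exact LTB_num4 hR1 (by linarith) (by positivity) hcond5
  have hCgc : 1 ≤ Cg * (16 * (h : ℝ) ^ 2) ^ 4 := by
    have h1 : (1 : ℝ) ≤ (16 * (h : ℝ) ^ 2) ^ 4 := one_le_pow₀ (by rw [hc] at hc1; exact hc1)
    nlinarith
  have hfin := LTB_finish hh1 hN0 (by omega) hR64 hCgc hb4 (by positivity) hb3 rfl hρ hqn hA2n
    hA2m hB2m hEbd' hcloseA hYbd' hDF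
  obtain ⟨F', σ2, h1, h2, h3, h4, h5⟩ := hfin
  exact ⟨hA2n, hA2m, hB2n, hB2m, hHA2, F', σ2, h1, h2, h3, h4, h5⟩

end Vale.Agent.P321
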