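import Mathlib

/-!
Definitions for the statement on worst-case trace reconstruction.
-/

namespace Vale.Agent.P321

noncomputable section

/-- The trace of `x` when exactly the positions in `keep` survive: the surviving bits in their
original order. -/
def traceOf {n : ℕ} (x : Fin n → Bool) (keep : Fin n → Bool) : List Bool :=
  (List.finRange n).filterMap fun i => if keep i then some (x i) else none

/-- Probability of a pattern of survivals: each position is deleted independently with
probability `q` and survives with probability `1 - q`. -/
def keepProb (q : ℝ) {n : ℕ} (keep : Fin n → Bool) : ℝ :=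
  ∏ i, if keep i then 1 - q else q

/-- A randomized estimator with `m` traces for strings of length `n`: `est t z` is the
probability that the output is `z` when the traces are `t`. -/
structure IsEstimator {m n : ℕ} (est : (Fin m → List Bool) → (Fin n → Bool) → ℝ) : Prop where
  nonneg : ∀ t z, 0 ≤ est t z
  sum_one : ∀ t, ∑ z, est t z = 1

/-- Probability that the estimator outputs `x` when it is given `m` independent traces of `x`;
the survival patterns `K 0, …, K (m-1)` are independent. -/
def successProb (q : ℝ) {m n : ℕ} (est : (Fin m → List Bool) → (Fin n → Bool) → ℝ)
    (x : Fin n → Bool) : ℝ :=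
  ∑ K : Fin m → Fin n → Bool, (∏ j, keepProb q (K j)) * est (fun j => traceOf x (K j)) x

/-- `m` traces suffice: some estimator outputs `x` with probability at least `2/3` for every
`x` of length `n`. -/
def Suffices (q : ℝ) (n m : ℕ) : Prop :=
  ∃ est : (Fin m → List Bool) → (Fin n → Bool) → ℝ, IsEstimator est ∧
    ∀ x : Fin n → Bool, 2 / 3 ≤ successProb q est x

/-- The worst-case sample complexity `T_q(n)`: the least number of traces that suffices, in
`ℕ ∪ {∞}` (`∞` if no number suffices). -/
def T (q : ℝ) (n : ℕ) : ℕ∞ := ⨅ (m : ℕ) (_ : Suffices q n m), (m : ℕ∞)

end

end Vale.Agent.P321
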