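import Vale.Agent.P321.WordStep
import Vale.Agent.P321.TraceDefs

namespace Vale.Agent.P321

open Finset

noncomputable section

theorem trace_traceOf_cons {n : ℕ} (x : Fin (n + 1) → Bool) (b : Bool) (k : Fin n → Bool) :
    traceOf x (Fin.cons b k : Fin (n + 1) → Bool) =
      if b then x 0 :: traceOf (fun i => x i.succ) k else traceOf (fun i => x i.succ) k := by
  unfold traceOf
  rw [List.finRange_succ, List.filterMap_cons, List.filterMap_map]
  cases b <;> simp

theorem trace_keepProb_cons (q : ℝ) {n : ℕ} (b : Bool) (k : Fin n → Bool) :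
    keepProb q (Fin.cons b k : Fin (n + 1) → Bool) = (if b then 1 - q else q) * keepProb q k := by
  unfold keepProb
  rw [Fin.prod_univ_succ]
  simp

theorem trace_sum_cons {n : ℕ} {M : Type*} [AddCommMonoid M] (F : (Fin (n + 1) → Bool) → M) :
    ∑ k : Fin (n + 1) → Bool, F k =
      ∑ k : Fin n → Bool, (F (Fin.cons true k) + F (Fin.cons false k)) := by
  rw [← (Fin.consEquiv (fun _ : Fin (n + 1) => Bool)).sum_comp, Fintype.sum_prod_type,
    Fintype.sum_bool, ← Finset.sum_add_distrib]
  rfl

theorem trace_PX_eq (q : ℝ) {n : ℕ} (x : Fin n → Bool) :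
    PX q (List.ofFn x) = ∑ k : Fin n → Bool,
      MonoidAlgebra.single (FreeMonoid.ofList (traceOf x k)) (keepProb q k) := by
  induction n with
  | zero =>
    rw [Fintype.sum_unique]
    simp only [List.ofFn_zero, PX, List.map_nil, List.prod_nil, traceOf, List.finRange_zero,
      List.filterMap_nil, keepProb, Finset.univ_eq_empty, Finset.prod_empty]
    rfl
  | succ n ih =>
    have h1 : PX q (List.ofFn x) =
        (q • (1 : Alg) + (1 - q) • MonoidAlgebra.single (FreeMonoid.of (x 0)) 1) *
          PX q (List.ofFn fun i => x i.succ) := by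
      unfold PX
      rw [List.ofFn_succ, List.map_cons, List.prod_cons]
    rw [h1, ih, trace_sum_cons, Finset.mul_sum]
    refine Finset.sum_congr rfl fun k _ => ?_
    rw [trace_keepProb_cons, trace_keepProb_cons, trace_traceOf_cons, trace_traceOf_cons]
    simp only [if_true, Bool.false_eq_true, if_false]
    rw [add_mul, add_comm, MonoidAlgebra.one_def, MonoidAlgebra.smul_single,
      MonoidAlgebra.smul_single, MonoidAlgebra.single_mul_single,
      MonoidAlgebra.single_mul_single, smul_eq_mul, smul_eq_mul, mul_one, mul_one, one_mul]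
    rfl

/-- `PX q x` is the law of the trace. -/
theorem coeff_PX (q : ℝ) {n : ℕ} (x : Fin n → Bool) (t : List Bool) :
    (PX q (List.ofFn x)).coeff (FreeMonoid.ofList t) =
      ∑ keep : Fin n → Bool, if traceOf x keep = t then keepProb q keep else 0 := by
  classical
  rw [trace_PX_eq, MonoidAlgebra.coeff_sum, Finsupp.finsetSum_apply]
  refine Finset.sum_congr rfl fun k _ => ?_
  rw [MonoidAlgebra.coeff_single, Finsupp.single_apply]
  simp only [FreeMonoid.ofList.injective.eq_iff]

/-- Expectation of `H` under the signed measure `f`. -/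
def trace_ev (H : Wd → ℝ) (f : Alg) : ℝ := f.coeff.sum fun w r => r * H w

theorem trace_ev_eq {H : Wd → ℝ} {f : Alg} {s : Finset Wd} (hs : f.coeff.support ⊆ s) :
    trace_ev H f = ∑ w ∈ s, f.coeff w * H w := by
  unfold trace_ev
  exact Finsupp.sum_of_support_subset _ hs _ (by simp)

theorem trace_ev_zero (H : Wd → ℝ) : trace_ev H 0 = 0 := by simp [trace_ev]

theorem trace_ev_add (H : Wd → ℝ) (f g : Alg) :
    trace_ev H (f + g) = trace_ev H f + trace_ev H g := by
  unfold trace_ev
  rw [MonoidAlgebra.coeff_add]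
  exact Finsupp.sum_add_index' (by simp) (by intros; ring)

theorem trace_ev_sum (H : Wd → ℝ) {ι : Type*} (s : Finset ι) (F : ι → Alg) :
    trace_ev H (∑ i ∈ s, F i) = ∑ i ∈ s, trace_ev H (F i) := by
  classical
  induction s using Finset.induction_on with
  | empty => simp [trace_ev_zero]
  | insert i s hi ih => rw [Finset.sum_insert hi, Finset.sum_insert hi, trace_ev_add, ih]

theorem trace_ev_single (H : Wd → ℝ) (w : Wd) (r : ℝ) :
    trace_ev H (MonoidAlgebra.single w r) = r * H w := by
  simp [trace_ev]

theorem trace_ev_sub (H : Wd → ℝ) (f g : Alg) :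
    trace_ev H (f - g) = trace_ev H f - trace_ev H g := by
  have := trace_ev_add H (f - g) g
  rw [sub_add_cancel] at this
  linarith

theorem trace_ev_le {H : Wd → ℝ} (hH : ∀ w, |H w| ≤ 1 / 2) (f : Alg) :
    |trace_ev H f| ≤ 1 / 2 * n1 f := by
  rw [trace_ev_eq (f := f) subset_rfl, n1_eq_sum (f := f) subset_rfl, Finset.mul_sum]
  refine (Finset.abs_sum_le_sum_abs _ _).trans (Finset.sum_le_sum fun w _ => ?_)
  rw [abs_mul, mul_comm]
  exact mul_le_mul_of_nonneg_right (hH w) (abs_nonneg _)

theorem trace_keepProb_nonneg {q : ℝ} (h0 : 0 ≤ q) (h1 : q ≤ 1) {n : ℕ} (k : Fin n → Bool) :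
    0 ≤ keepProb q k := by
  unfold keepProb
  refine Finset.prod_nonneg fun i _ => ?_
  split_ifs
  · linarith
  · exact h0

theorem trace_keepProb_sum (q : ℝ) (n : ℕ) : ∑ k : Fin n → Bool, keepProb q k = 1 := by
  induction n with
  | zero => simp [keepProb]
  | succ n ih =>
    rw [trace_sum_cons]
    simp only [trace_keepProb_cons, if_true, Bool.false_eq_true, if_false]
    rw [Finset.sum_add_distrib, ← Finset.mul_sum, ← Finset.mul_sum, ih]
    ring

/-- Expectation of `G` over `m` independent traces of `x`. -/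
def trace_E (q : ℝ) {n : ℕ} (x : Fin n → Bool) (m : ℕ) (G : (Fin m → List Bool) → ℝ) : ℝ :=
  ∑ K : Fin m → Fin n → Bool, (∏ j, keepProb q (K j)) * G (fun j => traceOf x (K j))

theorem trace_E_succ (q : ℝ) {n : ℕ} (x : Fin n → Bool) (m : ℕ)
    (G : (Fin (m + 1) → List Bool) → ℝ) :
    trace_E q x (m + 1) G = ∑ k : Fin n → Bool, keepProb q k *
      trace_E q x m (fun t => G (Fin.cons (traceOf x k) t)) := by
  unfold trace_E
  rw [← (Fin.consEquiv (fun _ : Fin (m + 1) => Fin n → Bool)).sum_comp, Fintype.sum_prod_type]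
  refine Finset.sum_congr rfl fun k _ => ?_
  rw [Finset.mul_sum]
  refine Finset.sum_congr rfl fun K _ => ?_
  rw [Fin.prod_univ_succ]
  simp only [Fin.consEquiv_apply, Fin.cons_zero, Fin.cons_succ]
  rw [mul_assoc]
  congr 3
  funext j
  refine Fin.cases ?_ (fun i => ?_) j
  · simp
  · simp

theorem trace_E_const (q : ℝ) {n : ℕ} (x : Fin n → Bool) (m : ℕ) (c : ℝ) :
    trace_E q x m (fun _ => c) = c := by
  induction m with
  | zero => simp [trace_E]
  | succ m ih =>
    rw [trace_E_succ]
    simp only [ih]
    rw [← Finset.sum_mul, trace_keepProb_sum, one_mul]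

theorem trace_E_mono {q : ℝ} (h0 : 0 ≤ q) (h1 : q ≤ 1) {n : ℕ} (x : Fin n → Bool) (m : ℕ)
    {G G' : (Fin m → List Bool) → ℝ} (h : ∀ t, G t ≤ G' t) :
    trace_E q x m G ≤ trace_E q x m G' := by
  unfold trace_E
  refine Finset.sum_le_sum fun K _ => ?_
  exact mul_le_mul_of_nonneg_left (h _)
    (Finset.prod_nonneg fun j _ => trace_keepProb_nonneg h0 h1 _)

theorem trace_E_abs {q : ℝ} (h0 : 0 ≤ q) (h1 : q ≤ 1) {n : ℕ} (x : Fin n → Bool) (m : ℕ)
    {G : (Fin m → List Bool) → ℝ} {c : ℝ} (h : ∀ t, |G t| ≤ c) :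
    |trace_E q x m G| ≤ c := by
  rw [abs_le]
  constructor
  · have := trace_E_mono h0 h1 x m (G := fun _ => -c) (G' := G) (fun t => (abs_le.1 (h t)).1)
    rwa [trace_E_const] at this
  · have := trace_E_mono h0 h1 x m (G := G) (G' := fun _ => c) (fun t => (abs_le.1 (h t)).2)
    rwa [trace_E_const] at this

theorem trace_one (q : ℝ) {n : ℕ} (x : Fin n → Bool) (H : List Bool → ℝ) :
    ∑ k : Fin n → Bool, keepProb q k * H (traceOf x k) =
      trace_ev (fun w => H (FreeMonoid.toList w)) (PX q (List.ofFn x)) := by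
  rw [trace_PX_eq, trace_ev_sum]
  refine Finset.sum_congr rfl fun k _ => ?_
  rw [trace_ev_single, FreeMonoid.toList_ofList]

theorem trace_hybrid {q : ℝ} (h0 : 0 ≤ q) (h1 : q ≤ 1) {n : ℕ} (x y : Fin n → Bool) (m : ℕ)
    (G : (Fin m → List Bool) → ℝ) (h : ∀ t, |G t| ≤ 1 / 2) :
    |trace_E q x m G - trace_E q y m G| ≤
      m * (1 / 2 * n1 (PX q (List.ofFn x) - PX q (List.ofFn y))) := by
  induction m with
  | zero =>
    have : ∀ s t : Fin 0 → List Bool, G s = G t := fun s t => by rw [Subsingleton.elim s t]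
    have e : trace_E q x 0 G = trace_E q y 0 G := by
      unfold trace_E
      refine Finset.sum_congr rfl fun K _ => ?_
      rw [this (fun j => traceOf x (K j)) (fun j => traceOf y (K j))]
    rw [e, sub_self]
    simp
  | succ m ih =>
    rw [trace_E_succ, trace_E_succ]
    have e1 : ∑ k : Fin n → Bool, keepProb q k *
          trace_E q x m (fun t => G (Fin.cons (traceOf x k) t)) -
        ∑ k : Fin n → Bool, keepProb q k *
          trace_E q y m (fun t => G (Fin.cons (traceOf y k) t)) =
        ∑ k : Fin n → Bool, keepProb q k *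
          (trace_E q x m (fun t => G (Fin.cons (traceOf x k) t)) -
            trace_E q y m (fun t => G (Fin.cons (traceOf x k) t))) +
        (∑ k : Fin n → Bool, keepProb q k *
            trace_E q y m (fun t => G (Fin.cons (traceOf x k) t)) -
          ∑ k : Fin n → Bool, keepProb q k *
            trace_E q y m (fun t => G (Fin.cons (traceOf y k) t))) := by
      simp only [mul_sub, Finset.sum_sub_distrib]
      ring
    rw [e1]
    have b1 : |∑ k : Fin n → Bool, keepProb q k *
          (trace_E q x m (fun t => G (Fin.cons (traceOf x k) t)) -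
            trace_E q y m (fun t => G (Fin.cons (traceOf x k) t)))| ≤
        m * (1 / 2 * n1 (PX q (List.ofFn x) - PX q (List.ofFn y))) := by
      refine (Finset.abs_sum_le_sum_abs _ _).trans ?_
      have : ∀ k ∈ (Finset.univ : Finset (Fin n → Bool)), |keepProb q k *
          (trace_E q x m (fun t => G (Fin.cons (traceOf x k) t)) -
            trace_E q y m (fun t => G (Fin.cons (traceOf x k) t)))| ≤
          keepProb q k * (m * (1 / 2 * n1 (PX q (List.ofFn x) - PX q (List.ofFn y)))) := by
        intro k _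
        rw [abs_mul, abs_of_nonneg (trace_keepProb_nonneg h0 h1 k)]
        exact mul_le_mul_of_nonneg_left (ih _ (fun t => h _)) (trace_keepProb_nonneg h0 h1 k)
      refine (Finset.sum_le_sum this).trans ?_
      rw [← Finset.sum_mul, trace_keepProb_sum, one_mul]
    have b2 : |∑ k : Fin n → Bool, keepProb q k *
            trace_E q y m (fun t => G (Fin.cons (traceOf x k) t)) -
          ∑ k : Fin n → Bool, keepProb q k *
            trace_E q y m (fun t => G (Fin.cons (traceOf y k) t))| ≤
        1 / 2 * n1 (PX q (List.ofFn x) - PX q (List.ofFn y)) := by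
      rw [trace_one q x (fun u => trace_E q y m (fun t => G (Fin.cons u t))),
        trace_one q y (fun u => trace_E q y m (fun t => G (Fin.cons u t))), ← trace_ev_sub]
      exact trace_ev_le (fun w => trace_E_abs h0 h1 y m (fun t => h _)) _
    refine (abs_add_le _ _).trans ((add_le_add b1 b2).trans (le_of_eq ?_))
    push_cast
    ring

/-- Hybrid argument: `m` traces cannot separate `x` and `y` if `m n1 (P_x - P_y)` is small. -/
theorem samples_lower {q : ℝ} (h0 : 0 ≤ q) (h1 : q ≤ 1) {m n : ℕ}
    (est : (Fin m → List Bool) → (Fin n → Bool) → ℝ) (he : IsEstimator est)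
    (x y : Fin n → Bool) (hxy : x ≠ y)
    (hx : 2 / 3 ≤ successProb q est x) (hy : 2 / 3 ≤ successProb q est y) :
    2 / 3 ≤ (m : ℝ) * n1 (PX q (List.ofFn x) - PX q (List.ofFn y)) := by
  classical
  have hle : ∀ t, est t x + est t y ≤ 1 := by
    intro t
    rw [← he.sum_one t, ← Finset.sum_pair (f := fun z => est t z) hxy]
    exact Finset.sum_le_sum_of_subset_of_nonneg (Finset.subset_univ _)
      (fun z _ _ => he.nonneg t z)
  have hx' : 2 / 3 ≤ trace_E q x m (fun t => est t x) := hx
  have hy' : 2 / 3 ≤ trace_E q y m (fun t => est t y) := hy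
  have hsub : ∀ (z : Fin n → Bool) (G : (Fin m → List Bool) → ℝ) (c : ℝ),
      trace_E q z m (fun t => G t - c) = trace_E q z m G - c := by
    intro z G c
    have h2 := trace_E_const q z m c
    unfold trace_E at h2 ⊢
    rw [← h2, ← Finset.sum_sub_distrib]
    simp only [mul_sub]
    rw [h2]
  have h2 := trace_hybrid h0 h1 x y m (fun t => est t x - 1 / 2) (by
    intro t
    have a1 := he.nonneg t x
    have a2 := he.nonneg t y
    have a3 := hle t
    rw [abs_le]
    constructor <;> linarith)
  rw [hsub, hsub] at h2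
  have h3 : trace_E q y m (fun t => est t y) ≤ 1 - trace_E q y m (fun t => est t x) := by
    have h4 := trace_E_mono h0 h1 y m (G := fun t => est t y) (G' := fun t => 1 - est t x)
      (fun t => by have := hle t; linarith)
    have h5 : trace_E q y m (fun t => 1 - est t x) = 1 - trace_E q y m (fun t => est t x) := by
      have h6 := trace_E_const q y m 1
      unfold trace_E at h6 ⊢
      rw [← h6, ← Finset.sum_sub_distrib]
      simp only [mul_sub]
      rw [h6]
    rwa [h5] at h4
  have h4 := (abs_le.1 h2).2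
  linarith

end

end Vale.Agent.P321
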