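import Vale.Agent.P321.Iter
import Vale.Agent.P321.Trace

namespace Vale.Agent.P321

open Finset

private lemma main_exists_ofFn (l : List Bool) (n : ℕ) (h : l.length = n) :
    ∃ g : Fin n → Bool, List.ofFn g = l := by
  subst h
  exact ⟨l.get, List.ofFn_get l⟩

/-- Superpolynomial lower bound for the sample complexity. -/
theorem superpoly (q : ℝ) (h0 : 0 < q) (h1 : q < 1) (C : ℕ) :
    ∃ n0 : ℕ, ∀ n : ℕ, n0 ≤ n → (n : ℕ∞) ^ C ≤ T q n := by
  obtain ⟨n0, hn0⟩ := exists_close_pair h0 h1 (C + 1)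
  refine ⟨max n0 2, fun n hn => ?_⟩
  obtain ⟨x, y, hxy, hx, hy, hclose⟩ := hn0 n ((le_max_left _ _).trans hn)
  have hn2 : 2 ≤ n := (le_max_right _ _).trans hn
  obtain ⟨x', rfl⟩ := main_exists_ofFn x n hx
  obtain ⟨y', rfl⟩ := main_exists_ofFn y n hy
  have hne : x' ≠ y' := by
    rintro rfl
    exact hxy rfl
  unfold T
  refine le_iInf fun m => le_iInf fun hm => ?_
  obtain ⟨est, he, hest⟩ := hm
  have h := samples_lower h0.le h1.le est he x' y' hne (hest x') (hest y')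
  set δ := n1 (PX q (List.ofFn x') - PX q (List.ofFn y')) with hδ
  have hδ0 : 0 ≤ δ := n1_nonneg _
  have h2 : 2 / 3 * (n : ℝ) ^ (C + 1) ≤ m := by
    have h3 := mul_le_mul_of_nonneg_right h (by positivity : 0 ≤ (n : ℝ) ^ (C + 1))
    have h4 := mul_le_mul_of_nonneg_left hclose (by positivity : 0 ≤ (m : ℝ))
    linarith
  have h5 : (n : ℝ) ^ C ≤ m := by
    have h6 : (2 : ℝ) ≤ n := by exact_mod_cast hn2
    have h7 : (0 : ℝ) ≤ (n : ℝ) ^ C := by positivity
    rw [pow_succ] at h2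
    nlinarith
  have h6 : n ^ C ≤ m := by exact_mod_cast h5
  exact_mod_cast h6

end Vale.Agent.P321
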