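import Vale.Agent.P321.Binom

namespace Vale.Agent.P321

open Finset

/-- Main recursion of the Gram function. -/
noncomputable def recB (y : ℝ) (P : ℕ) (b0 : ℤ → ℝ) : ℕ → ℤ → ℝ
  | 0 => b0
  | n + 1 => fun D => bump y P D * opQ (opQ (recB y P b0 n)) D

/-- Recursion of the Gram function, many coins per zone. -/
noncomputable def recR (t y : ℝ) (P J : ℕ) (b0 : ℤ → ℝ) : ℕ → ℤ → ℝ
  | 0 => b0
  | n + 1 => fun D => bump y P D * ((opR t)^[2 * J] (recR t y P J b0 n)) D

/-! ### auxiliary facts on the operators -/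

theorem rec_opQ_mono {b b' : ℤ → ℝ} (hb : ∀ D, b D ≤ b' D) (D : ℤ) : opQ b D ≤ opQ b' D := by
  unfold opQ
  linarith [hb (D - 1), hb D, hb (D + 1)]

theorem rec_opQ_iter_mono {b b' : ℤ → ℝ} (hb : ∀ D, b D ≤ b' D) (n : ℕ) (D : ℤ) :
    (opQ^[n] b) D ≤ (opQ^[n] b') D := by
  induction n generalizing b b' with
  | zero => simpa using hb D
  | succ n ih =>
    rw [Function.iterate_succ_apply, Function.iterate_succ_apply]
    exact ih (fun D => rec_opQ_mono hb D)

theorem rec_opQ_lin (u v : ℝ) (b b' : ℤ → ℝ) :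
    opQ (fun D => u * b D + v * b' D) = fun D => u * opQ b D + v * opQ b' D := by
  funext D
  unfold opQ
  ring

theorem rec_opQ_iter_lin (u v : ℝ) (b b' : ℤ → ℝ) (n : ℕ) :
    opQ^[n] (fun D => u * b D + v * b' D) = fun D => u * (opQ^[n] b) D + v * (opQ^[n] b') D := by
  induction n generalizing b b' with
  | zero => rfl
  | succ n ih =>
    rw [Function.iterate_succ_apply, rec_opQ_lin, ih, Function.iterate_succ_apply,
      Function.iterate_succ_apply]

theorem rec_opQ_const (c : ℝ) : opQ (fun _ => c) = fun _ => c := by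
  funext D
  unfold opQ
  ring

theorem rec_opQ_iter_const (c : ℝ) (n : ℕ) : opQ^[n] (fun _ => c) = fun _ => c := by
  induction n with
  | zero => rfl
  | succ n ih => rw [Function.iterate_succ_apply, rec_opQ_const, ih]

theorem rec_opQ_iter_nonneg {b : ℤ → ℝ} (hb : ∀ D, 0 ≤ b D) (n : ℕ) (D : ℤ) :
    0 ≤ (opQ^[n] b) D := by
  have h := rec_opQ_iter_mono (b := fun _ => 0) (b' := b) hb n D
  rwa [rec_opQ_iter_const] at h

/-- half step -/
noncomputable def rec_hs (b : ℤ → ℝ) : ℤ → ℝ := fun D => (b (D + 1) + b D) / 2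

theorem rec_hs_iter (b : ℤ → ℝ) (m : ℕ) (D : ℤ) :
    (rec_hs^[m] b) D = ∑ j ∈ range (m + 1), bw m (1 / 2) j * b (D + j) := by
  induction m generalizing b D with
  | zero => simp [bw]
  | succ m ih =>
    rw [Function.iterate_succ_apply, ih]
    rw [show m + 1 + 1 = m + 2 from rfl, bw_rec m (1 / 2) (fun j => b (D + (j : ℤ)))]
    rw [mul_sum, mul_sum, ← sum_add_distrib]
    refine sum_congr rfl fun j _ => ?_
    unfold rec_hs
    push_cast
    rw [show D + (j : ℤ) + 1 = D + ((j : ℤ) + 1) from by ring]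
    ring

theorem rec_opQ_eq_hs (b : ℤ → ℝ) (D : ℤ) : opQ b D = (rec_hs^[2] b) (D - 1) := by
  show opQ b D = rec_hs (rec_hs b) (D - 1)
  unfold opQ rec_hs
  rw [show D - 1 + 1 = D from by ring]
  ring

theorem rec_hs_shift (b : ℤ → ℝ) (r : ℤ) (m : ℕ) (D : ℤ) :
    (rec_hs^[m] (fun E => b (E + r))) D = (rec_hs^[m] b) (D + r) := by
  induction m generalizing b D with
  | zero => rfl
  | succ m ih =>
    rw [Function.iterate_succ_apply, Function.iterate_succ_apply]
    have h : rec_hs (fun E => b (E + r)) = fun E => rec_hs b (E + r) := by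
      funext E
      show (b (E + 1 + r) + b (E + r)) / 2 = (b (E + r + 1) + b (E + r)) / 2
      rw [show E + 1 + r = E + r + 1 from by ring]
    rw [h, ih]

theorem rec_opQ_iter_hs (b : ℤ → ℝ) (n : ℕ) (D : ℤ) :
    (opQ^[n] b) D = (rec_hs^[2 * n] b) (D - n) := by
  induction n generalizing b D with
  | zero => simp
  | succ n ih =>
    rw [Function.iterate_succ_apply, ih]
    have h : opQ b = fun E => (rec_hs^[2] b) (E + (-1)) := by
      funext E
      rw [rec_opQ_eq_hs]
      rfl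
    rw [h, rec_hs_shift]
    rw [show 2 * (n + 1) = 2 * n + 2 from by ring, Function.iterate_add_apply]
    push_cast
    rw [show D - (n : ℤ) + -1 = D - ((n : ℤ) + 1) from by ring]

/-- Sup norm of the smoothed indicator. The kernel of `opQ^[n]` is `C(2n,n+k)/4^n`. -/
theorem opQ_iter_ind (P n : ℕ) (D : ℤ) :
    (opQ^[n] (fun D => if |D| < (P : ℤ) then 1 else 0)) D ≤ 2 * P / Real.sqrt ((n : ℝ) + 1) := by
  rw [rec_opQ_iter_hs, rec_hs_iter]
  have hs : ∀ j, bw (2 * n) (1 / 2) j ≤ 1 / Real.sqrt ((n : ℝ) + 1) := by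
    intro j
    by_cases hj : j ≤ 2 * n
    · have h1 : bw (2 * n) (1 / 2) j = ((2 * n).choose j : ℝ) / 2 ^ (2 * n) := by
        unfold bw
        rw [show (1 : ℝ) - 1 / 2 = 1 / 2 from by norm_num, mul_assoc, ← pow_add,
          show j + (2 * n - j) = 2 * n from by omega]
        rw [one_div, inv_pow, div_eq_mul_inv]
      rw [h1]
      refine (choose_half_le (2 * n) j).trans ?_
      refine one_div_le_one_div_of_le (Real.sqrt_pos.2 (by positivity)) (Real.sqrt_le_sqrt ?_)
      push_cast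
      have : (0 : ℝ) ≤ n := Nat.cast_nonneg n
      linarith
    · have h1 : bw (2 * n) (1 / 2) j = 0 := by
        unfold bw
        rw [Nat.choose_eq_zero_of_lt (by omega)]
        simp
      rw [h1]
      positivity
  have key : ∀ j ∈ range (2 * n + 1), bw (2 * n) (1 / 2) j *
      (if |D - (n : ℤ) + (j : ℤ)| < (P : ℤ) then (1 : ℝ) else 0) ≤
      (1 / Real.sqrt ((n : ℝ) + 1)) * (if |D - (n : ℤ) + (j : ℤ)| < (P : ℤ) then (1 : ℝ) else 0) := by
    intro j _
    refine mul_le_mul_of_nonneg_right (hs j) ?_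
    split_ifs <;> norm_num
  refine (sum_le_sum key).trans ?_
  rw [← mul_sum]
  have hcard : ∑ j ∈ range (2 * n + 1), (if |D - (n : ℤ) + (j : ℤ)| < (P : ℤ) then (1 : ℝ) else 0) ≤
      2 * P := by
    rw [sum_boole]
    have h2 : ((range (2 * n + 1)).filter fun j : ℕ => |D - (n : ℤ) + (j : ℤ)| < (P : ℤ)).card ≤
        (Finset.Ioo (-(P : ℤ)) (P : ℤ)).card := by
      refine card_le_card_of_injOn (fun j : ℕ => D - (n : ℤ) + (j : ℤ)) ?_ ?_
      · intro j hj
        have := (mem_filter.1 hj).2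
        rw [abs_lt] at this
        simp only [coe_Ioo, Set.mem_Ioo]
        exact this
      · intro i _ j _ hij
        simp only at hij
        have : (i : ℤ) = j := by linarith
        exact_mod_cast this
    rw [Int.card_Ioo] at h2
    have h3 : ((P : ℤ) - -(P : ℤ) - 1).toNat ≤ 2 * P := by omega
    exact_mod_cast h2.trans h3
  calc 1 / Real.sqrt ((n : ℝ) + 1) * _ ≤ 1 / Real.sqrt ((n : ℝ) + 1) * (2 * P) :=
        mul_le_mul_of_nonneg_left hcard (by positivity)
    _ = 2 * P / Real.sqrt ((n : ℝ) + 1) := by ring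

theorem rec_opR_mono {t : ℝ} (h0 : 0 ≤ t) (h1 : t ≤ 1) {b b' : ℤ → ℝ} (hb : ∀ D, b D ≤ b' D)
    (D : ℤ) : opR t b D ≤ opR t b' D := by
  unfold opR
  exact add_le_add (mul_le_mul_of_nonneg_left (rec_opQ_mono hb D) h0)
    (mul_le_mul_of_nonneg_left (hb D) (by linarith))

theorem rec_opR_iter_mono {t : ℝ} (h0 : 0 ≤ t) (h1 : t ≤ 1) {b b' : ℤ → ℝ}
    (hb : ∀ D, b D ≤ b' D) (n : ℕ) (D : ℤ) : ((opR t)^[n] b) D ≤ ((opR t)^[n] b') D := by
  induction n generalizing b b' with
  | zero => simpa using hb D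
  | succ n ih =>
    rw [Function.iterate_succ_apply, Function.iterate_succ_apply]
    exact ih (fun D => rec_opR_mono h0 h1 hb D)

theorem rec_opR_lin (t u v : ℝ) (b b' : ℤ → ℝ) :
    opR t (fun D => u * b D + v * b' D) = fun D => u * opR t b D + v * opR t b' D := by
  funext D
  unfold opR opQ
  ring

theorem rec_opR_iter_lin (t u v : ℝ) (b b' : ℤ → ℝ) (n : ℕ) :
    (opR t)^[n] (fun D => u * b D + v * b' D) =
      fun D => u * ((opR t)^[n] b) D + v * ((opR t)^[n] b') D := by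
  induction n generalizing b b' with
  | zero => rfl
  | succ n ih =>
    rw [Function.iterate_succ_apply, rec_opR_lin, ih, Function.iterate_succ_apply,
      Function.iterate_succ_apply]

theorem rec_opR_const (t c : ℝ) : opR t (fun _ => c) = fun _ => c := by
  funext D
  unfold opR opQ
  ring

theorem rec_opR_iter_const (t c : ℝ) (n : ℕ) : (opR t)^[n] (fun _ => c) = fun _ => c := by
  induction n with
  | zero => rfl
  | succ n ih => rw [Function.iterate_succ_apply, rec_opR_const, ih]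

theorem rec_opR_iter_sum (t u v : ℝ) (F : ℕ → ℤ → ℝ) (m n : ℕ) :
    (opR t)^[n] (fun D => u + v * ∑ j ∈ range m, F j D) =
      fun D => u + v * ∑ j ∈ range m, ((opR t)^[n] (F j)) D := by
  induction m generalizing u with
  | zero => simp [rec_opR_iter_const]
  | succ m ih =>
    have h1 : (fun D => u + v * ∑ j ∈ range (m + 1), F j D) =
        fun D => 1 * (u + v * ∑ j ∈ range m, F j D) + v * F m D := by
      funext D
      rw [sum_range_succ]
      ring
    rw [h1, rec_opR_iter_lin, ih]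
    funext D
    rw [sum_range_succ]
    ring

theorem rec_opR_iter_bw (t : ℝ) (b : ℤ → ℝ) (n : ℕ) (D : ℤ) :
    ((opR t)^[n] b) D = ∑ j ∈ range (n + 1), bw n t j * (opQ^[j] b) D := by
  induction n generalizing b D with
  | zero => simp [bw]
  | succ n ih =>
    rw [Function.iterate_succ_apply, ih]
    rw [show n + 1 + 1 = n + 2 from rfl, bw_rec n t (fun j => (opQ^[j] b) D)]
    rw [mul_sum, mul_sum, ← sum_add_distrib]
    refine sum_congr rfl fun j _ => ?_
    have h1 : opR t b = fun E => t * opQ b E + (1 - t) * b E := rfl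
    rw [h1, rec_opQ_iter_lin, Function.iterate_succ_apply]
    ring

theorem opR_iter_ind (t : ℝ) (h0 : 0 < t) (h1 : t ≤ 1) (P n : ℕ) (D : ℤ) :
    ((opR t)^[n] (fun D => if |D| < (P : ℤ) then 1 else 0)) D ≤
      2 * P / Real.sqrt (t * ((n : ℝ) + 1)) := by
  rw [rec_opR_iter_bw]
  have key : ∀ j ∈ range (n + 1),
      bw n t j * (opQ^[j] (fun D => if |D| < (P : ℤ) then (1 : ℝ) else 0)) D ≤
      (2 * P) * (bw n t j * (1 / Real.sqrt ((j : ℝ) + 1))) := by
    intro j _
    have h := mul_le_mul_of_nonneg_left (opQ_iter_ind P j D) (bw_nonneg (H := n) h0.le h1 j)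
    refine h.trans (le_of_eq ?_)
    ring
  refine (sum_le_sum key).trans ?_
  rw [← mul_sum]
  have h := mul_le_mul_of_nonneg_left (inv_sqrt_moment n h0 h1) (show (0 : ℝ) ≤ 2 * P by positivity)
  refine h.trans (le_of_eq ?_)
  ring

/-! ### sums of inverse square roots -/

theorem rec_sqrt_step (n : ℕ) :
    1 / Real.sqrt ((n : ℝ) + 1) ≤ 2 * Real.sqrt ((n : ℝ) + 1) - 2 * Real.sqrt n := by
  have h1 : (0 : ℝ) < (n : ℝ) + 1 := by positivity
  have hs : 0 < Real.sqrt ((n : ℝ) + 1) := Real.sqrt_pos.2 h1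
  rw [div_le_iff₀ hs]
  have e1 : Real.sqrt ((n : ℝ) + 1) * Real.sqrt ((n : ℝ) + 1) = (n : ℝ) + 1 :=
    Real.mul_self_sqrt h1.le
  have e2 : Real.sqrt (n : ℝ) * Real.sqrt (n : ℝ) = n := Real.mul_self_sqrt (Nat.cast_nonneg n)
  nlinarith [sq_nonneg (Real.sqrt ((n : ℝ) + 1) - Real.sqrt n)]

theorem rec_sum_sqrt (n : ℕ) :
    ∑ j ∈ range n, 1 / Real.sqrt ((j : ℝ) + 1) ≤ 2 * Real.sqrt n := by
  induction n with
  | zero => simp
  | succ n ih =>
    rw [sum_range_succ]
    have := rec_sqrt_step n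
    push_cast
    linarith

theorem rec_sum_two (n : ℕ) :
    ∑ k ∈ range n, 1 / (Real.sqrt ((k : ℝ) + 1) * Real.sqrt (((n - 1 - k : ℕ) : ℝ) + 1)) ≤ 4 := by
  rcases Nat.eq_zero_or_pos n with h0 | hn
  · subst h0
    simp
  have hn1 : (0 : ℝ) < (n : ℝ) + 1 := by positivity
  have hN : 0 < Real.sqrt ((n : ℝ) + 1) := Real.sqrt_pos.2 hn1
  have key : ∀ k ∈ range n,
      1 / (Real.sqrt ((k : ℝ) + 1) * Real.sqrt (((n - 1 - k : ℕ) : ℝ) + 1)) ≤
      (1 / Real.sqrt ((n : ℝ) + 1)) * (1 / Real.sqrt ((k : ℝ) + 1) +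
        1 / Real.sqrt (((n - 1 - k : ℕ) : ℝ) + 1)) := by
    intro k hk
    have hk' := mem_range.1 hk
    have ha : 0 < Real.sqrt ((k : ℝ) + 1) := Real.sqrt_pos.2 (by positivity)
    have hb : 0 < Real.sqrt (((n - 1 - k : ℕ) : ℝ) + 1) := Real.sqrt_pos.2 (by positivity)
    have hab : Real.sqrt ((n : ℝ) + 1) ≤
        Real.sqrt ((k : ℝ) + 1) + Real.sqrt (((n - 1 - k : ℕ) : ℝ) + 1) := by
      have e : (n : ℝ) + 1 = ((k : ℝ) + 1) + (((n - 1 - k : ℕ) : ℝ) + 1) := by
        have : ((n - 1 - k : ℕ) : ℝ) = (n : ℝ) - 1 - k := by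
          rw [Nat.sub_sub, Nat.cast_sub (by omega)]
          push_cast
          ring
        rw [this]
        ring
      rw [e]
      have hx : (0 : ℝ) ≤ (k : ℝ) + 1 := by positivity
      have hy : (0 : ℝ) ≤ ((n - 1 - k : ℕ) : ℝ) + 1 := by positivity
      rw [Real.sqrt_le_left (by positivity)]
      nlinarith [Real.mul_self_sqrt hx, Real.mul_self_sqrt hy, mul_pos ha hb]
    rw [div_add_div _ _ ha.ne' hb.ne', div_mul_div_comm, div_le_div_iff₀ (by positivity)
      (by positivity)]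
    nlinarith [mul_pos ha hb]
  refine (sum_le_sum key).trans ?_
  rw [← mul_sum, sum_add_distrib]
  have hrefl : ∑ k ∈ range n, 1 / Real.sqrt (((n - 1 - k : ℕ) : ℝ) + 1) =
      ∑ k ∈ range n, 1 / Real.sqrt ((k : ℝ) + 1) :=
    sum_range_reflect (fun k => 1 / Real.sqrt ((k : ℝ) + 1)) n
  rw [hrefl]
  have hS := rec_sum_sqrt n
  have hle : Real.sqrt n ≤ Real.sqrt ((n : ℝ) + 1) := Real.sqrt_le_sqrt (by linarith)
  rw [div_mul_eq_mul_div, div_le_iff₀ hN]
  linarith

/-- `b_k ≤ 1 + y (1+2z) ∑_{j ≤ k} opQ^[2j] 1_P` for `k ≤ n`, with `z = 4 P y (1 + sqrt n)`. -/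
theorem recB_one (y y' : ℝ) (hy : 0 ≤ y) (hyy : y ≤ y') (P : ℕ) (b0 : ℤ → ℝ)
    (hb0 : ∀ D, b0 D ≤ bump y' P D) (n : ℕ)
    (hz : 4 * P * y' * (1 + Real.sqrt n) ≤ 1 / 2) (D : ℤ) :
    recB y P b0 n D ≤ 1 + 8 * P * y' * (1 + Real.sqrt n) := by
  have hy' : 0 ≤ y' := hy.trans hyy
  set z : ℝ := 4 * P * y' * (1 + Real.sqrt n) with hzdef
  have hz0 : 0 ≤ z := by positivity
  set u : ℕ → ℤ → ℝ := fun j => opQ^[2 * j] (fun D => if |D| < (P : ℤ) then (1 : ℝ) else 0) with hu
  have hopQ : opR 1 = opQ := by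
    funext b D
    unfold opR
    ring
  have hu_le : ∀ j D, u j D ≤ 2 * P / Real.sqrt ((2 * j : ℕ) + 1 : ℝ) := fun j D =>
    opQ_iter_ind P (2 * j) D
  have hu_sum : ∀ m, m ≤ n → ∀ D, y' * ∑ j ∈ range (m + 1), u j D ≤ z := by
    intro m hm D
    have h1 : ∑ j ∈ range (m + 1), u j D ≤ 2 * P * (1 + 2 * Real.sqrt n) := by
      rw [sum_range_succ']
      have h2 : ∀ j ∈ range m, u (j + 1) D ≤ 2 * P * (1 / Real.sqrt ((j : ℝ) + 1)) := by
        intro j _
        refine (hu_le (j + 1) D).trans ?_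
        rw [mul_one_div]
        refine div_le_div_of_nonneg_left (by positivity) (Real.sqrt_pos.2 (by positivity))
          (Real.sqrt_le_sqrt ?_)
        push_cast
        have : (0 : ℝ) ≤ j := Nat.cast_nonneg j
        linarith
      have h3 := sum_le_sum h2
      rw [← mul_sum] at h3
      have h4 : u 0 D ≤ 2 * P := by
        refine (hu_le 0 D).trans (le_of_eq ?_)
        simp
      have h5 := rec_sum_sqrt m
      have h6 : Real.sqrt m ≤ Real.sqrt n := Real.sqrt_le_sqrt (by exact_mod_cast hm)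
      have h7 : 2 * (P : ℝ) * ∑ j ∈ range m, 1 / Real.sqrt ((j : ℝ) + 1) ≤
          2 * P * (2 * Real.sqrt n) :=
        mul_le_mul_of_nonneg_left (by linarith) (by positivity)
      linarith
    calc y' * ∑ j ∈ range (m + 1), u j D ≤ y' * (2 * P * (1 + 2 * Real.sqrt n)) :=
          mul_le_mul_of_nonneg_left h1 hy'
      _ ≤ z := by
          rw [hzdef]
          have : 0 ≤ y' * P * (1 : ℝ) := by positivity
          nlinarith [Real.sqrt_nonneg (n : ℝ)]
  have hu_shift : ∀ m, (fun D => opQ (opQ (fun D => 1 + y' * (1 + 2 * z) *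
      ∑ j ∈ range (m + 1), u j D)) D) =
      fun D => 1 + y' * (1 + 2 * z) * ∑ j ∈ range (m + 1), u (j + 1) D := by
    intro m
    have h := rec_opR_iter_sum 1 1 (y' * (1 + 2 * z)) u (m + 1) 2
    rw [hopQ] at h
    have e1 : (opQ^[2]) (fun D => 1 + y' * (1 + 2 * z) * ∑ j ∈ range (m + 1), u j D) =
        fun D => opQ (opQ (fun D => 1 + y' * (1 + 2 * z) * ∑ j ∈ range (m + 1), u j D)) D := rfl
    rw [e1] at h
    rw [h]
    funext D
    refine congrArg (fun s => 1 + y' * (1 + 2 * z) * s) (sum_congr rfl fun j _ => ?_)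
    rw [hu]
    simp only
    rw [← Function.iterate_add_apply, show 2 + 2 * j = 2 * (j + 1) from by ring]
  have main : ∀ m, m ≤ n → ∀ D, recB y P b0 m D ≤
      1 + y' * (1 + 2 * z) * ∑ j ∈ range (m + 1), u j D := by
    intro m
    induction m with
    | zero =>
      intro _ D
      have h1 : u 0 D = if |D| < (P : ℤ) then (1 : ℝ) else 0 := rfl
      rw [zero_add, sum_range_one, h1]
      refine (hb0 D).trans ?_
      unfold bump
      split_ifs
      · nlinarith [mul_nonneg hy' hz0]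
      · simp
    | succ m ih =>
      intro hm D
      have ih' := ih (by omega)
      have h1 : opQ (opQ (recB y P b0 m)) D ≤
          1 + y' * (1 + 2 * z) * ∑ j ∈ range (m + 1), u (j + 1) D := by
        have h2 : ∀ D, opQ (recB y P b0 m) D ≤
            opQ (fun D => 1 + y' * (1 + 2 * z) * ∑ j ∈ range (m + 1), u j D) D :=
          rec_opQ_mono ih'
        have h3 := rec_opQ_mono h2 D
        have h4 : opQ (opQ (fun D => 1 + y' * (1 + 2 * z) * ∑ j ∈ range (m + 1), u j D)) D =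
            1 + y' * (1 + 2 * z) * ∑ j ∈ range (m + 1), u (j + 1) D := congrFun (hu_shift m) D
        rw [← h4]
        exact h3
      have h5 : y' * ∑ j ∈ range (m + 1), u (j + 1) D ≤ z := by
        have h6 := hu_sum (m + 1) hm D
        rw [sum_range_succ'] at h6
        have h7 : 0 ≤ u 0 D := by
          show (0 : ℝ) ≤ if |D| < (P : ℤ) then (1 : ℝ) else 0
          split_ifs <;> norm_num
        nlinarith [mul_nonneg hy' h7]
      have h8 : u 0 D = if |D| < (P : ℤ) then (1 : ℝ) else 0 := rfl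
      show bump y P D * opQ (opQ (recB y P b0 m)) D ≤ _
      rw [sum_range_succ' _ (m + 1), h8]
      unfold bump
      set S := ∑ j ∈ range (m + 1), u (j + 1) D with hS
      set X := opQ (opQ (recB y P b0 m)) D with hX
      split_ifs
      · have h9 : (1 + y) * X ≤ (1 + y) * (1 + y' * (1 + 2 * z) * S) :=
          mul_le_mul_of_nonneg_left h1 (by linarith)
        refine h9.trans ?_
        have h10 : y' * (1 + 2 * z) * S ≤ 2 * z := by
          have : y' * (1 + 2 * z) * S = (1 + 2 * z) * (y' * S) := by ring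
          rw [this]
          calc (1 + 2 * z) * (y' * S) ≤ (1 + 2 * z) * z :=
                mul_le_mul_of_nonneg_left h5 (by linarith)
            _ ≤ 2 * z := by nlinarith
        have h11 : y * (1 + y' * (1 + 2 * z) * S) ≤ y' * (1 + 2 * z) := by
          calc y * (1 + y' * (1 + 2 * z) * S) ≤ y * (1 + 2 * z) :=
                mul_le_mul_of_nonneg_left (by linarith) hy
            _ ≤ y' * (1 + 2 * z) := mul_le_mul_of_nonneg_right hyy (by linarith)
        nlinarith
      · simp only [add_zero, one_mul]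
        exact h1
  have h1 := main n le_rfl D
  have h2 := hu_sum n le_rfl D
  have h3 : y' * (1 + 2 * z) * ∑ j ∈ range (n + 1), u j D ≤ 2 * z := by
    have : y' * (1 + 2 * z) * ∑ j ∈ range (n + 1), u j D =
        (1 + 2 * z) * (y' * ∑ j ∈ range (n + 1), u j D) := by ring
    rw [this]
    calc (1 + 2 * z) * (y' * ∑ j ∈ range (n + 1), u j D) ≤ (1 + 2 * z) * z :=
          mul_le_mul_of_nonneg_left h2 (by linarith)
      _ ≤ 2 * z := by nlinarith
  rw [hzdef] at h3
  linarith

/-- Duhamel: `b_n = opQ^[2n] b_0 + ∑_{k=1}^n opQ^[2(n-k)] (y 1_P opQ^[2] b_(k-1))`, and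
`∑_{k=1}^n 1/sqrt((n-k+1) k) ≤ 4`. -/
theorem recB_duhamel (y : ℝ) (P : ℕ) (b0 : ℤ → ℝ) (n : ℕ) (D : ℤ) :
    recB y P b0 n D = (opQ^[2 * n] b0) D + ∑ k ∈ range n, (opQ^[2 * (n - 1 - k)]
      (fun D => y * (if |D| < (P : ℤ) then (opQ (opQ (recB y P b0 k))) D else 0))) D := by
  induction n generalizing D with
  | zero => simp [recB]
  | succ n ih =>
    have hopQ : opR 1 = opQ := by
      funext b D
      unfold opR
      ring
    have e0 : recB y P b0 (n + 1) D = opQ (opQ (recB y P b0 n)) D +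
        y * (if |D| < (P : ℤ) then (opQ (opQ (recB y P b0 n))) D else 0) := by
      show bump y P D * opQ (opQ (recB y P b0 n)) D = _
      unfold bump
      split_ifs <;> ring
    rw [e0, sum_range_succ]
    have e1 : (opQ^[2 * (n + 1 - 1 - n)]
      (fun D => y * (if |D| < (P : ℤ) then (opQ (opQ (recB y P b0 n))) D else 0))) D =
        y * (if |D| < (P : ℤ) then (opQ (opQ (recB y P b0 n))) D else 0) := by
      rw [show n + 1 - 1 - n = 0 from by omega]
      rfl
    rw [e1, ← add_assoc]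
    congr 1
    have e2 : recB y P b0 n = fun D => 1 * (opQ^[2 * n] b0) D + 1 * (0 + 1 * ∑ k ∈ range n,
        (opQ^[2 * (n - 1 - k)] (fun D => y * (if |D| < (P : ℤ) then
          (opQ (opQ (recB y P b0 k))) D else 0))) D) := by
      funext D
      rw [ih D]
      ring
    have e3 : opQ (opQ (recB y P b0 n)) = opQ^[2] (recB y P b0 n) := rfl
    rw [e3, e2, rec_opQ_iter_lin]
    have e4 := rec_opR_iter_sum 1 0 1 (fun k => opQ^[2 * (n - 1 - k)] (fun D => y *
      (if |D| < (P : ℤ) then (opQ (opQ (recB y P b0 k))) D else 0))) n 2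
    rw [hopQ] at e4
    rw [e4]
    show 1 * (opQ^[2] (opQ^[2 * n] b0)) D + 1 * (0 + 1 * _) = _
    rw [one_mul, one_mul, zero_add, one_mul, ← Function.iterate_add_apply,
      show 2 + 2 * n = 2 * (n + 1) from by ring]
    congr 1
    refine sum_congr rfl fun k hk => ?_
    have hk' := mem_range.1 hk
    rw [← Function.iterate_add_apply,
      show 2 + 2 * (n - 1 - k) = 2 * (n + 1 - 1 - k) from by omega]

theorem rec_ind_scaled (P m : ℕ) (c : ℝ) (hc : 0 ≤ c) {b : ℤ → ℝ}
    (hb : ∀ D, b D ≤ if |D| < (P : ℤ) then c else 0) (D : ℤ) :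
    (opQ^[m] b) D ≤ c * (2 * P / Real.sqrt ((m : ℝ) + 1)) := by
  have h1 : ∀ D, b D ≤ c * (if |D| < (P : ℤ) then (1 : ℝ) else 0) + 0 * 0 := by
    intro D
    refine (hb D).trans (le_of_eq ?_)
    split_ifs <;> ring
  have h2 := rec_opQ_iter_mono h1 m D
  have h3 := congrFun (rec_opQ_iter_lin c 0 (fun D => if |D| < (P : ℤ) then (1 : ℝ) else 0)
    (fun _ => 0) m) D
  rw [h3] at h2
  refine h2.trans ?_
  rw [zero_mul, add_zero]
  exact mul_le_mul_of_nonneg_left (opQ_iter_ind P m D) hc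

theorem recB_nonneg (y : ℝ) (hy : 0 ≤ y) (P : ℕ) (b0 : ℤ → ℝ) (hb00 : ∀ D, 0 ≤ b0 D) (n : ℕ)
    (D : ℤ) : 0 ≤ recB y P b0 n D := by
  induction n generalizing D with
  | zero => exact hb00 D
  | succ n ih =>
    show 0 ≤ bump y P D * (opQ^[2] (recB y P b0 n)) D
    refine mul_nonneg ?_ (rec_opQ_iter_nonneg ih 2 D)
    unfold bump
    split_ifs <;> linarith

theorem rec_opQ_sup {b : ℤ → ℝ} {c : ℝ} (hb : ∀ D, b D ≤ c) (D : ℤ) : opQ b D ≤ c := by
  have h := rec_opQ_mono hb D
  rwa [rec_opQ_const] at h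

/-- Duhamel: `b_n = opQ^[2n] b_0 + ∑_{k=1}^n opQ^[2(n-k)] (y 1_P opQ^[2] b_(k-1))`, and
`∑_{k=1}^n 1/sqrt((n-k+1) k) ≤ 4`. -/
theorem recB_zero (y : ℝ) (hy : 0 ≤ y) (P : ℕ) (b0 : ℤ → ℝ) (B0 : ℝ) (hB0 : 0 ≤ B0)
    (hb0 : ∀ D, b0 D ≤ if |D| < (P : ℤ) then B0 else 0) (hb00 : ∀ D, 0 ≤ b0 D) (n : ℕ)
    (hz : 16 * P * y * Real.sqrt ((n : ℝ) + 1) ≤ 1) (D : ℤ) :
    recB y P b0 n D ≤ 4 * P * B0 / Real.sqrt ((n : ℝ) + 1) := by
  have main : ∀ m, m ≤ n → ∀ D, recB y P b0 m D ≤ 4 * P * B0 / Real.sqrt ((m : ℝ) + 1) := by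
    intro m
    induction m using Nat.strong_induction_on with
    | _ m ih =>
      intro hm D
      have hsm : 0 < Real.sqrt ((m : ℝ) + 1) := Real.sqrt_pos.2 (by positivity)
      rw [recB_duhamel]
      have h1 : (opQ^[2 * m] b0) D ≤ 2 * P * B0 / Real.sqrt ((m : ℝ) + 1) := by
        refine (rec_ind_scaled P (2 * m) B0 hB0 hb0 D).trans ?_
        rw [mul_div_assoc', show B0 * (2 * (P : ℝ)) = 2 * P * B0 from by ring]
        refine div_le_div_of_nonneg_left (by positivity) hsm (Real.sqrt_le_sqrt ?_)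
        push_cast
        have : (0 : ℝ) ≤ m := Nat.cast_nonneg m
        linarith
      have h2 : ∀ k ∈ range m, (opQ^[2 * (m - 1 - k)]
          (fun D => y * (if |D| < (P : ℤ) then (opQ (opQ (recB y P b0 k))) D else 0))) D ≤
          (8 * P * P * B0 * y) *
            (1 / (Real.sqrt ((k : ℝ) + 1) * Real.sqrt (((m - 1 - k : ℕ) : ℝ) + 1))) := by
        intro k hk
        have hk' := mem_range.1 hk
        have hsk : 0 < Real.sqrt ((k : ℝ) + 1) := Real.sqrt_pos.2 (by positivity)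
        have hc : 0 ≤ y * (4 * P * B0 / Real.sqrt ((k : ℝ) + 1)) := by positivity
        have h3 : ∀ D, y * (if |D| < (P : ℤ) then (opQ (opQ (recB y P b0 k))) D else 0) ≤
            if |D| < (P : ℤ) then y * (4 * P * B0 / Real.sqrt ((k : ℝ) + 1)) else 0 := by
          intro D
          split_ifs
          · exact mul_le_mul_of_nonneg_left
              (rec_opQ_sup (rec_opQ_sup (ih k hk' (by omega))) D) hy
          · simp
        refine (rec_ind_scaled P (2 * (m - 1 - k)) _ hc h3 D).trans ?_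
        have h4 : (2 * (P : ℝ) / Real.sqrt (((2 * (m - 1 - k) : ℕ) : ℝ) + 1)) ≤
            2 * P / Real.sqrt (((m - 1 - k : ℕ) : ℝ) + 1) := by
          refine div_le_div_of_nonneg_left (by positivity) (Real.sqrt_pos.2 (by positivity))
            (Real.sqrt_le_sqrt ?_)
          push_cast
          have : (0 : ℝ) ≤ ((m - 1 - k : ℕ) : ℝ) := Nat.cast_nonneg _
          linarith
        refine (mul_le_mul_of_nonneg_left h4 hc).trans (le_of_eq ?_)
        ring
      have h3 := sum_le_sum h2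
      rw [← mul_sum] at h3
      have h4 : (8 * P * P * B0 * y) * ∑ k ∈ range m,
            (1 / (Real.sqrt ((k : ℝ) + 1) * Real.sqrt (((m - 1 - k : ℕ) : ℝ) + 1))) ≤
            (8 * P * P * B0 * y) * 4 :=
        mul_le_mul_of_nonneg_left (rec_sum_two m) (by positivity)
      have h5 : (8 * P * P * B0 * y) * 4 ≤ 2 * P * B0 / Real.sqrt ((m : ℝ) + 1) := by
        rw [le_div_iff₀ hsm]
        have h6 : Real.sqrt ((m : ℝ) + 1) ≤ Real.sqrt ((n : ℝ) + 1) :=
          Real.sqrt_le_sqrt (by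
            have : (m : ℝ) ≤ n := by exact_mod_cast hm
            linarith)
        have h7 : 16 * P * y * Real.sqrt ((m : ℝ) + 1) ≤ 1 :=
          (mul_le_mul_of_nonneg_left h6 (by positivity)).trans hz
        have h8 : 0 ≤ 2 * P * B0 := by positivity
        nlinarith [mul_le_mul_of_nonneg_left h7 h8]
      have h6 : 4 * P * B0 / Real.sqrt ((m : ℝ) + 1) =
          2 * P * B0 / Real.sqrt ((m : ℝ) + 1) + 2 * P * B0 / Real.sqrt ((m : ℝ) + 1) := by
        ring
      rw [h6]
      linarith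
  exact main n le_rfl D

/-- Many coins: after a final smoothing. -/
theorem recR_one (t : ℝ) (h0 : 0 < t) (h1 : t ≤ 1) (y y' : ℝ) (hy : 0 ≤ y) (hyy : y ≤ y')
    (P J : ℕ) (hJ : 1 ≤ J) (b0 : ℤ → ℝ) (hb0 : ∀ D, b0 D ≤ bump y' P D) (n : ℕ)
    (hz : 4 * P * y' * Real.sqrt (((n : ℝ) + 1) / (2 * J * t)) ≤ 1 / 2) (D : ℤ) :
    ((opR t)^[2 * J] (recR t y P J b0 n)) D ≤
      1 + 8 * P * y' * Real.sqrt (((n : ℝ) + 1) / (2 * J * t)) := by
  have hy' : 0 ≤ y' := hy.trans hyy
  have hJ0 : (0 : ℝ) < J := by exact_mod_cast hJ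
  set z : ℝ := 4 * P * y' * Real.sqrt (((n : ℝ) + 1) / (2 * J * t)) with hzdef
  have hz0 : 0 ≤ z := by positivity
  set u : ℕ → ℤ → ℝ := fun j => (opR t)^[2 * J * j]
    (fun D => if |D| < (P : ℤ) then (1 : ℝ) else 0) with hu
  have hu_le : ∀ j D, u (j + 1) D ≤
      2 * P / Real.sqrt (2 * J * t) * (1 / Real.sqrt ((j : ℝ) + 1)) := by
    intro j D
    refine (opR_iter_ind t h0 h1 P (2 * J * (j + 1)) D).trans ?_
    rw [div_mul_div_comm, mul_one, ← Real.sqrt_mul (by positivity)]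
    refine div_le_div_of_nonneg_left (by positivity) (Real.sqrt_pos.2 (by positivity))
      (Real.sqrt_le_sqrt ?_)
    push_cast
    nlinarith [mul_pos hJ0 h0]
  have hu_sum : ∀ m, m ≤ n → ∀ D, y' * ∑ j ∈ range (m + 1), u (j + 1) D ≤ z := by
    intro m hm D
    have h2 := sum_le_sum (fun j (_ : j ∈ range (m + 1)) => hu_le j D)
    rw [← mul_sum] at h2
    have h3 : ∑ j ∈ range (m + 1), 1 / Real.sqrt ((j : ℝ) + 1) ≤ 2 * Real.sqrt ((n : ℝ) + 1) := by
      refine (rec_sum_sqrt (m + 1)).trans ?_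
      have : Real.sqrt ((m + 1 : ℕ) : ℝ) ≤ Real.sqrt ((n : ℝ) + 1) := by
        refine Real.sqrt_le_sqrt ?_
        push_cast
        have : (m : ℝ) ≤ n := by exact_mod_cast hm
        linarith
      linarith
    have h4 : 2 * P / Real.sqrt (2 * J * t) * ∑ j ∈ range (m + 1), 1 / Real.sqrt ((j : ℝ) + 1) ≤
        2 * P / Real.sqrt (2 * J * t) * (2 * Real.sqrt ((n : ℝ) + 1)) :=
      mul_le_mul_of_nonneg_left h3 (by positivity)
    have h5 := mul_le_mul_of_nonneg_left (h2.trans h4) hy'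
    refine h5.trans (le_of_eq ?_)
    rw [hzdef, Real.sqrt_div (by positivity)]
    ring
  have hu_shift : ∀ m, ((opR t)^[2 * J]) (fun D => 1 + y' * (1 + 2 * z) *
      ∑ j ∈ range (m + 1), u j D) =
      fun D => 1 + y' * (1 + 2 * z) * ∑ j ∈ range (m + 1), u (j + 1) D := by
    intro m
    rw [rec_opR_iter_sum t 1 (y' * (1 + 2 * z)) u (m + 1) (2 * J)]
    funext D
    refine congrArg (fun s => 1 + y' * (1 + 2 * z) * s) (sum_congr rfl fun j _ => ?_)
    rw [hu]
    simp only
    rw [← Function.iterate_add_apply, show 2 * J + 2 * J * j = 2 * J * (j + 1) from by ring]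
  have main : ∀ m, m ≤ n → ∀ D, recR t y P J b0 m D ≤
      1 + y' * (1 + 2 * z) * ∑ j ∈ range (m + 1), u j D := by
    intro m
    induction m with
    | zero =>
      intro _ D
      have h1 : u 0 D = if |D| < (P : ℤ) then (1 : ℝ) else 0 := rfl
      rw [zero_add, sum_range_one, h1]
      refine (hb0 D).trans ?_
      unfold bump
      split_ifs
      · nlinarith [mul_nonneg hy' hz0]
      · simp
    | succ m ih =>
      intro hm D
      have ih' := ih (by omega)
      have h2 : ((opR t)^[2 * J] (recR t y P J b0 m)) D ≤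
          1 + y' * (1 + 2 * z) * ∑ j ∈ range (m + 1), u (j + 1) D := by
        have h3 := rec_opR_iter_mono h0.le h1 ih' (2 * J) D
        have h4 := congrFun (hu_shift m) D
        rw [h4] at h3
        exact h3
      have h5 : y' * ∑ j ∈ range (m + 1), u (j + 1) D ≤ z := hu_sum m (by omega) D
      have h8 : u 0 D = if |D| < (P : ℤ) then (1 : ℝ) else 0 := rfl
      show bump y P D * ((opR t)^[2 * J] (recR t y P J b0 m)) D ≤ _
      rw [sum_range_succ' _ (m + 1), h8]
      unfold bump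
      set S := ∑ j ∈ range (m + 1), u (j + 1) D with hS
      set X := ((opR t)^[2 * J] (recR t y P J b0 m)) D with hX
      split_ifs
      · have h9 : (1 + y) * X ≤ (1 + y) * (1 + y' * (1 + 2 * z) * S) :=
          mul_le_mul_of_nonneg_left h2 (by linarith)
        refine h9.trans ?_
        have h10 : y' * (1 + 2 * z) * S ≤ 2 * z := by
          have : y' * (1 + 2 * z) * S = (1 + 2 * z) * (y' * S) := by ring
          rw [this]
          calc (1 + 2 * z) * (y' * S) ≤ (1 + 2 * z) * z :=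
                mul_le_mul_of_nonneg_left h5 (by linarith)
            _ ≤ 2 * z := by nlinarith
        have h11 : y * (1 + y' * (1 + 2 * z) * S) ≤ y' * (1 + 2 * z) := by
          calc y * (1 + y' * (1 + 2 * z) * S) ≤ y * (1 + 2 * z) :=
                mul_le_mul_of_nonneg_left (by linarith) hy
            _ ≤ y' * (1 + 2 * z) := mul_le_mul_of_nonneg_right hyy (by linarith)
        nlinarith
      · simp only [add_zero, one_mul]
        exact h2
  have h2 : ((opR t)^[2 * J] (recR t y P J b0 n)) D ≤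
      1 + y' * (1 + 2 * z) * ∑ j ∈ range (n + 1), u (j + 1) D := by
    have h3 := rec_opR_iter_mono h0.le h1 (main n le_rfl) (2 * J) D
    have h4 := congrFun (hu_shift n) D
    rw [h4] at h3
    exact h3
  have h3 := hu_sum n le_rfl D
  have h4 : y' * (1 + 2 * z) * ∑ j ∈ range (n + 1), u (j + 1) D ≤ 2 * z := by
    have : y' * (1 + 2 * z) * ∑ j ∈ range (n + 1), u (j + 1) D =
        (1 + 2 * z) * (y' * ∑ j ∈ range (n + 1), u (j + 1) D) := by ring
    rw [this]
    calc (1 + 2 * z) * (y' * ∑ j ∈ range (n + 1), u (j + 1) D) ≤ (1 + 2 * z) * z :=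
          mul_le_mul_of_nonneg_left h3 (by linarith)
      _ ≤ 2 * z := by nlinarith
  refine h2.trans ?_
  have h5 : 1 + 8 * P * y' * Real.sqrt (((n : ℝ) + 1) / (2 * J * t)) = 1 + 2 * z := by
    rw [hzdef]
    ring
  rw [h5]
  linarith

end Vale.Agent.P321
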