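import Vale.Agent.P321.BaseLem
import Vale.Agent.P321.Coin

namespace Vale.Agent.P321

open Finset

/-! ### binomial variance -/

theorem tilt_var (n : ℕ) (t : ℝ) :
    ∑ j ∈ range (n + 1), bw n t j * ((j : ℝ) - n * t) ^ 2 = n * t * (1 - t) := by
  have h := congrArg (Polynomial.eval t) (bernsteinPolynomial.variance ℝ n)
  simp only [Polynomial.eval_finsetSum, Polynomial.eval_mul, Polynomial.eval_pow,
    Polynomial.eval_sub, Polynomial.eval_X, Polynomial.eval_natCast,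
    Polynomial.eval_one, bernsteinPolynomial, nsmul_eq_mul] at h
  rw [← h]
  refine Finset.sum_congr rfl fun j _ => ?_
  unfold bw
  ring

theorem tilt_cheb (n : ℕ) {t : ℝ} (h0 : 0 ≤ t) (h1 : t ≤ 1) :
    3 / 4 ≤ ∑ j ∈ (range (n + 1)).filter (fun j : ℕ => (j : ℝ) ≤ n * t + 2 * Real.sqrt n),
      bw n t j := by
  rcases Nat.eq_zero_or_pos n with hn | hn
  · subst hn
    simp [bw]
    norm_num
  have hn0 : (0 : ℝ) < n := by exact_mod_cast hn
  have hs := Finset.sum_filter_add_sum_filter_not (range (n + 1))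
    (fun j : ℕ => (j : ℝ) ≤ n * t + 2 * Real.sqrt n) (fun j => bw n t j)
  rw [bw_sum] at hs
  have hb : (4 * n : ℝ) * ∑ j ∈ (range (n + 1)).filter
      (fun j : ℕ => ¬ (j : ℝ) ≤ n * t + 2 * Real.sqrt n), bw n t j ≤ n * t * (1 - t) := by
    rw [← tilt_var, Finset.mul_sum]
    calc ∑ j ∈ (range (n + 1)).filter (fun j : ℕ => ¬ (j : ℝ) ≤ n * t + 2 * Real.sqrt n),
          4 * (n : ℝ) * bw n t j
        ≤ ∑ j ∈ (range (n + 1)).filter (fun j : ℕ => ¬ (j : ℝ) ≤ n * t + 2 * Real.sqrt n),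
          bw n t j * ((j : ℝ) - n * t) ^ 2 := by
          refine Finset.sum_le_sum fun j hj => ?_
          have hj2 := (Finset.mem_filter.1 hj).2
          push Not at hj2
          have h3 : (2 * Real.sqrt n) ^ 2 ≤ ((j : ℝ) - n * t) ^ 2 := by
            have : 2 * Real.sqrt n ≤ (j : ℝ) - n * t := by linarith
            gcongr
          rw [mul_pow, Real.sq_sqrt hn0.le] at h3
          have := mul_le_mul_of_nonneg_left h3 (bw_nonneg (H := n) h0 h1 j)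
          linarith
      _ ≤ ∑ j ∈ range (n + 1), bw n t j * ((j : ℝ) - n * t) ^ 2 :=
          Finset.sum_le_sum_of_subset_of_nonneg (Finset.filter_subset _ _)
            fun j _ _ => mul_nonneg (bw_nonneg h0 h1 j) (sq_nonneg _)
  have h4 : (n : ℝ) * t * (1 - t) ≤ n * 1 := by
    rw [mul_assoc]
    have : t * (1 - t) ≤ 1 := by nlinarith
    gcongr
  have h5 : (4 * n : ℝ) * ∑ j ∈ (range (n + 1)).filter
      (fun j : ℕ => ¬ (j : ℝ) ≤ n * t + 2 * Real.sqrt n), bw n t j ≤ (4 * n) * (1 / 4) := by linarith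
  have h6 := le_of_mul_le_mul_left h5 (by positivity)
  linarith

/-! ### expansion in the sea parameter -/

/-- `F θ = ∑_j θ^j (1-θ)^(N-j) c_j`. -/
def TExp (N : ℕ) (F : ℝ → Alg) : Prop :=
  ∃ c : ℕ → Alg, (∀ j, nn (c j)) ∧ (∀ j, mass (c j) = (N.choose j : ℝ)) ∧
    ∀ θ : ℝ, F θ = ∑ j ∈ range (N + 1), (θ ^ j * (1 - θ) ^ (N - j)) • c j

theorem TExp_one : TExp 0 (fun _ => 1) := by
  refine ⟨fun j => if j = 0 then 1 else 0, fun j => ?_, fun j => ?_, fun θ => ?_⟩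
  · dsimp only
    split_ifs
    · exact nn_one
    · exact nn_zero
  · dsimp only
    split_ifs with h
    · subst h; simp
    · simp [Nat.choose_eq_zero_of_lt (Nat.pos_of_ne_zero h)]
  · simp

theorem TExp_mul_const {N : ℕ} {F : ℝ → Alg} {z : Alg} (hz : nn z) (hm : mass z = 1)
    (H : TExp N F) : TExp N (fun θ => F θ * z) := by
  obtain ⟨c, hc, hcm, hF⟩ := H
  refine ⟨fun j => c j * z, fun j => nn_mul (hc j) hz, fun j => ?_, fun θ => ?_⟩
  · rw [mass_mul, hm, mul_one, hcm]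
  · dsimp only
    rw [hF, Finset.sum_mul]
    exact Finset.sum_congr rfl fun j _ => smul_mul_assoc _ _ _

theorem TExp_mul_sea {q : ℝ} (h0 : 0 < q) (h1 : q < 1) {N : ℕ} {F : ℝ → Alg}
    (H : TExp N F) : TExp (N + 1) (fun θ => F θ * eS q θ) := by
  obtain ⟨c, hc, hcm, hF⟩ := H
  have hlast : c (N + 1) = 0 := by
    rw [← n1_eq_zero_iff, n1_of_nn (hc _), hcm, Nat.choose_eq_zero_of_lt (Nat.lt_succ_self N)]
    simp
  refine ⟨fun j => match j with
    | 0 => c 0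
    | j + 1 => c (j + 1) + c j * symb q, fun j => ?_, fun j => ?_, fun θ => ?_⟩
  · rcases j with _ | j
    · exact hc 0
    · exact nn_add (hc _) (nn_mul (hc _) (nn_symb h0 h1))
  · rcases j with _ | j
    · simp [hcm]
    · simp only [mass_add, mass_mul, mass_symb h0 h1, hcm, mul_one]
      rw [Nat.choose_succ_succ' N j]
      push_cast; ring
  · dsimp only
    rw [hF, Finset.sum_range_succ' _ (N + 1)]
    unfold eS
    rw [mul_add, Finset.sum_mul, Finset.sum_mul]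
    have e1 : ∑ j ∈ range (N + 1), (θ ^ j * (1 - θ) ^ (N - j)) • c j * (1 - θ) • (1 : Alg) =
        ∑ j ∈ range (N + 1), (θ ^ (j + 1) * (1 - θ) ^ (N + 1 - (j + 1))) • c (j + 1) +
          (θ ^ 0 * (1 - θ) ^ (N + 1 - 0)) • c 0 := by
      rw [← Finset.sum_range_succ' (fun j => (θ ^ j * (1 - θ) ^ (N + 1 - j)) • c j) (N + 1),
        Finset.sum_range_succ _ (N + 1), hlast, smul_zero, add_zero]
      refine Finset.sum_congr rfl fun j hj => ?_
      rw [Finset.mem_range] at hj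
      rw [smul_mul_smul_comm, mul_one, mul_assoc, ← pow_succ]
      congr 3
      omega
    have e2 : ∑ j ∈ range (N + 1), (θ ^ j * (1 - θ) ^ (N - j)) • c j * θ • symb q =
        ∑ j ∈ range (N + 1), (θ ^ (j + 1) * (1 - θ) ^ (N + 1 - (j + 1))) • (c j * symb q) := by
      refine Finset.sum_congr rfl fun j _ => ?_
      rw [smul_mul_smul_comm]
      congr 1
      rw [Nat.add_sub_add_right]
      ring
    rw [e1, e2]
    simp only [smul_add, Finset.sum_add_distrib]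
    abel

theorem TExp_mul_sea_pow {q : ℝ} (h0 : 0 < q) (h1 : q < 1) {N : ℕ} {F : ℝ → Alg}
    (H : TExp N F) (k : ℕ) : TExp (N + k) (fun θ => F θ * eS q θ ^ k) := by
  induction k with
  | zero => simpa using H
  | succ k ih =>
    have := TExp_mul_sea h0 h1 ih
    simp only [mul_assoc, ← pow_succ] at this
    exact this

theorem TExp_aS {q : ℝ} (h0 : 0 < q) (h1 : q < 1) (r m : ℕ) :
    TExp (m * (2 * r + 1)) (fun θ => aS q θ r ^ m) := by
  induction m with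
  | zero => simpa using TExp_one
  | succ m ih =>
    have h2 := TExp_mul_sea_pow h0 h1 (TExp_mul_const (nn_zS h0 h1) (mass_zS q)
      (TExp_mul_sea_pow h0 h1 ih r)) (r + 1)
    have e : m * (2 * r + 1) + r + (r + 1) = (m + 1) * (2 * r + 1) := by ring
    rw [e] at h2
    have e2 : (fun θ => aS q θ r ^ (m + 1)) =
        (fun θ => aS q θ r ^ m * eS q θ ^ r * zS q * eS q θ ^ (r + 1)) := by
      funext θ
      rw [pow_succ]
      unfold aS
      simp only [mul_assoc]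
    rw [e2]
    exact h2

/-- A product of factors, each the sea `eS q θ` or a fixed `nn` element of mass one, is
`∑_j θ^j (1-θ)^(N-j) c_j` with `c_j` not depending on `θ`, `nn`, `mass c_j = C(N,j)`, where `N` is
the number of sea factors. Here for `(aS q θ r)^m`, `N = m (2r+1)`. -/
theorem aS_pow_expand {q : ℝ} (h0 : 0 < q) (h1 : q < 1) (r m : ℕ) : ∃ c : ℕ → Alg,
    (∀ j, nn (c j)) ∧ (∀ j, mass (c j) = ((m * (2 * r + 1)).choose j : ℝ)) ∧
    ∀ θ : ℝ, aS q θ r ^ m =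
      ∑ j ∈ range (m * (2 * r + 1) + 1),
        (θ ^ j * (1 - θ) ^ (m * (2 * r + 1) - j)) • c j :=
  TExp_aS h0 h1 r m

/-- comparison of the weights -/
theorem tilt_weight {θ : ℝ} (t0 : 0 < θ) (N m j : ℕ) (hm : 1 ≤ m) (hj : j ≤ N)
    (t1 : θ * (m + 1) / m < 1)
    (hjN : (j : ℝ) ≤ N * (θ * (m + 1) / m) + 2 * Real.sqrt N) :
    Real.exp (-(1 / (1 - θ) * (N * θ / m ^ 2 + 2 * Real.sqrt N / m))) *
      ((θ * (m + 1) / m) ^ j * (1 - θ * (m + 1) / m) ^ (N - j)) ≤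
      θ ^ j * (1 - θ) ^ (N - j) := by
  have hm0 : (0 : ℝ) < m := by exact_mod_cast hm
  obtain ⟨θ₁, hθ₁⟩ : ∃ θ₁ : ℝ, θ₁ = θ * (m + 1) / m := ⟨_, rfl⟩
  rw [← hθ₁] at t1 hjN ⊢
  have e1 : θ₁ = θ * (1 + 1 / m) := by rw [hθ₁]; field_simp
  have hθθ : θ < θ₁ := by
    rw [e1]
    have : 0 < θ * (1 / (m : ℝ)) := by positivity
    linarith
  have hpos : 0 < 1 - θ := by linarith
  have hpos1 : 0 < 1 - θ₁ := by linarith
  obtain ⟨s, hs⟩ : ∃ s : ℝ, s = θ / (m * (1 - θ)) := ⟨_, rfl⟩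
  have hs0 : 0 < s := by rw [hs]; positivity
  -- first factor
  have a1 : θ₁ * Real.exp (-(1 / m)) ≤ θ := by
    rw [e1, mul_assoc]
    have h2 : (1 + 1 / (m : ℝ)) * Real.exp (-(1 / m)) ≤ 1 := by
      have h3 : 1 + 1 / (m : ℝ) ≤ Real.exp (1 / m) := by
        have := Real.add_one_le_exp (1 / (m : ℝ)); linarith
      calc (1 + 1 / (m : ℝ)) * Real.exp (-(1 / m)) ≤ Real.exp (1 / m) * Real.exp (-(1 / m)) := by
            gcongr
        _ = 1 := by rw [← Real.exp_add]; simp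
    nlinarith
  have a2 : (1 - θ₁) * Real.exp s ≤ 1 - θ := by
    have h2 : 1 - s ≤ Real.exp (-s) := by
      have := Real.add_one_le_exp (-s); linarith
    have h3 : 1 - θ₁ = (1 - θ) * (1 - s) := by
      rw [e1, hs]; field_simp; ring
    rw [h3]
    calc (1 - θ) * (1 - s) * Real.exp s ≤ (1 - θ) * Real.exp (-s) * Real.exp s := by gcongr
      _ = 1 - θ := by rw [mul_assoc, ← Real.exp_add]; simp
  have hθ₁0 : 0 < θ₁ := t0.trans hθθ
  have b1 : (θ₁ * Real.exp (-(1 / m))) ^ j ≤ θ ^ j := by gcongr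
  have b2 : ((1 - θ₁) * Real.exp s) ^ (N - j) ≤ (1 - θ) ^ (N - j) := by gcongr
  have b3 : (θ₁ * Real.exp (-(1 / m))) ^ j * ((1 - θ₁) * Real.exp s) ^ (N - j) ≤
      θ ^ j * (1 - θ) ^ (N - j) := by gcongr
  refine le_trans ?_ b3
  rw [mul_pow, mul_pow, ← Real.exp_nat_mul, ← Real.exp_nat_mul]
  have b4 : θ₁ ^ j * Real.exp (j * -(1 / m)) * ((1 - θ₁) ^ (N - j) *
      Real.exp (((N - j : ℕ) : ℝ) * s)) =
      Real.exp (j * -(1 / m) + ((N - j : ℕ) : ℝ) * s) * (θ₁ ^ j * (1 - θ₁) ^ (N - j)) := by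
    rw [Real.exp_add]; ring
  rw [b4]
  have hexp : -(1 / (1 - θ) * (N * θ / m ^ 2 + 2 * Real.sqrt N / m)) ≤
      j * -(1 / (m : ℝ)) + ((N - j : ℕ) : ℝ) * s := by
    rw [Nat.cast_sub hj, hs]
    have c1 : (j : ℝ) * -(1 / (m : ℝ)) + ((N : ℝ) - j) * (θ / (m * (1 - θ))) =
        (N * θ - j) / (m * (1 - θ)) := by field_simp; ring
    have c2 : -(1 / (1 - θ) * (N * θ / (m : ℝ) ^ 2 + 2 * Real.sqrt N / m)) =
        (N * θ - (N * θ₁ + 2 * Real.sqrt N)) / (m * (1 - θ)) := by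
      rw [e1]; field_simp; ring
    rw [c1, c2]
    gcongr
  have : 0 ≤ θ₁ ^ j * (1 - θ₁) ^ (N - j) := by positivity
  gcongr

/-- TILT. `θ₁ = θ (m+1)/m`. Keep the terms `j ≤ N θ₁ + 2 sqrt N` (Chebyshev: mass `≥ 15/16`),
for which `(θ/θ₁)^j ((1-θ)/(1-θ₁))^(N-j) ≥ exp (-(1/(m(1-θ))) (j - N θ))`. -/
theorem tilt {q θ : ℝ} (h0 : 0 < q) (h1 : q < 1) (t0 : 0 < θ) (r m : ℕ) (hm : 1 ≤ m)
    (t1 : θ * (m + 1) / m < 1) : ∃ u : Alg, nn u ∧ 3 / 4 ≤ mass u ∧
    (∀ w, u.coeff w ≤ (aS q (θ * (m + 1) / m) r ^ m).coeff w) ∧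
    (∀ w, Real.exp (-(1 / (1 - θ) * (θ * (2 * r + 1) / m + 2 * Real.sqrt ((2 * r + 1) / m)))) *
      u.coeff w ≤ (aS q θ r ^ m).coeff w) := by
  classical
  have hm0 : (0 : ℝ) < m := by exact_mod_cast hm
  obtain ⟨c, hc, hcm, hF⟩ := aS_pow_expand h0 h1 r m
  obtain ⟨N, hN⟩ : ∃ N : ℕ, N = m * (2 * r + 1) := ⟨_, rfl⟩
  rw [← hN] at hcm hF
  have hexp : θ * (2 * r + 1) / m + 2 * Real.sqrt ((2 * r + 1) / m) =
      N * θ / m ^ 2 + 2 * Real.sqrt N / m := by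
    have e1 : (N : ℝ) = m * (2 * r + 1) := by rw [hN]; push_cast; ring
    have e2 : Real.sqrt N / m = Real.sqrt ((2 * r + 1) / m) := by
      rw [e1, div_eq_iff hm0.ne']
      have : (m : ℝ) * (2 * r + 1) = (2 * r + 1) / m * m ^ 2 := by field_simp
      rw [this, Real.sqrt_mul (by positivity), Real.sqrt_sq hm0.le]
    have e3 : (N : ℝ) * θ / m ^ 2 = θ * (2 * r + 1) / m := by rw [e1]; field_simp
    rw [e3, mul_div_assoc 2 (Real.sqrt N), e2]
  rw [hexp]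
  have t0' : 0 < θ * (m + 1) / m := by positivity
  have key := tilt_cheb N t0'.le t1.le
  obtain ⟨θ₁, hθ₁⟩ : ∃ θ₁ : ℝ, θ₁ = θ * (m + 1) / m := ⟨_, rfl⟩
  obtain ⟨S, hS⟩ : ∃ S : Finset ℕ, S = (range (N + 1)).filter
      (fun j : ℕ => (j : ℝ) ≤ N * (θ * (m + 1) / m) + 2 * Real.sqrt N) := ⟨_, rfl⟩
  have hSsub : S ⊆ range (N + 1) := by rw [hS]; exact Finset.filter_subset _ _
  have hSmem : ∀ j ∈ S, j ≤ N ∧ (j : ℝ) ≤ N * (θ * (m + 1) / m) + 2 * Real.sqrt N := by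
    intro j hj
    rw [hS, Finset.mem_filter, Finset.mem_range] at hj
    exact ⟨by omega, hj.2⟩
  have hwt : ∀ j, 0 ≤ θ₁ ^ j * (1 - θ₁) ^ (N - j) := fun j => by
    have : 0 < 1 - θ₁ := by rw [hθ₁]; linarith
    have : 0 < θ₁ := by rw [hθ₁]; exact t0'
    positivity
  have hcoef : ∀ (T : Finset ℕ) (v : ℕ → ℝ) (w : Wd),
      (∑ j ∈ T, v j • c j).coeff w = ∑ j ∈ T, v j * (c j).coeff w := by
    intro T v w
    induction T using Finset.induction_on with
    | empty => simp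
    | insert a T ha ih =>
      rw [Finset.sum_insert ha, Finset.sum_insert ha, MonoidAlgebra.coeff_add,
        Finsupp.add_apply, ih]
      simp
  rw [← hS] at key
  have hwt0 : ∀ j ∈ S, Real.exp (-(1 / (1 - θ) * (N * θ / m ^ 2 + 2 * Real.sqrt N / m))) *
      (θ₁ ^ j * (1 - θ₁) ^ (N - j)) ≤ θ ^ j * (1 - θ) ^ (N - j) := by
    intro j hj
    rw [hθ₁]
    exact tilt_weight t0 N m j hm (hSmem j hj).1 t1 (hSmem j hj).2
  rw [← hθ₁] at key ⊢
  refine ⟨∑ j ∈ S, (θ₁ ^ j * (1 - θ₁) ^ (N - j)) • c j, ?_, ?_, ?_, ?_⟩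
  · exact nn_sum _ _ fun j _ => nn_smul (hwt j) (hc j)
  · rw [mass_sum]
    refine key.trans (le_of_eq (Finset.sum_congr rfl fun j _ => ?_))
    rw [mass_smul, hcm]
    unfold bw
    ring
  · intro w
    rw [hF, hcoef, hcoef]
    exact Finset.sum_le_sum_of_subset_of_nonneg hSsub
      fun j _ _ => mul_nonneg (hwt j) (hc j w)
  · intro w
    rw [hF, hcoef, hcoef, Finset.mul_sum]
    have hθp : 0 < 1 - θ := by
      have : θ ≤ θ * (m + 1) / m := by
        rw [le_div_iff₀ hm0]; nlinarith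
      linarith
    refine (Finset.sum_le_sum fun j hj => ?_).trans
      (Finset.sum_le_sum_of_subset_of_nonneg hSsub
        fun j _ _ => mul_nonneg (by positivity) (hc j w))
    rw [← mul_assoc]
    exact mul_le_mul_of_nonneg_right (hwt0 j hj) (hc j w)

/-! ### thinning -/

theorem thin_expand {q θ : ℝ} (m n : ℕ) (hm : 1 ≤ m) :
    eS q θ ^ n = ∑ k ∈ range (n + 1), bw n ((m : ℝ) / (m + 1)) k •
      eS q (θ * (m + 1) / m) ^ k := by
  have hm0 : (0 : ℝ) < m := by exact_mod_cast hm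
  have e1 : eS q θ = ((m : ℝ) / (m + 1)) • eS q (θ * (m + 1) / m) +
      (1 - (m : ℝ) / (m + 1)) • (1 : Alg) := by
    unfold eS
    rw [smul_add, smul_smul, smul_smul]
    have e2 : (m : ℝ) / (m + 1) * (θ * (m + 1) / m) = θ := by field_simp
    have e3 : (m : ℝ) / (m + 1) * (1 - θ * (m + 1) / m) = (m : ℝ) / (m + 1) - θ := by
      rw [mul_sub, e2, mul_one]
    rw [e2, e3]
    have e4 : (1 - θ) • (1 : Alg) = ((m : ℝ) / (m + 1) - θ) • (1 : Alg) +
        (1 - (m : ℝ) / (m + 1)) • (1 : Alg) := by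
      rw [← add_smul]; congr 1; ring
    rw [e4]; abel
  conv_lhs => rw [e1]
  have hcomm : Commute (((m : ℝ) / (m + 1)) • eS q (θ * (m + 1) / m))
      ((1 - (m : ℝ) / (m + 1)) • (1 : Alg)) :=
    ((Commute.one_right _).smul_right _)
  rw [hcomm.add_pow]
  refine Finset.sum_congr rfl fun k _ => ?_
  rw [smul_pow, smul_pow, one_pow, smul_mul_smul_comm, mul_one,
    ← nsmul_eq_mul', ← Nat.cast_smul_eq_nsmul ℝ, smul_smul]
  unfold bw
  congr 1
  ring

theorem thin_abs (n : ℕ) {s : ℝ} (h0 : 0 ≤ s) (h1 : s ≤ 1) {c : ℝ} (hc : 0 < c)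
    (hv : n * s * (1 - s) ≤ c) :
    ∑ k ∈ range (n + 1), bw n s k * |(k : ℝ) - n * s| ≤ Real.sqrt c := by
  have hsc : 0 < Real.sqrt c := Real.sqrt_pos.2 hc
  have hle : ∀ k ∈ range (n + 1), bw n s k * |(k : ℝ) - n * s| ≤
      1 / (2 * Real.sqrt c) * (bw n s k * ((k : ℝ) - n * s) ^ 2) +
        Real.sqrt c / 2 * bw n s k := by
    intro k _
    have hb := bw_nonneg (H := n) h0 h1 k
    have h2 : |(k : ℝ) - n * s| ≤ 1 / (2 * Real.sqrt c) * ((k : ℝ) - n * s) ^ 2 +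
        Real.sqrt c / 2 := by
      rw [← sq_abs ((k : ℝ) - n * s)]
      generalize |(k : ℝ) - n * s| = x
      have h3 : 1 / (2 * Real.sqrt c) * x ^ 2 + Real.sqrt c / 2 - x =
          (x - Real.sqrt c) ^ 2 / (2 * Real.sqrt c) := by field_simp; ring
      have h4 : 0 ≤ (x - Real.sqrt c) ^ 2 / (2 * Real.sqrt c) := by positivity
      linarith
    nlinarith [mul_le_mul_of_nonneg_left h2 hb]
  refine (Finset.sum_le_sum hle).trans ?_
  rw [Finset.sum_add_distrib, ← Finset.mul_sum, ← Finset.mul_sum, bw_sum, tilt_var]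
  have h5 : 1 / (2 * Real.sqrt c) * (n * s * (1 - s)) ≤ 1 / (2 * Real.sqrt c) * c := by gcongr
  have h6 : 1 / (2 * Real.sqrt c) * c = Real.sqrt c / 2 := by
    rw [div_mul_eq_mul_div, one_mul, div_eq_div_iff (by positivity) (by positivity)]
    have := Real.mul_self_sqrt hc.le
    linarith
  linarith

/-- comparison of two powers of the sea -/
theorem thin_two {a : Alg} {lam : ℝ} (ha : nn a) (hma : mass a = 1) (hH : H1 a 0 lam)
    (h0 : 0 < lam) (h1 : lam ≤ 1) (μ k : ℕ) (hμ : 1 ≤ μ) :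
    n1 (a ^ μ - a ^ k) ≤ (2 / Real.sqrt (lam * (μ / 2)) + 4 / μ) * |(k : ℝ) - μ| := by
  have hμ0 : (0 : ℝ) < μ := by exact_mod_cast hμ
  have hsq : 0 < Real.sqrt (lam * ((μ : ℝ) / 2)) := Real.sqrt_pos.2 (by positivity)
  rcases le_total μ k with hk | hk
  · obtain ⟨M, hM⟩ := Nat.exists_eq_add_of_le hk
    have h2 := alpha ha hma hH h0 h1 μ μ M (by simp)
    rw [n1_sub_comm, hM]
    refine h2.trans ?_
    push_cast
    rw [add_sub_cancel_left, abs_of_nonneg (show (0 : ℝ) ≤ M by positivity)]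
    have h3 : 2 * (M : ℝ) / Real.sqrt (lam * (μ + 1)) ≤
        2 * M / Real.sqrt (lam * (μ / 2)) := by
      have : lam * ((μ : ℝ) / 2) ≤ lam * (μ + 1) := by
        have : (μ : ℝ) / 2 ≤ μ + 1 := by linarith
        gcongr
      gcongr
    have h4 : (0 : ℝ) ≤ 4 / μ * M := by positivity
    have h5 : 2 * (M : ℝ) / Real.sqrt (lam * (μ / 2)) = 2 / Real.sqrt (lam * (μ / 2)) * M := by
      ring
    rw [add_mul]
    linarith
  · obtain ⟨M, hM⟩ := Nat.exists_eq_add_of_le hk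
    have hab : |(k : ℝ) - μ| = M := by
      rw [hM]; push_cast
      rw [abs_sub_comm, add_sub_cancel_left, abs_of_nonneg (show (0 : ℝ) ≤ M by positivity)]
    rw [hab]
    by_cases hc : (μ : ℝ) / 2 ≤ k
    · have h2 := alpha ha hma hH h0 h1 k k M (by simp)
      rw [← hM] at h2
      refine h2.trans ?_
      have h3 : 2 * (M : ℝ) / Real.sqrt (lam * (k + 1)) ≤
          2 * M / Real.sqrt (lam * (μ / 2)) := by
        have : lam * ((μ : ℝ) / 2) ≤ lam * (k + 1) := by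
          have : (μ : ℝ) / 2 ≤ k + 1 := by linarith
          gcongr
        gcongr
      have h4 : (0 : ℝ) ≤ 4 / μ * M := by positivity
      have h5 : 2 * (M : ℝ) / Real.sqrt (lam * (μ / 2)) = 2 / Real.sqrt (lam * (μ / 2)) * M := by
        ring
      rw [add_mul]
      linarith
    · push Not at hc
      have h2 : n1 (a ^ μ - a ^ k) ≤ 2 := by
        refine (n1_sub_le _ _).trans ?_
        rw [n1_pow_nn ha hma, n1_pow_nn ha hma]; norm_num
      have h3 : (μ : ℝ) / 2 ≤ M := by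
        have : (μ : ℝ) = k + M := by exact_mod_cast hM
        linarith
      have h4 : 2 ≤ 4 / (μ : ℝ) * M := by
        rw [div_mul_eq_mul_div, le_div_iff₀ hμ0]; linarith
      have h5 : (0 : ℝ) ≤ 2 / Real.sqrt (lam * (μ / 2)) * M := by positivity
      rw [add_mul]
      linarith

/-- THINNING. `e_θ = (1-s) 1 + s e_θ₁`, `s = m/(m+1)`, so `e_θ^((m+1)c)` is the mixture of
`e_θ₁^k`, `k` binomial with mean `m c` and variance `≤ c`; then `alpha` with `K = 0`. -/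
theorem thin {q θ : ℝ} (h0 : 0 < q) (h1 : q < 1) (t0 : 0 < θ) (t1 : θ < 1) (ε : ℝ) (hε : 0 < ε) :
    ∃ m0 : ℕ, ∀ m : ℕ, m0 ≤ m → ∀ c : ℕ, 1 ≤ c →
      n1 (eS q (θ * (m + 1) / m) ^ (m * c) - eS q θ ^ ((m + 1) * c)) ≤ ε := by
  have hθθ : 0 < 1 - θ := by linarith
  obtain ⟨l, hl⟩ : ∃ l : ℝ, l = (1 - θ) / 2 := ⟨_, rfl⟩
  have hl0 : 0 < l := by rw [hl]; positivity
  obtain ⟨m0, hm0⟩ := exists_nat_ge (max (max 1 (2 * θ / (1 - θ))) (max (32 / (l * ε ^ 2)) (8 / ε)))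
  refine ⟨m0, fun m hm c hc => ?_⟩
  have hmm : (m0 : ℝ) ≤ m := by exact_mod_cast hm
  have b1 : (1 : ℝ) ≤ m := ((le_max_left _ _).trans (le_max_left _ _)).trans (hm0.trans hmm)
  have b2 : 2 * θ / (1 - θ) ≤ m :=
    ((le_max_right _ _).trans (le_max_left _ _)).trans (hm0.trans hmm)
  have b3 : 32 / (l * ε ^ 2) ≤ m :=
    ((le_max_left _ _).trans (le_max_right _ _)).trans (hm0.trans hmm)
  have b4 : 8 / ε ≤ m := ((le_max_right _ _).trans (le_max_right _ _)).trans (hm0.trans hmm)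
  clear hmm hm0 hm
  have hmpos : (0 : ℝ) < m := by linarith
  have hm1 : 1 ≤ m := by exact_mod_cast b1
  have hc1 : (1 : ℝ) ≤ c := by exact_mod_cast hc
  have hcpos : (0 : ℝ) < c := by linarith
  rw [div_le_iff₀ hθθ] at b2
  rw [div_le_iff₀ (by positivity)] at b3
  rw [div_le_iff₀ hε] at b4
  have hθ1 : θ * (m + 1) / m ≤ (1 + θ) / 2 := by
    rw [div_le_iff₀ hmpos]
    linarith
  obtain ⟨θ₁, hθ₁⟩ : ∃ θ₁ : ℝ, θ₁ = θ * (m + 1) / m := ⟨_, rfl⟩
  have hθ₁0 : 0 < θ₁ := by rw [hθ₁]; positivity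
  rw [← hθ₁] at hθ1
  have hlam : l ≤ 1 - θ₁ := by rw [hl]; linarith
  have hθ₁1 : θ₁ ≤ 1 := by linarith
  have ha := nn_eS (q := q) h0 h1 hθ₁0.le hθ₁1
  have hma := mass_eS (q := q) h0 h1 θ₁
  have hH := H1_eS (q := q) h0 h1 hθ₁0.le hθ₁1
  obtain ⟨n, hn⟩ : ∃ n : ℕ, n = (m + 1) * c := ⟨_, rfl⟩
  obtain ⟨μ, hμ⟩ : ∃ μ : ℕ, μ = m * c := ⟨_, rfl⟩
  obtain ⟨s, hs⟩ : ∃ s : ℝ, s = (m : ℝ) / (m + 1) := ⟨_, rfl⟩
  have hs0 : 0 ≤ s := by rw [hs]; positivity
  have hs1 : s ≤ 1 := by rw [hs, div_le_one (by positivity)]; linarith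
  have hns : (n : ℝ) * s = μ := by
    rw [hn, hs, hμ]; push_cast; field_simp
  have hexp := thin_expand (q := q) (θ := θ) m n hm1
  rw [← hθ₁, ← hs] at hexp
  rw [← hθ₁, ← hn, ← hμ, hexp]
  have hμ1 : 1 ≤ μ := by rw [hμ]; exact Nat.mul_pos hm1 hc
  have hdiff : eS q θ₁ ^ μ - ∑ k ∈ range (n + 1), bw n s k • eS q θ₁ ^ k =
      ∑ k ∈ range (n + 1), bw n s k • (eS q θ₁ ^ μ - eS q θ₁ ^ k) := by
    simp only [smul_sub, Finset.sum_sub_distrib]
    rw [← Finset.sum_smul, bw_sum, one_smul]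
  have hbound : n1 (∑ k ∈ range (n + 1), bw n s k • (eS q θ₁ ^ μ - eS q θ₁ ^ k)) ≤
      (2 / Real.sqrt ((1 - θ₁) * (μ / 2)) + 4 / μ) * Real.sqrt c := by
    refine (n1_sum_le _ _).trans ?_
    have hv : (n : ℝ) * s * (1 - s) ≤ c := by
      rw [hns, hs, hμ]
      have : (1 : ℝ) - m / (m + 1) = 1 / (m + 1) := by field_simp; ring
      rw [this]; push_cast
      rw [mul_one_div, div_le_iff₀ (by positivity)]
      nlinarith
    have habs := thin_abs n hs0 hs1 hcpos hv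
    rw [hns] at habs
    have hpos : 0 ≤ 2 / Real.sqrt ((1 - θ₁) * (μ / 2)) + 4 / μ := by positivity
    refine le_trans ?_ (mul_le_mul_of_nonneg_left habs hpos)
    rw [Finset.mul_sum]
    refine Finset.sum_le_sum fun k _ => ?_
    have hb := bw_nonneg (H := n) hs0 hs1 k
    rw [n1_smul, abs_of_nonneg hb]
    have h2 := thin_two ha hma hH (by linarith) (by linarith) μ k hμ1
    have h3 := mul_le_mul_of_nonneg_left h2 hb
    linarith
  rw [hdiff]
  refine hbound.trans ?_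
  have hμR : (μ : ℝ) = m * c := by rw [hμ]; push_cast; ring
  have hsc : 0 < Real.sqrt c := Real.sqrt_pos.2 hcpos
  have hcc : Real.sqrt c * Real.sqrt c = c := Real.mul_self_sqrt hcpos.le
  have hscle : Real.sqrt c ≤ c := by
    have : 1 ≤ Real.sqrt c := by rw [Real.one_le_sqrt]; exact hc1
    nlinarith
  have p1 : 2 / Real.sqrt ((1 - θ₁) * (μ / 2)) * Real.sqrt c ≤ ε / 2 := by
    have q1 : Real.sqrt ((l * m / 2) * c) ≤ Real.sqrt ((1 - θ₁) * (μ / 2)) := by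
      apply Real.sqrt_le_sqrt
      rw [hμR]
      have : l * ((m : ℝ) * c / 2) ≤ (1 - θ₁) * (m * c / 2) := by gcongr
      linarith
    have q2 : 4 / ε * Real.sqrt c ≤ Real.sqrt ((l * m / 2) * c) := by
      rw [Real.sqrt_mul (by positivity)]
      have : 4 / ε ≤ Real.sqrt (l * m / 2) := by
        apply Real.le_sqrt_of_sq_le
        rw [div_pow, div_le_iff₀ (by positivity)]
        linarith
      gcongr
    have q3 : 0 < 4 / ε * Real.sqrt c := by positivity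
    calc 2 / Real.sqrt ((1 - θ₁) * (μ / 2)) * Real.sqrt c
        ≤ 2 / (4 / ε * Real.sqrt c) * Real.sqrt c := by
          have := q2.trans q1
          gcongr
      _ = ε / 2 := by field_simp; ring
  have p2 : 4 / (μ : ℝ) * Real.sqrt c ≤ ε / 2 := by
    rw [hμR, div_mul_eq_mul_div, div_le_iff₀ (by positivity)]
    have h5 : 4 * Real.sqrt c ≤ 4 * c := by gcongr
    have h6 : 8 * (c : ℝ) ≤ m * ε * c := by gcongr
    linarith
  rw [add_mul]
  linarith

end Vale.Agent.P321
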