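import Vale.Agent.P321.GBs
import Vale.Agent.P321.HOne

namespace Vale.Agent.P321

open Finset

variable {h : ℕ} {c : ℝ} {a T : Alg} {N p0 K d J : ℕ} {b e : ℤ → ℝ} {lam : ℝ}

/-- The linear combination of the branches of one pair of coin blocks. -/
noncomputable def ZoneOp (A0 A1 μ ν₀ ν₁ Z U0 U1 : Alg) : Alg :=
  μ * Z * μ + ((1 / 2 : ℝ) • (ν₀ * U0 * A1 + μ * U0 * ν₁) +
    (1 / 2 : ℝ) • (ν₁ * U1 * A0 + μ * U1 * ν₀))

theorem zone_op_ident {A0 A1 μ ν₀ ν₁ U0 U1 : Alg} (h0 : A0 = μ + ν₀) (h1 : A1 = μ + ν₁) :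
    ZoneOp A0 A1 μ ν₀ ν₁ ((1 / 2 : ℝ) • (U0 + U1)) U0 U1 =
      (1 / 2 : ℝ) • (A0 * U0 * A1) + (1 / 2 : ℝ) • (A1 * U1 * A0) := by
  subst h0 h1
  unfold ZoneOp
  simp only [mul_add, add_mul, smul_add, mul_smul_comm, smul_mul_assoc]
  abel

theorem zone_op_sub {A0 A1 μ ν₀ ν₁ Z U0 U1 Z' U0' U1' : Alg} :
    ZoneOp A0 A1 μ ν₀ ν₁ Z U0 U1 - ZoneOp A0 A1 μ ν₀ ν₁ Z' U0' U1' =
      ZoneOp A0 A1 μ ν₀ ν₁ (Z - Z') (U0 - U0') (U1 - U1') := by
  unfold ZoneOp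
  simp only [mul_sub, sub_mul, smul_add, smul_sub]
  abel

theorem zone_op_n1 {A0 A1 μ ν₀ ν₁ Z U0 U1 : Alg} (hμ : nn μ) (hν₀ : nn ν₀) (hν₁ : nn ν₁)
    (hA0 : nn A0) (hA1 : nn A1) (hm0 : mass A0 = 1) (hm1 : mass A1 = 1)
    (h0 : A0 = μ + ν₀) (h1 : A1 = μ + ν₁) (hl : mass μ = lam) :
    n1 (ZoneOp A0 A1 μ ν₀ ν₁ Z U0 U1) ≤
      lam ^ 2 * n1 Z + (1 - lam ^ 2) * ((n1 U0 + n1 U1) / 2) := by
  have e0 : mass ν₀ = 1 - lam := by
    have := mass_add μ ν₀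
    rw [← h0, hm0, hl] at this; linarith
  have e1 : mass ν₁ = 1 - lam := by
    have := mass_add μ ν₁
    rw [← h1, hm1, hl] at this; linarith
  have key : ∀ {X Y Z : Alg}, nn X → nn Z → n1 (X * Y * Z) ≤ mass X * n1 Y * mass Z := by
    intro X Y Z hX hZ
    refine (n1_mul_le _ _).trans ?_
    rw [n1_of_nn hZ]
    refine mul_le_mul_of_nonneg_right ?_ (mass_nonneg hZ)
    refine (n1_mul_le _ _).trans ?_
    rw [n1_of_nn hX]
  unfold ZoneOp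
  have t1 : n1 (μ * Z * μ) ≤ lam * n1 Z * lam := by
    have := key (Y := Z) hμ hμ
    rwa [hl] at this
  have t2 : n1 (ν₀ * U0 * A1) ≤ (1 - lam) * n1 U0 * 1 := by
    have := key (Y := U0) hν₀ hA1
    rwa [e0, hm1] at this
  have t3 : n1 (μ * U0 * ν₁) ≤ lam * n1 U0 * (1 - lam) := by
    have := key (Y := U0) hμ hν₁
    rwa [hl, e1] at this
  have t4 : n1 (ν₁ * U1 * A0) ≤ (1 - lam) * n1 U1 * 1 := by
    have := key (Y := U1) hν₁ hA0
    rwa [e1, hm0] at this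
  have t5 : n1 (μ * U1 * ν₀) ≤ lam * n1 U1 * (1 - lam) := by
    have := key (Y := U1) hμ hν₀
    rwa [hl, e0] at this
  have s1 := n1_add_le (μ * Z * μ) ((1 / 2 : ℝ) • (ν₀ * U0 * A1 + μ * U0 * ν₁) +
    (1 / 2 : ℝ) • (ν₁ * U1 * A0 + μ * U1 * ν₀))
  have s2 := n1_add_le ((1 / 2 : ℝ) • (ν₀ * U0 * A1 + μ * U0 * ν₁))
    ((1 / 2 : ℝ) • (ν₁ * U1 * A0 + μ * U1 * ν₀))
  rw [n1_smul, n1_smul] at s2
  have s3 := n1_add_le (ν₀ * U0 * A1) (μ * U0 * ν₁)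
  have s4 := n1_add_le (ν₁ * U1 * A0) (μ * U1 * ν₀)
  have ha : |(1 / 2 : ℝ)| = 1 / 2 := abs_of_nonneg (by norm_num)
  rw [ha] at s2
  nlinarith [s1, s2, s3, s4, t1, t2, t3, t4, t5]

theorem zone_op_const {μ ν₀ ν₁ : Alg} {m : ℕ} (h0 : a ^ K = μ + ν₀) (h1 : a ^ (K + 1) = μ + ν₁) :
    ZoneOp (a ^ K) (a ^ (K + 1)) μ ν₀ ν₁ (a ^ m) (a ^ m) (a ^ m) = a ^ (m + (K + (K + 1))) := by
  have hid := zone_op_ident (U0 := a ^ m) (U1 := a ^ m) h0 h1
  have h2 : (1 / 2 : ℝ) • (a ^ m + a ^ m) = a ^ m := by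
    rw [← two_smul ℝ (a ^ m), smul_smul]; norm_num
  rw [h2] at hid
  rw [hid]
  have e1 : a ^ K * a ^ m * a ^ (K + 1) = a ^ (m + (K + (K + 1))) := by
    rw [← pow_add, ← pow_add]; congr 1; ring
  have e2 : a ^ (K + 1) * a ^ m * a ^ K = a ^ (m + (K + (K + 1))) := by
    rw [← pow_add, ← pow_add]; congr 1; ring
  rw [e1, e2, ← smul_add, ← two_smul ℝ, smul_smul]; norm_num

theorem zone_fam_left {p s : ℕ} {D : ℤ} (hp : |D| ≤ (p : ℤ)) (hs : |D| ≤ (s : ℤ)) :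
    a ^ K * Fam a T (p + 1) s D * a ^ (K + 1) = Fam a T (p + (K + 1)) (s + (K + 1)) D := by
  unfold Fam
  have h1 := abs_le.1 hp
  have h2 := abs_le.1 hs
  have e1 : (((p + (K + 1) : ℕ) : ℤ) - D).toNat = K + (((p + 1 : ℕ) : ℤ) - D).toNat := by
    push_cast; omega
  have e2 : (((s + (K + 1) : ℕ) : ℤ) + D).toNat = ((s : ℤ) + D).toNat + (K + 1) := by
    push_cast; omega
  rw [e1, e2, pow_add a K (((p + 1 : ℕ) : ℤ) - D).toNat, pow_add a _ (K + 1)]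
  simp only [mul_assoc]

theorem zone_fam_right {p s : ℕ} {D : ℤ} (hp : |D| ≤ (p : ℤ)) (hs : |D| ≤ (s : ℤ)) :
    a ^ (K + 1) * Fam a T p (s + 1) D * a ^ K = Fam a T (p + (K + 1)) (s + (K + 1)) D := by
  unfold Fam
  have h1 := abs_le.1 hp
  have h2 := abs_le.1 hs
  have e1 : (((p + (K + 1) : ℕ) : ℤ) - D).toNat = (K + 1) + ((p : ℤ) - D).toNat := by
    push_cast; omega
  have e2 : (((s + (K + 1) : ℕ) : ℤ) + D).toNat = (((s + 1 : ℕ) : ℤ) + D).toNat + K := by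
    push_cast; omega
  rw [e1, e2, pow_add a (K + 1), pow_add a _ K]
  simp only [mul_assoc]

theorem zone_fam_shift {p s : ℕ} {D : ℤ} :
    Fam a T (p + 1) s (D + 1) = Fam a T p (s + 1) D := by
  unfold Fam
  congr 3
  · push_cast; omega
  · push_cast; omega

theorem zone_n1_fam (ha : nn a) (hm : mass a = 1) (hT : n1 T ≤ 1) (p s : ℕ) (D : ℤ) :
    n1 (Fam a T p s D) ≤ 1 := by
  unfold Fam
  have h1 : ∀ n : ℕ, mass (a ^ n) ≤ 1 := fun n => by rw [mass_pow, hm, one_pow]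
  exact ((n1_mul_right_le (nn_pow ha _) (h1 _) _).trans
    (n1_mul_left_le (nn_pow ha _) (h1 _) _)).trans hT

theorem zone_far (ha : nn a) (hm : mass a = 1) (hc0 : 0 ≤ c) (hc1 : c ≤ 1) (hT : n1 T ≤ 1)
    (p s m : ℕ) (D : ℤ) : n1 (Fam a T p s D - c • a ^ m) ≤ 2 := by
  refine (n1_sub_le _ _).trans ?_
  rw [n1_smul, n1_pow_nn ha hm, abs_of_nonneg hc0]
  linarith [zone_n1_fam ha hm hT p s D]

theorem zone_sum_fam {ε : ℤ} (hε : ε = 1 ∨ ε = -1) {p s : ℕ} (D : ℤ) :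
    (fun D => if ε = 1 then Fam a T (p + 1) s D else Fam a T p (s + 1) D) D +
      (fun D => if ε = 1 then Fam a T (p + 1) s D else Fam a T p (s + 1) D) (D + ε) =
    Fam a T (p + 1) s D + Fam a T p (s + 1) D := by
  rcases hε with rfl | rfl
  · simp only [if_true, zone_fam_shift]
  · have h1 : ¬ ((-1 : ℤ) = 1) := by norm_num
    simp only [h1, if_false]
    rw [← zone_fam_shift (D := D + -1)]
    rw [add_comm]
    congr 2
    ring

theorem zone_core_err {ε : ℤ} (hε : ε = 1 ∨ ε = -1) (ha : nn a) (hm : mass a = 1)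
    {μ ν₀ ν₁ : Alg} (hμ : nn μ) (hν₀ : nn ν₀) (hν₁ : nn ν₁)
    (hA0 : a ^ K = μ + ν₀) (hA1 : a ^ (K + 1) = μ + ν₁) (hl : mass μ = lam)
    (h0 : 0 < lam) (h1 : lam ≤ 1) (hc0 : 0 ≤ c) (hc1 : c ≤ 1) (hT : n1 T ≤ 1)
    {e e1 : ℤ → ℝ} {p s : ℕ} (hp : d + 1 ≤ p) (hs : d + 1 ≤ s) {Y U0 U1 : ℤ → Alg}
    (hY : ∀ D, n1 ((if ε = 1 then Fam a T (p + 1) s D else Fam a T p (s + 1) D) - Y D) ≤ e D)
    (hU0 : ∀ D, n1 (Fam a T (p + 1) s D - U0 D) ≤ e1 D)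
    (hU1 : ∀ D, n1 (Fam a T p (s + 1) D - U1 D) ≤ e1 D)
    (he : ∀ D : ℤ, (d : ℤ) + 1 < |D| →
      2 ≤ lam ^ 2 * ((e D + e (D + ε)) / 2) + (1 - lam ^ 2) * e1 D) (m : ℕ) (D : ℤ) :
    n1 (Fam a T (p + (K + 1)) (s + (K + 1)) D -
      (if |D| ≤ (d : ℤ) + 1 then
        ZoneOp (a ^ K) (a ^ (K + 1)) μ ν₀ ν₁ ((1 / 2 : ℝ) • (Y D + Y (D + ε))) (U0 D) (U1 D)
        else c • a ^ m)) ≤
      lam ^ 2 * ((e D + e (D + ε)) / 2) + (1 - lam ^ 2) * e1 D := by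
  have hl2 : 0 ≤ 1 - lam ^ 2 := by nlinarith
  by_cases hD : |D| ≤ (d : ℤ) + 1
  · rw [if_pos hD]
    have hpD : |D| ≤ (p : ℤ) := by
      have : ((d + 1 : ℕ) : ℤ) ≤ p := by exact_mod_cast hp
      push_cast at this; linarith
    have hsD : |D| ≤ (s : ℤ) := by
      have : ((d + 1 : ℕ) : ℤ) ≤ s := by exact_mod_cast hs
      push_cast at this; linarith
    have hF : Fam a T (p + (K + 1)) (s + (K + 1)) D =
        ZoneOp (a ^ K) (a ^ (K + 1)) μ ν₀ ν₁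
          ((1 / 2 : ℝ) • (Fam a T (p + 1) s D + Fam a T p (s + 1) D))
          (Fam a T (p + 1) s D) (Fam a T p (s + 1) D) := by
      rw [zone_op_ident hA0 hA1, zone_fam_left hpD hsD, zone_fam_right hpD hsD, ← smul_add,
        ← two_smul ℝ, smul_smul]
      norm_num
    rw [hF, zone_op_sub]
    refine (zone_op_n1 hμ hν₀ hν₁ (nn_pow ha _) (nn_pow ha _) (by rw [mass_pow, hm, one_pow])
      (by rw [mass_pow, hm, one_pow]) hA0 hA1 hl).trans ?_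
    refine add_le_add (mul_le_mul_of_nonneg_left ?_ (sq_nonneg _))
      (mul_le_mul_of_nonneg_left (by linarith [hU0 D, hU1 D]) hl2)
    have hsum := zone_sum_fam (a := a) (T := T) hε (p := p) (s := s) D
    simp only at hsum
    rw [← hsum, ← smul_sub, n1_smul, abs_of_nonneg (by norm_num : (0 : ℝ) ≤ 1 / 2)]
    have hre : ∀ A B C E : Alg, (A + B) - (C + E) = (A - C) + (B - E) := by
      intro A B C E; abel
    rw [hre]
    have := n1_add_le ((if ε = 1 then Fam a T (p + 1) s D else Fam a T p (s + 1) D) - Y D)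
      ((if ε = 1 then Fam a T (p + 1) s (D + ε) else Fam a T p (s + 1) (D + ε)) - Y (D + ε))
    linarith [hY D, hY (D + ε)]
  · rw [if_neg hD]
    exact (zone_far ha hm hc0 hc1 hT _ _ _ _).trans (he D (not_le.1 hD))

theorem zone_opQ_avg {ε : ℤ} (hε : ε = 1 ∨ ε = -1) (b : ℤ → ℝ) (D D' : ℤ) :
    (b (D - D') + b (D - (D' + ε)) + b (D + ε - D') + b (D + ε - (D' + ε))) / 4 =
      opQ b (D - D') := by
  unfold opQ
  rcases hε with rfl | rfl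
  · have e1 : D - (D' + 1) = D - D' - 1 := by ring
    have e2 : D + 1 - D' = D - D' + 1 := by ring
    have e3 : D + 1 - (D' + 1) = D - D' := by ring
    rw [e1, e2, e3]; ring
  · have e1 : D - (D' + -1) = D - D' + 1 := by ring
    have e2 : D + -1 - D' = D - D' - 1 := by ring
    have e3 : D + -1 - (D' + -1) = D - D' := by ring
    rw [e1, e2, e3]; ring

/-- Lower bound of the Gram function. -/
theorem zone_hyp_lower (hyp : Hyp h c a T N p0 b e) (D : ℤ) : c * c ≤ b D := by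
  obtain ⟨Y, hY, -⟩ := hyp p0 p0 le_rfl le_rfl
  have := hY.2.2.1 D 0
  simpa using this

theorem zone_opQ_lower (hb : ∀ D, c * c ≤ b D) (D : ℤ) : c * c ≤ opQ b D := by
  unfold opQ
  linarith [hb (D - 1), hb D, hb (D + 1)]

/-- One pair, general `h`. -/
theorem zone_step {ε : ℤ} (hε : ε = 1 ∨ ε = -1) (ha : nn a) (hm : mass a = 1)
    (hH : H1 a K lam) (h0 : 0 < lam) (h1 : lam ≤ 1) (hc0 : 0 ≤ c) (hc1 : c ≤ 1) (hT : n1 T ≤ 1)
    {e1 : ℤ → ℝ} {p1 : ℕ} (hp01 : p0 ≤ p1) (hd : d + 1 ≤ p1)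
    (he : ∀ D : ℤ, (d : ℤ) + 1 < |D| →
      2 ≤ lam ^ 2 * ((e D + e (D + ε)) / 2) + (1 - lam ^ 2) * e1 D)
    (hyp : Hyp h c a T N p0 b e) (hyp1 : Hyp h c a T N p1 (opQ b) e1) :
    Hyp h c a T N (p1 + (K + 1)) (opQ b)
      (fun D => lam ^ 2 * ((e D + e (D + ε)) / 2) + (1 - lam ^ 2) * e1 D) := by
  intro p s hp hs
  obtain ⟨p', rfl⟩ : ∃ p', p = p' + (K + 1) := ⟨p - (K + 1), by omega⟩
  obtain ⟨s', rfl⟩ : ∃ s', s = s' + (K + 1) := ⟨s - (K + 1), by omega⟩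
  have hp' : p1 ≤ p' := by omega
  have hs' : p1 ≤ s' := by omega
  obtain ⟨μ, ν₀, ν₁, hμ, hν₀, hν₁, hA0, hA1, hl⟩ := hH
  -- the element for the coin part
  obtain ⟨Y, hYG, hYe⟩ : ∃ Y : ℤ → Alg,
      GB h (fun _ => c) Y (a ^ (p' + s' + 1 + N)) (fun D D' => b (D - D')) ∧
      ∀ D, n1 ((if ε = 1 then Fam a T (p' + 1) s' D else Fam a T p' (s' + 1) D) - Y D) ≤ e D := by
    by_cases h : ε = 1
    · obtain ⟨Y, h2, h3⟩ := hyp (p' + 1) s' (by omega) (by omega)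
      refine ⟨Y, ?_, fun D => by simpa [h] using h3 D⟩
      have : p' + s' + 1 + N = p' + 1 + s' + N := by ring
      rw [this]; exact h2
    · obtain ⟨Y, h2, h3⟩ := hyp p' (s' + 1) (by omega) (by omega)
      refine ⟨Y, ?_, fun D => by simpa [h] using h3 D⟩
      have : p' + s' + 1 + N = p' + (s' + 1) + N := by ring
      rw [this]; exact h2
  obtain ⟨U0, hU0G, hU0e⟩ := hyp1 (p' + 1) s' (by omega) (by omega)
  obtain ⟨U1, hU1G, hU1e⟩ := hyp1 p' (s' + 1) (by omega) (by omega)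
  have q0 : p' + 1 + s' + N = p' + s' + 1 + N := by ring
  have q1 : p' + (s' + 1) + N = p' + s' + 1 + N := by ring
  rw [q0] at hU0G
  rw [q1] at hU1G
  have hq : p' + (K + 1) + (s' + (K + 1)) + N = (p' + s' + 1 + N) + (K + (K + 1)) := by ring
  set m : ℕ := p' + s' + 1 + N with hmdef
  have hAvg := GB_avg (B := fun D D' => b (D - D')) ε hYG
  simp only [zone_opQ_avg hε b] at hAvg
  have nA0 : nn (a ^ K) := nn_pow ha _
  have nA1 : nn (a ^ (K + 1)) := nn_pow ha _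
  have G1 := GB_mul_right hμ (GB_mul_left hμ hAvg)
  have G2 := GB_mul_right nA1 (GB_mul_left hν₀ hU0G)
  have G3 := GB_mul_right hν₁ (GB_mul_left hμ hU0G)
  have G4 := GB_mul_right nA0 (GB_mul_left hν₁ hU1G)
  have G5 := GB_mul_right hν₀ (GB_mul_left hμ hU1G)
  have hhalf : (0 : ℝ) ≤ 1 / 2 := by norm_num
  have G := GB_add G1 (GB_add (GB_smul hhalf (GB_add G2 G3)) (GB_smul hhalf (GB_add G4 G5)))
  have hlow : ∀ D, c * c ≤ opQ b D := zone_opQ_lower (zone_hyp_lower hyp)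
  have G' := GB_replace (fun D : ℤ => |D| ≤ (d : ℤ) + 1) G (B₁ := fun D D' => opQ b (D - D'))
    (fun _ _ _ _ => le_rfl) (fun _ _ => hlow _)
  have hqq : μ * a ^ m * μ + ((1 / 2 : ℝ) • (ν₀ * a ^ m * a ^ (K + 1) + μ * a ^ m * ν₁) +
      (1 / 2 : ℝ) • (ν₁ * a ^ m * a ^ K + μ * a ^ m * ν₀)) = a ^ (m + (K + (K + 1))) :=
    zone_op_const hA0 hA1
  refine ⟨_, ?_, fun D => zone_core_err hε ha hm hμ hν₀ hν₁ hA0 hA1 hl h0 h1 hc0 hc1 hT
    (p := p') (s := s') (by omega) (by omega) (Y := Y) (U0 := U0) (U1 := U1) hYe hU0e hU1e he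
    (m + (K + (K + 1))) D⟩
  rw [hq]
  rw [← hqq]
  exact G'

/-- One pair, `h = 1`. -/
theorem pair_step {ε : ℤ} (hε : ε = 1 ∨ ε = -1) (ha : nn a) (hm : mass a = 1)
    (hH : H1 a K lam) (h0 : 0 < lam) (h1 : lam ≤ 1) (hc0 : 0 ≤ c) (hc1 : c ≤ 1) (hT : n1 T ≤ 1)
    (hd : d + 1 ≤ p0)
    (he : ∀ D : ℤ, (d : ℤ) + 1 < |D| →
      2 ≤ lam ^ 2 * ((e D + e (D + ε)) / 2) + (1 - lam ^ 2) * e D)
    (hyp : Hyp 1 c a T N p0 b e) :
    Hyp 1 c a T N (p0 + (K + 1)) (opR (lam ^ 2) b)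
      (fun D => lam ^ 2 * ((e D + e (D + ε)) / 2) + (1 - lam ^ 2) * e D) := by
  intro p s hp hs
  obtain ⟨p', rfl⟩ : ∃ p', p = p' + (K + 1) := ⟨p - (K + 1), by omega⟩
  obtain ⟨s', rfl⟩ : ∃ s', s = s' + (K + 1) := ⟨s - (K + 1), by omega⟩
  have hp' : p0 ≤ p' := by omega
  have hs' : p0 ≤ s' := by omega
  obtain ⟨μ, ν₀, ν₁, hμ, hν₀, hν₁, hA0, hA1, hl⟩ := hH
  obtain ⟨U0, hU0G, hU0e⟩ := hyp (p' + 1) s' (by omega) (by omega)
  obtain ⟨U1, hU1G, hU1e⟩ := hyp p' (s' + 1) (by omega) (by omega)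
  have q0 : p' + 1 + s' + N = p' + s' + 1 + N := by ring
  have q1 : p' + (s' + 1) + N = p' + s' + 1 + N := by ring
  rw [q0] at hU0G
  rw [q1] at hU1G
  have hq : p' + (K + 1) + (s' + (K + 1)) + N = (p' + s' + 1 + N) + (K + (K + 1)) := by ring
  set m : ℕ := p' + s' + 1 + N with hmdef
  -- the element for the coin part
  obtain ⟨Y, hYG, hYe⟩ : ∃ Y : ℤ → Alg,
      GB 1 (fun _ => c) Y (a ^ m) (fun D D' => b (D - D')) ∧
      ∀ D, n1 ((if ε = 1 then Fam a T (p' + 1) s' D else Fam a T p' (s' + 1) D) - Y D) ≤ e D := by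
    by_cases h : ε = 1
    · exact ⟨U0, hU0G, fun D => by simpa [h] using hU0e D⟩
    · exact ⟨U1, hU1G, fun D => by simpa [h] using hU1e D⟩
  have hAvg := GB_avg (B := fun D D' => b (D - D')) ε hYG
  simp only [zone_opQ_avg hε b] at hAvg
  have nA0 : nn (a ^ K) := nn_pow ha _
  have nA1 : nn (a ^ (K + 1)) := nn_pow ha _
  have G1 := GB_mul_right hμ (GB_mul_left hμ hAvg)
  have G2 := GB_mul_right nA1 (GB_mul_left hν₀ hU0G)
  have G3 := GB_mul_right hν₁ (GB_mul_left hμ hU0G)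
  have G4 := GB_mul_right nA0 (GB_mul_left hν₁ hU1G)
  have G5 := GB_mul_right hν₀ (GB_mul_left hμ hU1G)
  have hhalf : (0 : ℝ) ≤ 1 / 2 := by norm_num
  have GR := GB_add (GB_smul hhalf (GB_add G2 G3)) (GB_smul hhalf (GB_add G4 G5))
  have hqq : μ * a ^ m * μ + ((1 / 2 : ℝ) • (ν₀ * a ^ m * a ^ (K + 1) + μ * a ^ m * ν₁) +
      (1 / 2 : ℝ) • (ν₁ * a ^ m * a ^ K + μ * a ^ m * ν₀)) = a ^ (m + (K + (K + 1))) :=
    zone_op_const hA0 hA1
  have hmu : mass (μ * a ^ m * μ) = lam ^ 2 := by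
    rw [mass_mul, mass_mul, mass_pow, hm, hl]; ring
  have htot : mass (μ * a ^ m * μ) + mass ((1 / 2 : ℝ) • (ν₀ * a ^ m * a ^ (K + 1) +
      μ * a ^ m * ν₁) + (1 / 2 : ℝ) • (ν₁ * a ^ m * a ^ K + μ * a ^ m * ν₀)) = 1 := by
    rw [← mass_add, hqq, mass_pow, hm, one_pow]
  have G := GB_add_one G1 GR htot
  have hmr : mass ((1 / 2 : ℝ) • (ν₀ * a ^ m * a ^ (K + 1) +
      μ * a ^ m * ν₁) + (1 / 2 : ℝ) • (ν₁ * a ^ m * a ^ K + μ * a ^ m * ν₀)) = 1 - lam ^ 2 := by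
    linarith
  rw [hmu, hmr] at G
  have hl2 : 0 ≤ 1 - lam ^ 2 := by nlinarith
  have hlow : ∀ D, c * c ≤ opR (lam ^ 2) b D := by
    intro D
    unfold opR
    have h1 := zone_opQ_lower (zone_hyp_lower hyp) D
    have h2 := zone_hyp_lower hyp D
    nlinarith [sq_nonneg lam]
  have G' := GB_replace (fun D : ℤ => |D| ≤ (d : ℤ) + 1) G
    (B₁ := fun D D' => opR (lam ^ 2) b (D - D'))
    (fun _ _ _ _ => le_of_eq (by rfl)) (fun _ _ => hlow _)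
  refine ⟨_, ?_, fun D => zone_core_err hε ha hm hμ hν₀ hν₁ hA0 hA1 hl h0 h1 hc0 hc1 hT
    (p := p') (s := s') (by omega) (by omega) (Y := Y) (U0 := U0) (U1 := U1) hYe hU0e hU1e he
    (m + (K + (K + 1))) D⟩
  rw [hq]
  rw [← hqq]
  exact G'

theorem zone_one {ε : ℤ} (hε : ε = 1 ∨ ε = -1) (hh : 1 ≤ h) (ha : nn a) (hm : mass a = 1)
    (hH : H1 a K lam) (h0 : 0 < lam)
    (h1 : lam ≤ 1) (hc0 : 0 ≤ c) (hc1 : c ≤ 1) (hT : n1 T ≤ 1) (hd : d + 1 ≤ p0)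
    (he : ∀ D : ℤ, (d : ℤ) < |D| → 2 ≤ e D) (he0 : ∀ D, 0 ≤ e D)
    (hyp : Hyp h c a T N p0 b e) (J : ℕ) :
    Hyp h c a T N (p0 + J * (K + 1)) (opQ b)
      (fun D => (e D + e (D + ε)) / 2 + 2 * (1 - lam ^ 2) ^ J) := by
  have hl2 : 0 ≤ 1 - lam ^ 2 := by nlinarith
  have hlow : ∀ D, c * c ≤ opQ b D := zone_opQ_lower (zone_hyp_lower hyp)
  induction J with
  | zero =>
    intro p s hp hs
    refine ⟨fun _ => c • a ^ (p + s + N), GB_const hh (nn_pow ha _) (fun _ => hc0)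
      (fun _ _ => hlow _), fun D => ?_⟩
    refine (zone_far ha hm hc0 hc1 hT _ _ _ _).trans ?_
    have := he0 D
    have := he0 (D + ε)
    simp only [pow_zero, mul_one]
    linarith
  | succ J ih =>
    have hstep := zone_step (d := d) hε ha hm hH h0 h1 hc0 hc1 hT (p1 := p0 + J * (K + 1))
      (by omega) (by omega) ?_ hyp ih
    · have e1 : p0 + (J + 1) * (K + 1) = p0 + J * (K + 1) + (K + 1) := by ring
      rw [e1]
      convert hstep using 2 with D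
      rw [pow_succ]; ring
    · intro D hD
      have h3 : (d : ℤ) < |D| := by linarith
      have h4 : (d : ℤ) < |D + ε| := by
        rcases hε with rfl | rfl <;> · rw [lt_abs] at hD ⊢; omega
      have h5 := he D h3
      have h6 := he (D + ε) h4
      have h7 : 0 ≤ (1 - lam ^ 2) ^ J := pow_nonneg hl2 J
      nlinarith [mul_nonneg hl2 h7, sq_nonneg lam]

/-- ZONE LEMMA. `J` pairs of each orientation give a hidden coin of each orientation, except with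
mass `(1-lam^2)^J` each.

Plus orientation, by induction on `J`, claim `Z(J)`: `Hyp h c a T N (p0 + J (K+1)) (half) e_J`
where `Y° D = (Y D + Y (D+1))/2` has Gram bound `opQ b` and
`e_J D = (e D + e (D+1))/2 + 2 (1-lam^2)^J`.
`Z(0)`: `Y = c q`. `Z(J+1)`: for `p, s`, with `I0 = Fam (p-K) (s-K-1) D`,
`I1 = Fam (p-K-1) (s-K) D = Fam (p-K) (s-K-1) (D+1)`:
`Fam p s D = 1/2 [a^K I0 a^(K+1) + a^(K+1) I1 a^K] = μ (I0+I1)/2 μ + 1/2 [ν₀ I0 a^(K+1) + μ I0 ν₁]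
+ 1/2 [ν₁ I1 a^K + μ I1 ν₀]`; use the hypothesis at `(p-K, s-K-1)` on the first part and `Z(J)` at
`(p-K, s-K-1)` and `(p-K-1, s-K)` on the rest; the references add up to `a^(p+s+N)`.
For `|D| > d+1` replace `Y D` by `c q` (`GB_replace`): the error there is at most `2`, and
`e_J D ≥ 2`. For `|D| ≤ d+1` all exponents are nonnegative since `p0 ≥ d+1`.
Minus orientation: same with `I1 = Fam (p-K-1) (s-K) D`, `I0 = Fam (p-K-1) (s-K) (D-1)`. -/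
theorem zone_both (hh : 1 ≤ h) (ha : nn a) (hm : mass a = 1) (hH : H1 a K lam) (h0 : 0 < lam)
    (h1 : lam ≤ 1) (hc0 : 0 ≤ c) (hc1 : c ≤ 1) (hT : n1 T ≤ 1) (hJ : 1 ≤ J) (hd : d + 1 ≤ p0)
    (he : ∀ D : ℤ, (d : ℤ) < |D| → 2 ≤ e D) (he0 : ∀ D, 0 ≤ e D)
    (hyp : Hyp h c a T N p0 b e) :
    Hyp h c a T N (p0 + 2 * J * (K + 1)) (opQ (opQ b))
      (fun D => opQ e D + 4 * (1 - lam ^ 2) ^ J) := by
  have hl2 : 0 ≤ 1 - lam ^ 2 := by nlinarith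
  have hJ2 : 0 ≤ (1 - lam ^ 2) ^ J := pow_nonneg hl2 J
  have hA := zone_one (ε := 1) (Or.inl rfl) hh ha hm hH h0 h1 hc0 hc1 hT hd he he0 hyp J
  have hJK : 1 ≤ J * (K + 1) := Nat.one_le_iff_ne_zero.2 (by positivity)
  have hB := zone_one (d := d + 1) (ε := -1) (Or.inr rfl) hh ha hm hH h0 h1 hc0 hc1 hT
    (by omega) ?_ ?_ hA J
  · have e1 : p0 + 2 * J * (K + 1) = p0 + J * (K + 1) + J * (K + 1) := by ring
    rw [e1]
    convert hB using 2 with D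
    unfold opQ
    have e2 : D + -1 = D - 1 := by ring
    have e3 : D - 1 + 1 = D := by ring
    rw [e2, e3]
    ring
  · intro D hD
    have h3 : (d : ℤ) < |D| := by push_cast at hD; linarith
    have h4 : (d : ℤ) < |D + 1| := by
      push_cast at hD; rw [lt_abs] at hD ⊢; omega
    linarith [he D h3, he (D + 1) h4]
  · intro D
    linarith [he0 D, he0 (D + 1)]

/-- One pair of each orientation for `h = 1`: the branches are averaged (`GB_add_one`). -/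
theorem pair_both (ha : nn a) (hm : mass a = 1) (hH : H1 a K lam) (h0 : 0 < lam)
    (h1 : lam ≤ 1) (hc0 : 0 ≤ c) (hc1 : c ≤ 1) (hT : n1 T ≤ 1) (hd : d + 1 ≤ p0)
    (he : ∀ D : ℤ, (d : ℤ) < |D| → 2 ≤ e D) (he0 : ∀ D, 0 ≤ e D)
    (hyp : Hyp 1 c a T N p0 b e) :
    Hyp 1 c a T N (p0 + 2 * (K + 1)) (opR (lam ^ 2) (opR (lam ^ 2) b))
      (fun D => ((1 - lam ^ 2 / 2) ^ 2 + (lam ^ 2 / 2) ^ 2) * e D +
        lam ^ 2 / 2 * (1 - lam ^ 2 / 2) * (e (D + 1) + e (D - 1))) := by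
  have hl2 : 0 ≤ 1 - lam ^ 2 := by nlinarith
  have h2 : 0 ≤ lam ^ 2 := sq_nonneg _
  have hA := pair_step (ε := 1) (Or.inl rfl) ha hm hH h0 h1 hc0 hc1 hT hd ?_ hyp
  · have hB := pair_step (d := d + 1) (ε := -1) (Or.inr rfl) ha hm hH h0 h1 hc0 hc1 hT
      (by omega) ?_ hA
    · have e1 : p0 + 2 * (K + 1) = p0 + (K + 1) + (K + 1) := by ring
      rw [e1]
      convert hB using 2 with D
      have e2 : D + -1 = D - 1 := by ring
      have e3 : D - 1 + 1 = D := by ring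
      rw [e2, e3]
      ring
    · intro D hD
      push_cast at hD
      have h3 : (d : ℤ) < |D| := by linarith
      have h4 : (d : ℤ) < |D + 1| := by
        rw [lt_abs] at hD ⊢; omega
      have h5 : (d : ℤ) < |D + -1| := by
        rw [lt_abs] at hD ⊢; omega
      have h6 : (d : ℤ) < |D + -1 + 1| := by
        have : D + -1 + 1 = D := by ring
        rw [this]; exact h3
      have g1 := he D h3
      have g2 := he _ h4
      have g3 := he _ h5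
      have g4 := he _ h6
      have k1 : 2 ≤ lam ^ 2 * ((e D + e (D + 1)) / 2) + (1 - lam ^ 2) * e D := by nlinarith
      have k2 : 2 ≤ lam ^ 2 * ((e (D + -1) + e (D + -1 + 1)) / 2) +
          (1 - lam ^ 2) * e (D + -1) := by nlinarith
      nlinarith
  · intro D hD
    have h3 : (d : ℤ) < |D| := by linarith
    have h4 : (d : ℤ) < |D + 1| := by
      rw [lt_abs] at hD ⊢; omega
    have g1 := he D h3
    have g2 := he _ h4
    nlinarith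

end Vale.Agent.P321
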